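import Vale.Agent.Lib.P062.Core

namespace Vale.Agent.Lib.P062.CH
open Vale.Agent.Lib.P062.Core
set_option maxRecDepth 100000
set_option linter.all false

noncomputable def D460 : OP := win (nat_lit 7) (nat_lit 9) (nat_lit 6) (nat_lit 4)
noncomputable def D459 : OP := win (nat_lit 7) (nat_lit 9) (nat_lit 5) (nat_lit 5)
noncomputable def D462 : OP := orK (nat_lit 129) (fin (add (start D459) D460))
noncomputable def D210 : OP := win (nat_lit 1) (nat_lit 9) (nat_lit 6) (nat_lit 4)
noncomputable def D463 : AP := fin (add (start D210) D462)
noncomputable def D464 : OP := orK (nat_lit 130) D463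
noncomputable def D448 : OP := win (nat_lit 1) (nat_lit 9) (nat_lit 7) (nat_lit 5)
noncomputable def D465 : AP := fin (add (start D448) D464)
noncomputable def D466 : OP := orK (nat_lit 209) D465
noncomputable def D630 : OP := win (nat_lit 5) (nat_lit 6) (nat_lit 7) (nat_lit 5)
noncomputable def D633 : OP := orK (nat_lit 167) (fin (add (start D630) (win (nat_lit 5) (nat_lit 7) (nat_lit 7) (nat_lit 4))))
noncomputable def D627 : OP := win (nat_lit 2) (nat_lit 7) (nat_lit 6) (nat_lit 4)
noncomputable def D626 : OP := win (nat_lit 2) (nat_lit 6) (nat_lit 6) (nat_lit 5)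
noncomputable def D629 : OP := orK (nat_lit 127) (fin (add (start D626) D627))
noncomputable def D635 : OP := orK (nat_lit 147) (fin (add (start D629) D633))
noncomputable def D605 : OP := win (nat_lit 0) (nat_lit 8) (nat_lit 7) (nat_lit 5)
noncomputable def D604 : OP := win (nat_lit 0) (nat_lit 7) (nat_lit 7) (nat_lit 0)
noncomputable def D606 : AP := fin (add (start D604) D605)
noncomputable def D620 : OP := win (nat_lit 5) (nat_lit 7) (nat_lit 7) (nat_lit 5)
noncomputable def D623 : OP := orK (nat_lit 168) (fin (add (start D620) (win (nat_lit 5) (nat_lit 8) (nat_lit 7) (nat_lit 4))))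
noncomputable def D617 : OP := win (nat_lit 0) (nat_lit 9) (nat_lit 7) (nat_lit 5)
noncomputable def D616 : OP := win (nat_lit 0) (nat_lit 8) (nat_lit 7) (nat_lit 4)
noncomputable def D619 : OP := orK (nat_lit 172) (fin (add (start D616) D617))
noncomputable def D625 : OP := orK (nat_lit 152) (fin (add (start D619) D623))
noncomputable def D32 : OP := win (nat_lit 3) (nat_lit 10) (nat_lit 6) (nat_lit 5)
noncomputable def D40 : OP := win (nat_lit 7) (nat_lit 9) (nat_lit 6) (nat_lit 5)
noncomputable def D641 : OP := orK (nat_lit 149) (fin (add (start D40) (orK (nat_lit 151) (fin (add (start D32) (orK (nat_lit 148) (fin (add (add (start D625) (orK (nat_lit 171) D606)) D635))))))))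
noncomputable def D347 : OP := win (nat_lit 3) (nat_lit 10) (nat_lit 6) (nat_lit 4)
noncomputable def D348 : OP := win (nat_lit 3) (nat_lit 10) (nat_lit 5) (nat_lit 5)
noncomputable def D450 : OP := orK (nat_lit 131) (fin (add (start D348) D347))
noncomputable def D452 : OP := orK (nat_lit 130) (fin (add (start D210) D450))
noncomputable def D454 : OP := orK (nat_lit 209) (fin (add (start D448) D452))
noncomputable def D643 : OP := orK (nat_lit 150) (fin (add (add (start D454) D641) D466))
noncomputable def D41 : OP := win (nat_lit 7) (nat_lit 9) (nat_lit 7) (nat_lit 4)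
noncomputable def D43 : OP := orK (nat_lit 149) (fin (add (start D40) D41))
noncomputable def D30 : OP := win (nat_lit 1) (nat_lit 9) (nat_lit 8) (nat_lit 5)
noncomputable def D31 : OP := win (nat_lit 1) (nat_lit 9) (nat_lit 7) (nat_lit 4)
noncomputable def D543 : OP := orK (nat_lit 229) (fin (add (start D31) (orK (nat_lit 230) (fin (add (start D30) D43)))))
noncomputable def D565 : OP := orK (nat_lit 131) (fin (add (start D347) (orK (nat_lit 130) (fin (add (start D348) D462)))))
noncomputable def D33 : OP := win (nat_lit 3) (nat_lit 10) (nat_lit 7) (nat_lit 4)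
noncomputable def D35 : OP := orK (nat_lit 151) (fin (add (start D32) D33))
noncomputable def D520 : OP := orK (nat_lit 229) (fin (add (start D31) (orK (nat_lit 230) (fin (add (start D30) D35)))))
noncomputable def D569 : OP := orK (nat_lit 150) (fin (add (add (start D520) D565) D543))
noncomputable def D567 : OP := orK (nat_lit 150) (fin (add (add (start D454) D543) D565))
noncomputable def D211 : OP := win (nat_lit 6) (nat_lit 10) (nat_lit 6) (nat_lit 5)
noncomputable def D521 : OP := win (nat_lit 6) (nat_lit 10) (nat_lit 5) (nat_lit 4)
noncomputable def D547 : OP := orK (nat_lit 191) (fin (add (start D521) D211))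
noncomputable def D545 : OP := win (nat_lit 3) (nat_lit 10) (nat_lit 4) (nat_lit 5)
noncomputable def D544 : OP := win (nat_lit 3) (nat_lit 10) (nat_lit 5) (nat_lit 4)
noncomputable def D551 : OP := orK (nat_lit 111) (fin (add (start D544) (orK (nat_lit 110) (fin (add (start D545) D547)))))
noncomputable def D559 : OP := orK (nat_lit 129) (fin (add (start D460) (orK (nat_lit 130) (fin (add (start D459) D551)))))
noncomputable def D555 : OP := orK (nat_lit 209) (fin (add (start D448) (orK (nat_lit 130) (fin (add (start D210) D551)))))
noncomputable def D561 : OP := orK (nat_lit 150) (fin (add (add (start D543) D555) D559))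
noncomputable def D523 : OP := win (nat_lit 7) (nat_lit 9) (nat_lit 5) (nat_lit 4)
noncomputable def D522 : OP := win (nat_lit 7) (nat_lit 9) (nat_lit 4) (nat_lit 5)
noncomputable def D525 : OP := orK (nat_lit 109) (fin (add (start D522) D523))
noncomputable def D529 : OP := orK (nat_lit 191) (fin (add (start D211) (orK (nat_lit 110) (fin (add (start D521) D525)))))
noncomputable def D537 : OP := orK (nat_lit 131) (fin (add (start D347) (orK (nat_lit 130) (fin (add (start D348) D529)))))
noncomputable def D539 : OP := orK (nat_lit 150) (fin (add (add (add (start D454) D520) (orK (nat_lit 209) (fin (add (start D448) (orK (nat_lit 130) (fin (add (start D210) D529))))))) D537))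
noncomputable def D90 : OP := win (nat_lit 4) (nat_lit 7) (nat_lit 10) (nat_lit 2)
noncomputable def D89 : OP := win (nat_lit 1) (nat_lit 7) (nat_lit 8) (nat_lit 5)
noncomputable def D88 : OP := win (nat_lit 3) (nat_lit 8) (nat_lit 8) (nat_lit 0)
noncomputable def D94 : OP := orK (nat_lit 228) (fin (add (start D88) (orK (nat_lit 227) (fin (add (start D89) D90)))))
noncomputable def D87 : OP := win (nat_lit 0) (nat_lit 8) (nat_lit 9) (nat_lit 5)
noncomputable def D86 : OP := win (nat_lit 5) (nat_lit 7) (nat_lit 9) (nat_lit 5)
noncomputable def D72 : OP := win (nat_lit 2) (nat_lit 7) (nat_lit 8) (nat_lit 5)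
noncomputable def D100 : OP := orK (nat_lit 168) (fin (add (start D72) (orK (nat_lit 208) (fin (add (start D86) (orK (nat_lit 211) (fin (add (start D87) D94))))))))
noncomputable def D79 : OP := win (nat_lit 5) (nat_lit 9) (nat_lit 9) (nat_lit 5)
noncomputable def D78 : OP := win (nat_lit 2) (nat_lit 9) (nat_lit 8) (nat_lit 4)
noncomputable def D81 : OP := orK (nat_lit 193) (fin (add (start D78) D79))
noncomputable def D77 : OP := win (nat_lit 0) (nat_lit 9) (nat_lit 9) (nat_lit 5)
noncomputable def D76 : OP := win (nat_lit 0) (nat_lit 8) (nat_lit 9) (nat_lit 4)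
noncomputable def D85 : OP := orK (nat_lit 212) (fin (add (start D76) (orK (nat_lit 192) (fin (add (start D77) D81)))))
noncomputable def D73 : OP := win (nat_lit 2) (nat_lit 8) (nat_lit 8) (nat_lit 0)
noncomputable def D102 : OP := orK (nat_lit 191) (fin (add (add (start (orK (nat_lit 168) (fin (add (start D72) D73)))) D85) D100))
noncomputable def D52 : OP := win (nat_lit 4) (nat_lit 7) (nat_lit 8) (nat_lit 0)
noncomputable def D61 : OP := win (nat_lit 2) (nat_lit 7) (nat_lit 7) (nat_lit 4)
noncomputable def D60 : OP := win (nat_lit 2) (nat_lit 6) (nat_lit 7) (nat_lit 5)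
noncomputable def D63 : OP := orK (nat_lit 147) (fin (add (start D60) D61))
noncomputable def D59 : OP := win (nat_lit 0) (nat_lit 6) (nat_lit 8) (nat_lit 0)
noncomputable def D58 : OP := win (nat_lit 0) (nat_lit 8) (nat_lit 8) (nat_lit 4)
noncomputable def D57 : OP := win (nat_lit 0) (nat_lit 9) (nat_lit 8) (nat_lit 5)
noncomputable def D56 : OP := win (nat_lit 5) (nat_lit 9) (nat_lit 8) (nat_lit 0)
noncomputable def D71 : OP := orK (nat_lit 172) (fin (add (start D56) (orK (nat_lit 192) (fin (add (start D57) (orK (nat_lit 168) (fin (add (start D58) (orK (nat_lit 167) (fin (add (start D59) D63)))))))))))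
noncomputable def D54 : AP := fin (add (start D52) (win (nat_lit 5) (nat_lit 8) (nat_lit 8) (nat_lit 0)))
noncomputable def D55 : OP := orK (nat_lit 188) D54
noncomputable def D2 : OP := win (nat_lit 3) (nat_lit 10) (nat_lit 7) (nat_lit 5)
noncomputable def D20 : OP := win (nat_lit 7) (nat_lit 9) (nat_lit 7) (nat_lit 5)
noncomputable def D283 : OP := win (nat_lit 7) (nat_lit 9) (nat_lit 8) (nat_lit 0)
noncomputable def D8502 : OP := orK (nat_lit 169) (fin (add (start D20) (orK (nat_lit 189) (fin (add (start D283) (orK (nat_lit 171) (fin (add (start D2) D55))))))))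
noncomputable def D364 : OP := win (nat_lit 0) (nat_lit 8) (nat_lit 8) (nat_lit 5)
noncomputable def D363 : OP := win (nat_lit 0) (nat_lit 7) (nat_lit 8) (nat_lit 0)
noncomputable def D365 : AP := fin (add (start D363) D364)
noncomputable def D366 : OP := orK (nat_lit 168) D365
noncomputable def D161 : OP := win (nat_lit 3) (nat_lit 10) (nat_lit 8) (nat_lit 0)
noncomputable def D647 : OP := orK (nat_lit 191) (fin (add (start D161) D366))
noncomputable def D253 : OP := win (nat_lit 5) (nat_lit 9) (nat_lit 10) (nat_lit 0)
noncomputable def D702 : OP := win (nat_lit 5) (nat_lit 8) (nat_lit 10) (nat_lit 3)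
noncomputable def D247 : OP := win (nat_lit 4) (nat_lit 7) (nat_lit 10) (nat_lit 0)
noncomputable def D705 : AP := fin (add (start D247) (orK (nat_lit 212) (fin (add (start D702) D253))))
noncomputable def D706 : OP := orK (nat_lit 228) D705
noncomputable def D3345 : OP := win (nat_lit 3) (nat_lit 10) (nat_lit 9) (nat_lit 5)
noncomputable def D13 : OP := win (nat_lit 6) (nat_lit 10) (nat_lit 10) (nat_lit 5)
noncomputable def D12 : OP := win (nat_lit 6) (nat_lit 10) (nat_lit 9) (nat_lit 4)
noncomputable def D21 : OP := win (nat_lit 7) (nat_lit 9) (nat_lit 8) (nat_lit 4)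
noncomputable def D175 : OP := win (nat_lit 7) (nat_lit 9) (nat_lit 9) (nat_lit 5)
noncomputable def D8482 : OP := orK (nat_lit 271) (fin (add (start D12) (orK (nat_lit 270) (fin (add (start D13) (orK (nat_lit 229) (fin (add (start D30) (orK (nat_lit 209) (fin (add (start D175) (win (nat_lit 7) (nat_lit 9) (nat_lit 10) (nat_lit 0)))))))))))))
noncomputable def D3 : OP := win (nat_lit 3) (nat_lit 10) (nat_lit 8) (nat_lit 4)
noncomputable def D1876 : OP := win (nat_lit 7) (nat_lit 9) (nat_lit 6) (nat_lit 3)
noncomputable def D1877 : OP := win (nat_lit 6) (nat_lit 9) (nat_lit 5) (nat_lit 0)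
noncomputable def D7573 : OP := orK (nat_lit 129) (fin (add (start D1877) D1876))
noncomputable def D707 : OP := win (nat_lit 5) (nat_lit 8) (nat_lit 8) (nat_lit 5)
noncomputable def D708 : AP := fin (add (start D707) D56)
noncomputable def D709 : OP := orK (nat_lit 189) D708
noncomputable def D1893 : OP := win (nat_lit 2) (nat_lit 8) (nat_lit 7) (nat_lit 5)
noncomputable def D1913 : AP := fin (add (start D1893) D709)
noncomputable def D1902 : OP := win (nat_lit 3) (nat_lit 10) (nat_lit 6) (nat_lit 3)
noncomputable def D1901 : OP := win (nat_lit 1) (nat_lit 10) (nat_lit 5) (nat_lit 0)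
noncomputable def D1904 : OP := orK (nat_lit 131) (fin (add (start D1901) D1902))
noncomputable def D7219 : OP := win (nat_lit 0) (nat_lit 7) (nat_lit 8) (nat_lit 5)
noncomputable def D1992 : OP := win (nat_lit 4) (nat_lit 8) (nat_lit 7) (nat_lit 5)
noncomputable def D7569 : OP := orK (nat_lit 168) (fin (add (start D1992) (orK (nat_lit 167) (fin (add (start D7219) (win (nat_lit 4) (nat_lit 7) (nat_lit 7) (nat_lit 4)))))))
noncomputable def D1949 : OP := win (nat_lit 1) (nat_lit 10) (nat_lit 6) (nat_lit 3)
noncomputable def D1950 : AP := fin (add (start D1901) D1949)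
noncomputable def D1951 : OP := orK (nat_lit 131) D1950
noncomputable def D1878 : OP := win (nat_lit 6) (nat_lit 9) (nat_lit 6) (nat_lit 3)
noncomputable def D1879 : AP := fin (add (start D1877) D1878)
noncomputable def D1919 : OP := orK (nat_lit 129) D1879
noncomputable def D9227 : OP := orK (nat_lit 149) (fin (add (add (start D1919) (orK (nat_lit 171) (fin (add (start (orK (nat_lit 151) (fin (add (add (start D1951) D7569) D1904)))) (orK (nat_lit 172) D1913))))) D7573))
noncomputable def D1892 : OP := win (nat_lit 7) (nat_lit 9) (nat_lit 7) (nat_lit 0)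
noncomputable def D7575 : OP := orK (nat_lit 149) (fin (add (start D1892) D7573))
noncomputable def D1883 : OP := win (nat_lit 3) (nat_lit 10) (nat_lit 7) (nat_lit 0)
noncomputable def D1906 : OP := orK (nat_lit 151) (fin (add (start D1883) D1904))
noncomputable def D2088 : OP := win (nat_lit 5) (nat_lit 8) (nat_lit 8) (nat_lit 4)
noncomputable def D679 : OP := win (nat_lit 5) (nat_lit 7) (nat_lit 8) (nat_lit 5)
noncomputable def D2090 : OP := orK (nat_lit 188) (fin (add (start D679) D2088))
noncomputable def D2081 : OP := win (nat_lit 5) (nat_lit 7) (nat_lit 8) (nat_lit 4)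
noncomputable def D2080 : OP := win (nat_lit 5) (nat_lit 6) (nat_lit 8) (nat_lit 5)
noncomputable def D2083 : OP := orK (nat_lit 187) (fin (add (start D2080) D2081))
noncomputable def D2087 : OP := orK (nat_lit 147) (fin (add (start D61) (orK (nat_lit 167) (fin (add (start D60) D2083)))))
noncomputable def D481 : OP := orK (nat_lit 191) D365
noncomputable def D2096 : OP := orK (nat_lit 168) (fin (add (add (start D481) D2087) (orK (nat_lit 192) (fin (add (start D58) (orK (nat_lit 172) (fin (add (start D57) D2090))))))))
noncomputable def D1920 : AP := fin (add (start D1892) D1919)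
noncomputable def D1981 : OP := orK (nat_lit 149) D1920
noncomputable def D9229 : OP := orK (nat_lit 169) (fin (add (add (add (start D1981) (orK (nat_lit 171) (fin (add (start D2096) D1906)))) D7575) D9227))
noncomputable def D458 : OP := orK (nat_lit 151) (fin (add (start D32) (orK (nat_lit 230) (fin (add (start D33) D43)))))
noncomputable def D7932 : OP := orK (nat_lit 129) (fin (add (start D1876) (orK (nat_lit 169) (fin (add (start D1877) D1892)))))
noncomputable def D1921 : OP := orK (nat_lit 169) D1920
noncomputable def D765 : OP := win (nat_lit 4) (nat_lit 7) (nat_lit 9) (nat_lit 5)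
noncomputable def D3946 : OP := win (nat_lit 4) (nat_lit 6) (nat_lit 9) (nat_lit 0)
noncomputable def D3965 : OP := orK (nat_lit 207) (fin (add (start D3946) D765))
noncomputable def D3944 : OP := win (nat_lit 1) (nat_lit 8) (nat_lit 7) (nat_lit 5)
noncomputable def D3967 : OP := orK (nat_lit 208) (fin (add (start D3944) D3965))
noncomputable def D1772 : OP := win (nat_lit 1) (nat_lit 9) (nat_lit 6) (nat_lit 0)
noncomputable def D609 : OP := win (nat_lit 5) (nat_lit 8) (nat_lit 7) (nat_lit 0)
noncomputable def D608 : OP := win (nat_lit 4) (nat_lit 7) (nat_lit 7) (nat_lit 0)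
noncomputable def D611 : OP := orK (nat_lit 168) (fin (add (start D608) D609))
noncomputable def D9803 : OP := orK (nat_lit 151) (fin (add (start D32) D611))
noncomputable def D756 : AP := fin (add (start D211) D462)
noncomputable def D757 : OP := orK (nat_lit 191) D756
noncomputable def D1952 : AP := fin (add (start D1883) D1951)
noncomputable def D7598 : OP := orK (nat_lit 171) D1952
noncomputable def D9582 : OP := win (nat_lit 6) (nat_lit 10) (nat_lit 5) (nat_lit 5)
noncomputable def D9575 : OP := win (nat_lit 6) (nat_lit 10) (nat_lit 4) (nat_lit 0)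
noncomputable def D9584 : OP := orK (nat_lit 110) (fin (add (start D9575) D9582))
noncomputable def D857 : OP := orK (nat_lit 148) D606
noncomputable def D9246 : OP := orK (nat_lit 149) (fin (add (start D40) D857))
noncomputable def D5092 : OP := win (nat_lit 5) (nat_lit 7) (nat_lit 9) (nat_lit 2)
noncomputable def D2909 : OP := win (nat_lit 4) (nat_lit 7) (nat_lit 9) (nat_lit 2)
noncomputable def D5298 : AP := fin (add (start D2909) D5092)
noncomputable def D5299 : OP := orK (nat_lit 207) D5298
noncomputable def D2579 : OP := win (nat_lit 3) (nat_lit 8) (nat_lit 7) (nat_lit 0)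
noncomputable def D7623 : OP := win (nat_lit 2) (nat_lit 8) (nat_lit 7) (nat_lit 0)
noncomputable def D493 : OP := win (nat_lit 2) (nat_lit 7) (nat_lit 7) (nat_lit 5)
noncomputable def D8234 : OP := orK (nat_lit 148) (fin (add (start D493) D7623))
noncomputable def D1959 : OP := win (nat_lit 2) (nat_lit 9) (nat_lit 8) (nat_lit 0)
noncomputable def D657 : OP := win (nat_lit 0) (nat_lit 8) (nat_lit 8) (nat_lit 3)
noncomputable def D8222 : OP := orK (nat_lit 192) (fin (add (start D657) D1959))
noncomputable def D8223 : AP := fin (add (start D363) D8222)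
noncomputable def D9240 : OP := orK (nat_lit 168) D8223
noncomputable def D191 : OP := win (nat_lit 5) (nat_lit 9) (nat_lit 9) (nat_lit 0)
noncomputable def D170 : OP := win (nat_lit 5) (nat_lit 8) (nat_lit 9) (nat_lit 3)
noncomputable def D196 : AP := fin (add (start D170) D191)
noncomputable def D168 : OP := win (nat_lit 4) (nat_lit 7) (nat_lit 9) (nat_lit 0)
noncomputable def D199 : OP := orK (nat_lit 208) (fin (add (start D168) (orK (nat_lit 192) D196)))
noncomputable def D169 : OP := win (nat_lit 4) (nat_lit 8) (nat_lit 9) (nat_lit 3)
noncomputable def D192 : AP := fin (add (start D169) D191)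
noncomputable def D194 : AP := fin (add (start D168) (orK (nat_lit 192) D192))
noncomputable def D195 : OP := orK (nat_lit 208) D194
noncomputable def D212 : AP := fin (add (start D210) D211)
noncomputable def D213 : OP := orK (nat_lit 130) D212
noncomputable def D5071 : AP := fin (add (start D448) D213)
noncomputable def D8224 : OP := orK (nat_lit 191) D8223
noncomputable def D656 : OP := win (nat_lit 2) (nat_lit 8) (nat_lit 8) (nat_lit 3)
noncomputable def D9237 : OP := orK (nat_lit 192) (fin (add (start D656) D1959))
noncomputable def D9238 : AP := fin (add (start D363) D9237)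
noncomputable def D9499 : OP := orK (nat_lit 191) D9238
noncomputable def D3259 : OP := win (nat_lit 4) (nat_lit 5) (nat_lit 8) (nat_lit 0)
noncomputable def D2287 : OP := win (nat_lit 5) (nat_lit 7) (nat_lit 8) (nat_lit 0)
noncomputable def D258 : OP := win (nat_lit 6) (nat_lit 8) (nat_lit 7) (nat_lit 0)
noncomputable def D2689 : OP := win (nat_lit 2) (nat_lit 6) (nat_lit 9) (nat_lit 3)
noncomputable def D207 : OP := win (nat_lit 1) (nat_lit 9) (nat_lit 7) (nat_lit 0)
noncomputable def D8652 : OP := orK (nat_lit 111) (fin (add (start D544) (orK (nat_lit 110) (fin (add (start D545) D525)))))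
noncomputable def D2284 : OP := win (nat_lit 2) (nat_lit 7) (nat_lit 9) (nat_lit 0)
noncomputable def D135 : OP := win (nat_lit 5) (nat_lit 7) (nat_lit 9) (nat_lit 4)
noncomputable def D134 : OP := win (nat_lit 5) (nat_lit 6) (nat_lit 9) (nat_lit 5)
noncomputable def D137 : OP := orK (nat_lit 207) (fin (add (start D134) D135))
noncomputable def D2160 : OP := win (nat_lit 4) (nat_lit 6) (nat_lit 8) (nat_lit 0)
noncomputable def D9307 : OP := orK (nat_lit 187) (fin (add (start D2160) D137))
noncomputable def D2532 : OP := win (nat_lit 5) (nat_lit 7) (nat_lit 10) (nat_lit 2)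
noncomputable def D5616 : OP := orK (nat_lit 227) (fin (add (start D89) D2532))
noncomputable def D7466 : OP := orK (nat_lit 208) (fin (add (start D86) (orK (nat_lit 228) (fin (add (start D88) D5616)))))
noncomputable def D11002 : OP := orK (nat_lit 211) (fin (add (start D87) D7466))
noncomputable def D979 : OP := win (nat_lit 0) (nat_lit 7) (nat_lit 9) (nat_lit 5)
noncomputable def D3861 : OP := orK (nat_lit 208) (fin (add (start D86) D94))
noncomputable def D218 : OP := win (nat_lit 4) (nat_lit 8) (nat_lit 8) (nat_lit 5)
noncomputable def D5085 : OP := win (nat_lit 6) (nat_lit 8) (nat_lit 6) (nat_lit 5)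
noncomputable def D3818 : OP := win (nat_lit 6) (nat_lit 8) (nat_lit 5) (nat_lit 0)
noncomputable def D8780 : AP := fin (add (start D493) (orK (nat_lit 128) (fin (add (start D3818) D5085))))
noncomputable def D10784 : OP := orK (nat_lit 148) D8780
noncomputable def D482 : OP := win (nat_lit 0) (nat_lit 6) (nat_lit 8) (nat_lit 4)
noncomputable def D488 : OP := orK (nat_lit 166) (fin (add (start D482) (orK (nat_lit 186) (fin (add (start (win (nat_lit 5) (nat_lit 5) (nat_lit 8) (nat_lit 5))) (win (nat_lit 5) (nat_lit 6) (nat_lit 8) (nat_lit 4)))))))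
noncomputable def D2049 : OP := win (nat_lit 2) (nat_lit 6) (nat_lit 7) (nat_lit 4)
noncomputable def D2048 : OP := win (nat_lit 2) (nat_lit 5) (nat_lit 7) (nat_lit 5)
noncomputable def D2053 : OP := orK (nat_lit 166) (fin (add (start D482) (orK (nat_lit 146) (fin (add (start D2048) D2049)))))
noncomputable def D9488 : OP := orK (nat_lit 167) (fin (add (add (start D2053) D488) (orK (nat_lit 147) (fin (add (start D60) (orK (nat_lit 171) (fin (add (start D61) D2083))))))))
noncomputable def D15 : OP := orK (nat_lit 271) (fin (add (start D12) D13))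
noncomputable def D11 : OP := win (nat_lit 3) (nat_lit 10) (nat_lit 9) (nat_lit 4)
noncomputable def D17 : OP := orK (nat_lit 270) (fin (add (start D11) D15))
noncomputable def D10 : OP := win (nat_lit 3) (nat_lit 10) (nat_lit 8) (nat_lit 5)
noncomputable def D19 : OP := orK (nat_lit 191) (fin (add (start D10) D17))
noncomputable def D710 : OP := win (nat_lit 4) (nat_lit 9) (nat_lit 7) (nat_lit 5)
noncomputable def D2239 : OP := win (nat_lit 4) (nat_lit 8) (nat_lit 7) (nat_lit 4)
noncomputable def D2241 : OP := orK (nat_lit 152) (fin (add (start D2239) D710))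
noncomputable def D7640 : OP := win (nat_lit 2) (nat_lit 8) (nat_lit 7) (nat_lit 4)
noncomputable def D7644 : OP := orK (nat_lit 148) (fin (add (start D7640) (orK (nat_lit 168) (fin (add (start D493) D2241)))))
noncomputable def D284 : OP := win (nat_lit 6) (nat_lit 9) (nat_lit 6) (nat_lit 0)
noncomputable def D2011 : OP := orK (nat_lit 149) (fin (add (start D1893) (orK (nat_lit 189) (fin (add (start D707) D284)))))
noncomputable def D8680 : OP := orK (nat_lit 169) (fin (add (add (start D2011) (orK (nat_lit 152) (fin (add (start D710) (orK (nat_lit 168) (fin (add (start D2239) D2090))))))) D7644))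
noncomputable def D2220 : OP := win (nat_lit 5) (nat_lit 10) (nat_lit 8) (nat_lit 4)
noncomputable def D2230 : OP := win (nat_lit 4) (nat_lit 11) (nat_lit 7) (nat_lit 5)
noncomputable def D2229 : OP := win (nat_lit 4) (nat_lit 10) (nat_lit 7) (nat_lit 4)
noncomputable def D2234 : OP := orK (nat_lit 154) (fin (add (start D2229) (orK (nat_lit 174) (fin (add (start D2230) D2220)))))
noncomputable def D495 : OP := win (nat_lit 4) (nat_lit 10) (nat_lit 7) (nat_lit 5)
noncomputable def D494 : OP := win (nat_lit 4) (nat_lit 9) (nat_lit 7) (nat_lit 4)
noncomputable def D2003 : OP := orK (nat_lit 153) (fin (add (start D494) D495))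
noncomputable def D2001 : OP := win (nat_lit 0) (nat_lit 9) (nat_lit 8) (nat_lit 4)
noncomputable def D1137 : OP := win (nat_lit 0) (nat_lit 10) (nat_lit 8) (nat_lit 5)
noncomputable def D2219 : OP := win (nat_lit 0) (nat_lit 11) (nat_lit 8) (nat_lit 5)
noncomputable def D2218 : OP := win (nat_lit 0) (nat_lit 10) (nat_lit 8) (nat_lit 4)
noncomputable def D2224 : OP := orK (nat_lit 194) (fin (add (start D2218) (orK (nat_lit 174) (fin (add (start D2219) D2220)))))
noncomputable def D2236 : OP := orK (nat_lit 173) (fin (add (add (start D2224) (orK (nat_lit 193) (fin (add (start D1137) (orK (nat_lit 169) (fin (add (start D2001) D2003))))))) D2234))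
noncomputable def D2213 : OP := win (nat_lit 4) (nat_lit 8) (nat_lit 8) (nat_lit 3)
noncomputable def D2215 : OP := orK (nat_lit 188) (fin (add (start D52) D2213))
noncomputable def D2217 : OP := orK (nat_lit 189) (fin (add (start D56) D2215))
noncomputable def D2248 : OP := win (nat_lit 5) (nat_lit 8) (nat_lit 8) (nat_lit 3)
noncomputable def D2483 : OP := orK (nat_lit 172) (fin (add (start D2248) D56))
noncomputable def D2485 : OP := orK (nat_lit 188) (fin (add (start D52) D2483))
noncomputable def D301 : OP := win (nat_lit 7) (nat_lit 9) (nat_lit 7) (nat_lit 3)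
noncomputable def D3472 : OP := orK (nat_lit 149) (fin (add (start D284) (orK (nat_lit 230) (fin (add (start D301) D283)))))
noncomputable def D285 : OP := win (nat_lit 6) (nat_lit 9) (nat_lit 7) (nat_lit 3)
noncomputable def D671 : AP := fin (add (start D285) D283)
noncomputable def D3468 : OP := orK (nat_lit 149) (fin (add (start D284) (orK (nat_lit 230) D671)))
noncomputable def D330 : OP := win (nat_lit 0) (nat_lit 7) (nat_lit 8) (nat_lit 3)
noncomputable def D332 : OP := orK (nat_lit 167) (fin (add (start D59) D330))
noncomputable def D334 : OP := orK (nat_lit 168) (fin (add (start D73) D332))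
noncomputable def D325 : OP := win (nat_lit 5) (nat_lit 8) (nat_lit 9) (nat_lit 5)
noncomputable def D326 : AP := fin (add (start D325) D191)
noncomputable def D327 : OP := orK (nat_lit 209) D326
noncomputable def D306 : OP := win (nat_lit 2) (nat_lit 8) (nat_lit 8) (nat_lit 5)
noncomputable def D328 : AP := fin (add (start D306) D327)
noncomputable def D329 : OP := orK (nat_lit 192) D328
noncomputable def D310 : OP := win (nat_lit 4) (nat_lit 6) (nat_lit 8) (nat_lit 5)
noncomputable def D309 : OP := win (nat_lit 0) (nat_lit 6) (nat_lit 9) (nat_lit 4)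
noncomputable def D312 : OP := orK (nat_lit 186) (fin (add (start D309) D310))
noncomputable def D129 : OP := win (nat_lit 0) (nat_lit 7) (nat_lit 9) (nat_lit 0)
noncomputable def D130 : AP := fin (add (start D129) D87)
noncomputable def D131 : OP := orK (nat_lit 211) D130
noncomputable def D324 : OP := orK (nat_lit 188) (fin (add (add (start D131) (orK (nat_lit 207) (fin (add (start D135) (orK (nat_lit 187) (fin (add (start D134) D312))))))) D85))
noncomputable def D133 : OP := win (nat_lit 2) (nat_lit 6) (nat_lit 8) (nat_lit 5)
noncomputable def D132 : OP := win (nat_lit 2) (nat_lit 7) (nat_lit 8) (nat_lit 4)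
noncomputable def D316 : OP := orK (nat_lit 167) (fin (add (start D132) (orK (nat_lit 187) (fin (add (start D133) D312)))))
noncomputable def D7476 : OP := orK (nat_lit 169) (fin (add (add (start (orK (nat_lit 191) (fin (add (add (add (start (orK (nat_lit 188) (fin (add (add (start D131) D316) (orK (nat_lit 211) (fin (add (start D87) (orK (nat_lit 168) (fin (add (start D72) D7466)))))))))) D324) D329) D334)))) D3468) D3472))
noncomputable def D2478 : OP := orK (nat_lit 172) (fin (add (start D2213) D56))
noncomputable def D2480 : OP := orK (nat_lit 188) (fin (add (start D52) D2478))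
noncomputable def D2464 : OP := orK (nat_lit 149) (fin (add (start D284) D1892))
noncomputable def D1953 : OP := orK (nat_lit 151) D1952
noncomputable def D1995 : OP := win (nat_lit 4) (nat_lit 8) (nat_lit 7) (nat_lit 0)
noncomputable def D7636 : AP := fin (add (start D1995) D710)
noncomputable def D863 : OP := win (nat_lit 4) (nat_lit 9) (nat_lit 6) (nat_lit 5)
noncomputable def D1090 : OP := win (nat_lit 1) (nat_lit 11) (nat_lit 5) (nat_lit 0)
noncomputable def D8437 : OP := orK (nat_lit 132) (fin (add (start D1090) D863))
noncomputable def D2436 : OP := win (nat_lit 0) (nat_lit 8) (nat_lit 7) (nat_lit 0)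
noncomputable def D8426 : OP := win (nat_lit 2) (nat_lit 10) (nat_lit 7) (nat_lit 0)
noncomputable def D8423 : OP := win (nat_lit 2) (nat_lit 9) (nat_lit 7) (nat_lit 0)
noncomputable def D162 : OP := win (nat_lit 1) (nat_lit 10) (nat_lit 6) (nat_lit 0)
noncomputable def D369 : OP := win (nat_lit 6) (nat_lit 10) (nat_lit 5) (nat_lit 0)
noncomputable def D8399 : OP := orK (nat_lit 89) (fin (add (start (win (nat_lit 7) (nat_lit 9) (nat_lit 3) (nat_lit 5))) (win (nat_lit 7) (nat_lit 9) (nat_lit 4) (nat_lit 4))))
noncomputable def D8395 : OP := win (nat_lit 3) (nat_lit 10) (nat_lit 3) (nat_lit 5)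
noncomputable def D8394 : OP := win (nat_lit 3) (nat_lit 10) (nat_lit 4) (nat_lit 4)
noncomputable def D8407 : OP := orK (nat_lit 191) (fin (add (start D211) (orK (nat_lit 110) (fin (add (start D521) (orK (nat_lit 91) (fin (add (start D8394) (orK (nat_lit 90) (fin (add (start D8395) D8399)))))))))))
noncomputable def D8456 : OP := orK (nat_lit 150) (fin (add (add (add (add (start D565) D641) (orK (nat_lit 229) (fin (add (start D31) (orK (nat_lit 130) (fin (add (add (start D462) D8407) (orK (nat_lit 191) (fin (add (start D211) (orK (nat_lit 110) (fin (add (start D521) (orK (nat_lit 91) (fin (add (start D8394) (orK (nat_lit 90) (fin (add (start D8395) (orK (nat_lit 149) (fin (add (start (win (nat_lit 1) (nat_lit 9) (nat_lit 4) (nat_lit 5))) D40)))))))))))))))))))))) (orK (nat_lit 229) (fin (add (start D31) (orK (nat_lit 130) (fin (add (add (start D450) D8407) (orK (nat_lit 191) (fin (add (start D211) (orK (nat_lit 171) (fin (add (start D369) (orK (nat_lit 151) (fin (add (start D162) (orK (nat_lit 172) (fin (add (add (start (orK (nat_lit 149) (fin (add (start D2436) D8423)))) (orK (nat_lit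 173) (fin (add (start D8426) (orK (nat_lit 193) (fin (add (start D1137) (orK (nat_lit 169) (fin (add (start D2001) (orK (nat_lit 167) (fin (add (start (win (nat_lit 0) (nat_lit 7) (nat_lit 8) (nat_lit 1))) D2003))))))))))))) (orK (nat_lit 149) (fin (add (start D2436) (orK (nat_lit 152) (fin (add (start D8437) (orK (nat_lit 169) D7636)))))))))))))))))))))))))) D537))
noncomputable def D825 : OP := win (nat_lit 3) (nat_lit 8) (nat_lit 9) (nat_lit 0)
noncomputable def D824 : OP := win (nat_lit 3) (nat_lit 8) (nat_lit 8) (nat_lit 5)
noncomputable def D826 : AP := fin (add (start D824) D825)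
noncomputable def D777 : OP := win (nat_lit 5) (nat_lit 7) (nat_lit 10) (nat_lit 5)
noncomputable def D806 : OP := win (nat_lit 5) (nat_lit 7) (nat_lit 10) (nat_lit 4)
noncomputable def D805 : OP := win (nat_lit 5) (nat_lit 6) (nat_lit 10) (nat_lit 5)
noncomputable def D808 : OP := orK (nat_lit 227) (fin (add (start D805) D806))
noncomputable def D10951 : OP := orK (nat_lit 207) (fin (add (start D3946) D808))
noncomputable def D804 : OP := win (nat_lit 2) (nat_lit 6) (nat_lit 9) (nat_lit 5)
noncomputable def D4036 : AP := fin (add (start D804) D3946)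
noncomputable def D7432 : OP := orK (nat_lit 207) D4036
noncomputable def D3553 : OP := win (nat_lit 0) (nat_lit 7) (nat_lit 9) (nat_lit 1)
noncomputable def D2702 : OP := win (nat_lit 4) (nat_lit 8) (nat_lit 9) (nat_lit 4)
noncomputable def D817 : OP := win (nat_lit 4) (nat_lit 9) (nat_lit 9) (nat_lit 5)
noncomputable def D418 : OP := win (nat_lit 2) (nat_lit 9) (nat_lit 9) (nat_lit 0)
noncomputable def D3494 : OP := win (nat_lit 2) (nat_lit 8) (nat_lit 9) (nat_lit 0)
noncomputable def D7427 : OP := orK (nat_lit 188) (fin (add (start D129) D3494))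
noncomputable def D3536 : OP := win (nat_lit 6) (nat_lit 7) (nat_lit 6) (nat_lit 0)
noncomputable def D3538 : AP := fin (add (start D3536) (win (nat_lit 6) (nat_lit 7) (nat_lit 7) (nat_lit 5)))
noncomputable def D4022 : OP := orK (nat_lit 147) D3538
noncomputable def D6723 : OP := orK (nat_lit 167) (fin (add (start D133) D4022))
noncomputable def D1024 : OP := win (nat_lit 6) (nat_lit 8) (nat_lit 7) (nat_lit 5)
noncomputable def D1023 : OP := win (nat_lit 6) (nat_lit 8) (nat_lit 6) (nat_lit 0)
noncomputable def D1025 : AP := fin (add (start D1023) D1024)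
noncomputable def D1026 : OP := orK (nat_lit 148) D1025
noncomputable def D1027 : AP := fin (add (start D72) D1026)
noncomputable def D1028 : OP := orK (nat_lit 168) D1027
noncomputable def D1707 : OP := win (nat_lit 5) (nat_lit 8) (nat_lit 9) (nat_lit 0)
noncomputable def D3596 : AP := fin (add (start D1707) D1028)
noncomputable def D1006 : OP := win (nat_lit 0) (nat_lit 6) (nat_lit 9) (nat_lit 0)
noncomputable def D3991 : AP := fin (add (start D1006) D979)
noncomputable def D3992 : OP := orK (nat_lit 187) D3991
noncomputable def D1773 : AP := fin (add (start D1772) D448)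
noncomputable def D1774 : OP := orK (nat_lit 150) D1773
noncomputable def D224 : OP := win (nat_lit 6) (nat_lit 12) (nat_lit 8) (nat_lit 5)
noncomputable def D223 : OP := win (nat_lit 0) (nat_lit 9) (nat_lit 10) (nat_lit 2)
noncomputable def D226 : OP := orK (nat_lit 233) (fin (add (start D223) D224))
noncomputable def D222 : OP := win (nat_lit 7) (nat_lit 11) (nat_lit 8) (nat_lit 0)
noncomputable def D228 : OP := orK (nat_lit 232) (fin (add (start D222) D226))
noncomputable def D221 : OP := win (nat_lit 4) (nat_lit 9) (nat_lit 8) (nat_lit 5)
noncomputable def D2488 : OP := win (nat_lit 0) (nat_lit 9) (nat_lit 8) (nat_lit 0)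
noncomputable def D10686 : OP := win (nat_lit 4) (nat_lit 9) (nat_lit 9) (nat_lit 2)
noncomputable def D2371 : OP := win (nat_lit 6) (nat_lit 12) (nat_lit 7) (nat_lit 5)
noncomputable def D10599 : OP := orK (nat_lit 213) (fin (add (start (win (nat_lit 6) (nat_lit 12) (nat_lit 6) (nat_lit 4))) D2371))
noncomputable def D1792 : OP := win (nat_lit 3) (nat_lit 12) (nat_lit 6) (nat_lit 4)
noncomputable def D1115 : OP := win (nat_lit 3) (nat_lit 12) (nat_lit 5) (nat_lit 5)
noncomputable def D1794 : OP := orK (nat_lit 133) (fin (add (start D1115) D1792))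
noncomputable def D10601 : OP := orK (nat_lit 132) (fin (add (start D1794) D10599))
noncomputable def D4632 : OP := win (nat_lit 6) (nat_lit 12) (nat_lit 6) (nat_lit 0)
noncomputable def D1138 : OP := win (nat_lit 4) (nat_lit 9) (nat_lit 7) (nat_lit 0)
noncomputable def D1176 : OP := win (nat_lit 3) (nat_lit 12) (nat_lit 6) (nat_lit 5)
noncomputable def D10901 : OP := orK (nat_lit 153) (fin (add (start D1176) D1138))
noncomputable def D422 : OP := win (nat_lit 2) (nat_lit 9) (nat_lit 9) (nat_lit 2)
noncomputable def D10502 : AP := fin (add (start D418) D817)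
noncomputable def D10587 : OP := orK (nat_lit 211) D10502
noncomputable def D370 : AP := fin (add (start D369) D211)
noncomputable def D371 : OP := orK (nat_lit 130) D370
noncomputable def D591 : OP := orK (nat_lit 191) (fin (add (start D161) D371))
noncomputable def D7606 : OP := orK (nat_lit 171) (fin (add (start D2) (orK (nat_lit 149) (fin (add (start D41) (orK (nat_lit 150) (fin (add (start D40) D591))))))))
noncomputable def D8473 : OP := orK (nat_lit 271) (fin (add (start D12) (orK (nat_lit 270) (fin (add (start D13) (orK (nat_lit 289) (fin (add (start (win (nat_lit 1) (nat_lit 9) (nat_lit 10) (nat_lit 4))) (orK (nat_lit 290) (fin (add (start (win (nat_lit 1) (nat_lit 9) (nat_lit 11) (nat_lit 5))) (orK (nat_lit 209) (fin (add (start D175) (win (nat_lit 7) (nat_lit 9) (nat_lit 10) (nat_lit 4))))))))))))))))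
noncomputable def D1003 : OP := win (nat_lit 7) (nat_lit 9) (nat_lit 9) (nat_lit 0)
noncomputable def D128 : OP := win (nat_lit 7) (nat_lit 9) (nat_lit 8) (nat_lit 5)
noncomputable def D1004 : AP := fin (add (start D128) D1003)
noncomputable def D1005 : OP := orK (nat_lit 250) D1004
noncomputable def D8492 : OP := orK (nat_lit 150) (fin (add (add (start D43) (orK (nat_lit 209) (fin (add (start D448) (orK (nat_lit 189) (fin (add (start D1772) D1005))))))) D466))
noncomputable def D11092 : AP := fin (add (add (add (add (add (add (add (add (start D9229) (orK (nat_lit 230) (fin (add (add (add (start D8492) (orK (nat_lit 171) (fin (add (start D2) (orK (nat_lit 250) (fin (add (start D3) D8473))))))) D7606) (orK (nat_lit 149) (fin (add (start D41) (orK (nat_lit 150) (fin (add (start D40) (orK (nat_lit 209) (fin (add (start D448) (orK (nat_lit 130) (fin (add (start D210) (orK (nat_lit 171) (fin (add (start D2) (orK (nat_lit 191) D370)))))))))))))))))))) (orK (nat_lit 171) (fin (add (add (start D1953) (orK (nat_lit 189) (fin (add (add (add (start (orK (nat_lit 209) (fin (add (start D1774) (orK (nat_lit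 192) (fin (add (add (start (orK (nat_lit 191) D326)) (orK (nat_lit 212) (fin (add (add (add (start D10587) (orK (nat_lit 172) (fin (add (start D56) (orK (nat_lit 213) (fin (add (start D422) (orK (nat_lit 152) (fin (add (start D2371) D10901)))))))))) (orK (nat_lit 172) (fin (add (start D56) (orK (nat_lit 152) (fin (add (add (start D10901) (orK (nat_lit 193) (fin (add (start D2488) (orK (nat_lit 213) (fin (add (start D4632) D2371))))))) D10601))))))) (orK (nat_lit 193) (fin (add (start D10686) (orK (nat_lit 172) (fin (add (start D2488) D56)))))))))) (orK (nat_lit 191) (fin (add (start D325) (orK (nat_lit 172) (fin (add (start D221) (orK (nat_lit 212) (fin (add (start D77) D228)))))))))))))))) D2480) (orK (nat_lit 209) (fin (add (add (start D1774) (orK (nat_lit 208) (fin (add (add (start D3965) (orK (nat_lit 188) (fin (add (start D3992) (orK (nat_lit 191) D3596))))) (orK (nat_lit 207) (fin (add (start D3946) (orK (nat_lit 187) (fin (add (start D804) (orK (nat_lit 188) (fin (add (start D979) D6723))))))))))))) (orK (nat_lit 130) (fin (add (start (win (nat_lit 1) (nat_lit 9) (nat_lit 6) (nat_lit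 1))) (orK (nat_lit 211) (fin (add (add (start D7427) (orK (nat_lit 212) (fin (add (start D418) (orK (nat_lit 192) (fin (add (start D817) (orK (nat_lit 208) (fin (add (start D2702) D10951)))))))))) (orK (nat_lit 208) (fin (add (add (start (orK (nat_lit 187) (fin (add (start D3553) D7432)))) D10951) (orK (nat_lit 188) (fin (add (start D129) (orK (nat_lit 228) (fin (add (start D777) (orK (nat_lit 248) D826)))))))))))))))))))) D2485)))) D1906)))) D8456) (orK (nat_lit 171) (fin (add (add (add (start D1953) (orK (nat_lit 189) (fin (add (add (add (start (orK (nat_lit 169) (fin (add (start D2464) D71)))) D2480) D7476) D2485)))) (orK (nat_lit 230) (fin (add (start D2) (orK (nat_lit 169) (fin (add (start D20) (orK (nat_lit 189) (fin (add (start D283) D55)))))))))) (orK (nat_lit 172) (fin (add (add (start D2217) D2236) D8680))))))) (orK (nat_lit 169) (fin (add (add (add (start (orK (nat_lit 230) (fin (add (start D20) (orK (nat_lit 250) (fin (add (start D21) D19))))))) (orK (nat_lit 168) (fin (add (add (add (start D9488) (orK (nat_lit 191) (fin (add (add (start D9237) D8222) (orK (nat_lit 188) (fin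 (add (add (add (start (orK (nat_lit 189) (fin (add (add (start (orK (nat_lit 171) (fin (add (start D218) D10784)))) D11002) (orK (nat_lit 171) (fin (add (start D218) (orK (nat_lit 230) (fin (add (start D161) (orK (nat_lit 211) (fin (add (start D87) (orK (nat_lit 148) (fin (add (start D493) D3861)))))))))))))))) (orK (nat_lit 189) (fin (add (add (start (orK (nat_lit 187) (fin (add (start D979) D2160)))) D11002) D9307)))) (orK (nat_lit 187) (fin (add (start D2287) (orK (nat_lit 186) (fin (add (start D3259) (orK (nat_lit 209) (fin (add (add (start (orK (nat_lit 208) (fin (add (start D2689) D2284)))) (orK (nat_lit 150) (fin (add (start D448) (orK (nat_lit 130) (fin (add (start D211) D8652))))))) (orK (nat_lit 229) (fin (add (start D207) (orK (nat_lit 208) (fin (add (start D2689) D258)))))))))))))))) (orK (nat_lit 187) (fin (add (start D2287) (orK (nat_lit 186) (fin (add (start D3259) (win (nat_lit 4) (nat_lit 6) (nat_lit 8) (nat_lit 3))))))))))))))) D9499) D8224)))) D7575) (orK (nat_lit 191) (fin (add (add (start (orK (nat_lit 209) (fin (add (add (start (orK (nat_lit 150) D5071)) D195) D199))))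 D9240) (orK (nat_lit 168) (fin (add (start D363) (orK (nat_lit 149) (fin (add (start (orK (nat_lit 171) (fin (add (start D8234) (orK (nat_lit 188) (fin (add (start D679) (orK (nat_lit 208) (fin (add (start D2579) D5299)))))))))) D7573))))))))))))) (orK (nat_lit 151) (fin (add (add (add (start (orK (nat_lit 171) (fin (add (start D1883) (orK (nat_lit 150) (fin (add (start D9246) (orK (nat_lit 209) (fin (add (start D448) (orK (nat_lit 130) (fin (add (start D210) D9584))))))))))))) D7598) (orK (nat_lit 150) (fin (add (start D32) (orK (nat_lit 209) (fin (add (start D448) (orK (nat_lit 130) (fin (add (start D210) D757)))))))))) (orK (nat_lit 131) (fin (add (start D1902) (orK (nat_lit 171) (fin (add (start D1901) D1883)))))))))) (orK (nat_lit 149) (fin (add (add (add (start (orK (nat_lit 169) (fin (add (start D1892) (orK (nat_lit 150) (fin (add (start D9803) (orK (nat_lit 209) (fin (add (start D448) (orK (nat_lit 189) (fin (add (start D1772) D3967))))))))))))) D1921) (orK (nat_lit 150) (fin (add (start D40) D454)))) D7932)))) (orK (nat_lit 150) (fin (add (add (start D454) D458) D466))))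
noncomputable def D1043 : OP := win (nat_lit 4) (nat_lit 7) (nat_lit 8) (nat_lit 4)
noncomputable def D2178 : OP := orK (nat_lit 171) (fin (add (start D1043) D218))
noncomputable def D2161 : OP := win (nat_lit 4) (nat_lit 7) (nat_lit 8) (nat_lit 5)
noncomputable def D2172 : OP := win (nat_lit 4) (nat_lit 6) (nat_lit 8) (nat_lit 4)
noncomputable def D2174 : OP := orK (nat_lit 170) (fin (add (start D2172) D2161))
noncomputable def D2176 : OP := orK (nat_lit 186) (fin (add (start D309) D2174))
noncomputable def D2167 : OP := win (nat_lit 2) (nat_lit 6) (nat_lit 8) (nat_lit 4)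
noncomputable def D2166 : OP := win (nat_lit 2) (nat_lit 5) (nat_lit 8) (nat_lit 5)
noncomputable def D2169 : OP := orK (nat_lit 166) (fin (add (start D2166) D2167))
noncomputable def D2171 : OP := orK (nat_lit 186) (fin (add (start D309) D2169))
noncomputable def D2184 : OP := orK (nat_lit 187) (fin (add (add (start D2171) D2176) (orK (nat_lit 167) (fin (add (start D133) (orK (nat_lit 191) (fin (add (start D132) D2178))))))))
noncomputable def D1757 : OP := win (nat_lit 4) (nat_lit 8) (nat_lit 8) (nat_lit 4)
noncomputable def D1759 : OP := orK (nat_lit 172) (fin (add (start D1757) D221))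
noncomputable def D1222 : OP := win (nat_lit 2) (nat_lit 8) (nat_lit 8) (nat_lit 4)
noncomputable def D3425 : OP := orK (nat_lit 168) (fin (add (start D72) (orK (nat_lit 192) (fin (add (start D1222) D1759)))))
noncomputable def D3426 : AP := fin (add (start D86) D3425)
noncomputable def D3427 : OP := orK (nat_lit 191) D3426
noncomputable def D3081 : OP := win (nat_lit 7) (nat_lit 7) (nat_lit 6) (nat_lit 4)
noncomputable def D3080 : OP := win (nat_lit 7) (nat_lit 7) (nat_lit 5) (nat_lit 5)
noncomputable def D3083 : OP := orK (nat_lit 127) (fin (add (start D3080) D3081))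
noncomputable def D3073 : OP := win (nat_lit 3) (nat_lit 8) (nat_lit 6) (nat_lit 4)
noncomputable def D3074 : OP := win (nat_lit 3) (nat_lit 8) (nat_lit 5) (nat_lit 5)
noncomputable def D5972 : OP := orK (nat_lit 129) (fin (add (start D3074) D3073))
noncomputable def D3008 : OP := win (nat_lit 6) (nat_lit 8) (nat_lit 8) (nat_lit 5)
noncomputable def D1665 : OP := win (nat_lit 6) (nat_lit 8) (nat_lit 7) (nat_lit 4)
noncomputable def D3011 : OP := win (nat_lit 3) (nat_lit 8) (nat_lit 7) (nat_lit 4)
noncomputable def D2998 : OP := win (nat_lit 3) (nat_lit 8) (nat_lit 6) (nat_lit 5)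
noncomputable def D6306 : OP := orK (nat_lit 149) (fin (add (start D2998) D3011))
noncomputable def D142 : OP := win (nat_lit 5) (nat_lit 8) (nat_lit 9) (nat_lit 4)
noncomputable def D6326 : OP := orK (nat_lit 172) (fin (add (start D1757) (orK (nat_lit 192) (fin (add (start D221) D142)))))
noncomputable def D3013 : OP := win (nat_lit 7) (nat_lit 7) (nat_lit 7) (nat_lit 4)
noncomputable def D3012 : OP := win (nat_lit 7) (nat_lit 7) (nat_lit 6) (nat_lit 5)
noncomputable def D3014 : AP := fin (add (start D3012) D3013)
noncomputable def D3015 : OP := orK (nat_lit 147) D3014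
noncomputable def D1666 : OP := win (nat_lit 1) (nat_lit 7) (nat_lit 7) (nat_lit 4)
noncomputable def D6314 : OP := orK (nat_lit 227) (fin (add (start D89) (orK (nat_lit 148) (fin (add (start D1666) D3015)))))
noncomputable def D260 : OP := win (nat_lit 7) (nat_lit 7) (nat_lit 7) (nat_lit 5)
noncomputable def D6302 : OP := orK (nat_lit 167) (fin (add (start D59) D260))
noncomputable def D2261 : OP := win (nat_lit 3) (nat_lit 8) (nat_lit 7) (nat_lit 5)
noncomputable def D6304 : OP := orK (nat_lit 169) (fin (add (start D2261) D6302))
noncomputable def D6316 : OP := orK (nat_lit 168) (fin (add (add (start D6304) (orK (nat_lit 227) (fin (add (start D89) (orK (nat_lit 148) (fin (add (start D1666) D6306))))))) D6314))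
noncomputable def D2982 : OP := win (nat_lit 4) (nat_lit 5) (nat_lit 10) (nat_lit 0)
noncomputable def D2984 : AP := fin (add (start D2982) (win (nat_lit 4) (nat_lit 6) (nat_lit 10) (nat_lit 3)))
noncomputable def D2985 : OP := orK (nat_lit 226) D2984
noncomputable def D2685 : OP := win (nat_lit 5) (nat_lit 7) (nat_lit 10) (nat_lit 0)
noncomputable def D5586 : AP := fin (add (start D2685) D2985)
noncomputable def D2534 : OP := win (nat_lit 3) (nat_lit 7) (nat_lit 9) (nat_lit 3)
noncomputable def D5219 : OP := win (nat_lit 1) (nat_lit 7) (nat_lit 9) (nat_lit 3)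
noncomputable def D2533 : OP := win (nat_lit 1) (nat_lit 7) (nat_lit 8) (nat_lit 0)
noncomputable def D3473 : OP := win (nat_lit 1) (nat_lit 8) (nat_lit 7) (nat_lit 3)
noncomputable def D2578 : OP := win (nat_lit 1) (nat_lit 8) (nat_lit 6) (nat_lit 0)
noncomputable def D2522 : OP := win (nat_lit 4) (nat_lit 5) (nat_lit 9) (nat_lit 0)
noncomputable def D2521 : OP := win (nat_lit 5) (nat_lit 7) (nat_lit 9) (nat_lit 0)
noncomputable def D2527 : OP := orK (nat_lit 207) (fin (add (start D2521) (orK (nat_lit 206) (fin (add (start D2522) (win (nat_lit 4) (nat_lit 6) (nat_lit 9) (nat_lit 3)))))))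
noncomputable def D10039 : AP := fin (add (start D979) D2176)
noncomputable def D3432 : AP := fin (add (start D979) D2171)
noncomputable def D3433 : OP := orK (nat_lit 187) D3432
noncomputable def D3218 : OP := win (nat_lit 2) (nat_lit 7) (nat_lit 8) (nat_lit 3)
noncomputable def D3220 : OP := orK (nat_lit 167) (fin (add (start D59) D3218))
noncomputable def D3222 : OP := orK (nat_lit 168) (fin (add (start D73) D3220))
noncomputable def D1205 : OP := win (nat_lit 4) (nat_lit 10) (nat_lit 8) (nat_lit 5)
noncomputable def D1204 : OP := win (nat_lit 4) (nat_lit 9) (nat_lit 8) (nat_lit 4)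
noncomputable def D1207 : OP := orK (nat_lit 173) (fin (add (start D1204) D1205))
noncomputable def D3477 : OP := orK (nat_lit 193) (fin (add (start D78) D1207))
noncomputable def D1367 : OP := win (nat_lit 7) (nat_lit 11) (nat_lit 7) (nat_lit 0)
noncomputable def D1369 : OP := orK (nat_lit 151) (fin (add (start D162) D1367))
noncomputable def D425 : OP := win (nat_lit 4) (nat_lit 8) (nat_lit 8) (nat_lit 0)
noncomputable def D4605 : OP := orK (nat_lit 171) (fin (add (start D425) (orK (nat_lit 212) (fin (add (start D77) D1369)))))
noncomputable def D4607 : OP := orK (nat_lit 172) (fin (add (start D221) D4605))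
noncomputable def D924 : OP := win (nat_lit 0) (nat_lit 10) (nat_lit 9) (nat_lit 5)
noncomputable def D923 : OP := win (nat_lit 0) (nat_lit 9) (nat_lit 9) (nat_lit 4)
noncomputable def D3857 : OP := orK (nat_lit 213) (fin (add (start D923) (orK (nat_lit 193) (fin (add (start D924) D78)))))
noncomputable def D1763 : OP := orK (nat_lit 168) (fin (add (start D1222) (orK (nat_lit 188) (fin (add (start D72) D1759)))))
noncomputable def D6369 : OP := orK (nat_lit 213) (fin (add (start D923) (orK (nat_lit 193) (fin (add (start D924) D79)))))
noncomputable def D2016 : OP := win (nat_lit 7) (nat_lit 8) (nat_lit 6) (nat_lit 5)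
noncomputable def D3945 : OP := win (nat_lit 3) (nat_lit 9) (nat_lit 6) (nat_lit 5)
noncomputable def D928 : OP := orK (nat_lit 169) (fin (add (start D306) D78))
noncomputable def D3686 : OP := orK (nat_lit 213) (fin (add (start D923) (orK (nat_lit 193) (fin (add (start D924) D928)))))
noncomputable def D10773 : OP := orK (nat_lit 167) (fin (add (start D132) (orK (nat_lit 187) (fin (add (start D133) D134)))))
noncomputable def D3937 : OP := win (nat_lit 7) (nat_lit 8) (nat_lit 7) (nat_lit 0)
noncomputable def D10790 : OP := orK (nat_lit 148) (fin (add (start D1023) D3937))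
noncomputable def D5354 : OP := win (nat_lit 2) (nat_lit 6) (nat_lit 6) (nat_lit 4)
noncomputable def D5355 : OP := win (nat_lit 2) (nat_lit 5) (nat_lit 6) (nat_lit 5)
noncomputable def D8324 : OP := orK (nat_lit 126) (fin (add (start D5355) D5354))
noncomputable def D3311 : OP := win (nat_lit 0) (nat_lit 5) (nat_lit 7) (nat_lit 0)
noncomputable def D10343 : OP := win (nat_lit 0) (nat_lit 7) (nat_lit 7) (nat_lit 4)
noncomputable def D3492 : OP := win (nat_lit 7) (nat_lit 8) (nat_lit 8) (nat_lit 0)
noncomputable def D1241 : OP := win (nat_lit 1) (nat_lit 9) (nat_lit 7) (nat_lit 1)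
noncomputable def D9183 : OP := win (nat_lit 5) (nat_lit 8) (nat_lit 7) (nat_lit 2)
noncomputable def D9947 : OP := win (nat_lit 4) (nat_lit 8) (nat_lit 7) (nat_lit 2)
noncomputable def D7330 : OP := win (nat_lit 7) (nat_lit 8) (nat_lit 7) (nat_lit 4)
noncomputable def D7332 : OP := orK (nat_lit 148) (fin (add (start D2016) D7330))
noncomputable def D7334 : OP := orK (nat_lit 149) (fin (add (start D284) D7332))
noncomputable def D10047 : AP := fin (add (start D3945) D284)
noncomputable def D10048 : OP := orK (nat_lit 149) D10047
noncomputable def D10069 : OP := orK (nat_lit 150) (fin (add (start D1241) D10048))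
noncomputable def D1722 : OP := win (nat_lit 7) (nat_lit 8) (nat_lit 7) (nat_lit 5)
noncomputable def D10496 : OP := orK (nat_lit 169) (fin (add (add (start (orK (nat_lit 170) (fin (add (start D207) (orK (nat_lit 168) (fin (add (start D363) D1722))))))) D10069) D7334))
noncomputable def D1232 : OP := win (nat_lit 1) (nat_lit 8) (nat_lit 8) (nat_lit 4)
noncomputable def D1231 : OP := win (nat_lit 1) (nat_lit 8) (nat_lit 9) (nat_lit 5)
noncomputable def D751 : OP := win (nat_lit 3) (nat_lit 9) (nat_lit 9) (nat_lit 0)
noncomputable def D10046 : OP := orK (nat_lit 249) (fin (add (start D751) (orK (nat_lit 248) (fin (add (start D1231) (orK (nat_lit 169) (fin (add (start D1232) D7334))))))))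
noncomputable def D2023 : OP := win (nat_lit 3) (nat_lit 9) (nat_lit 8) (nat_lit 0)
noncomputable def D3988 : OP := orK (nat_lit 170) (fin (add (start D207) D2023))
noncomputable def D2431 : OP := win (nat_lit 4) (nat_lit 7) (nat_lit 9) (nat_lit 1)
noncomputable def D4599 : AP := fin (add (start D2909) (win (nat_lit 5) (nat_lit 7) (nat_lit 9) (nat_lit 3)))
noncomputable def D144 : OP := orK (nat_lit 208) (fin (add (start D86) D142))
noncomputable def D1771 : OP := orK (nat_lit 168) (fin (add (start D1222) (orK (nat_lit 188) (fin (add (start D72) D144)))))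
noncomputable def D10377 : OP := orK (nat_lit 192) (fin (add (add (start D327) D3686) D1771))
noncomputable def D1767 : OP := orK (nat_lit 172) (fin (add (start D221) (orK (nat_lit 188) (fin (add (start D1757) D144)))))
noncomputable def D3228 : OP := orK (nat_lit 213) (fin (add (start D923) (orK (nat_lit 193) (fin (add (start D924) D1207)))))
noncomputable def D3887 : OP := orK (nat_lit 192) (fin (add (add (start D327) D3228) D1767))
noncomputable def D1008 : OP := orK (nat_lit 167) (fin (add (start D133) D132))
noncomputable def D3236 : OP := orK (nat_lit 206) (fin (add (start (win (nat_lit 5) (nat_lit 5) (nat_lit 9) (nat_lit 5))) (win (nat_lit 5) (nat_lit 6) (nat_lit 9) (nat_lit 4))))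
noncomputable def D4509 : OP := win (nat_lit 7) (nat_lit 10) (nat_lit 6) (nat_lit 5)
noncomputable def D7582 : OP := win (nat_lit 5) (nat_lit 8) (nat_lit 7) (nat_lit 3)
noncomputable def D4510 : OP := win (nat_lit 3) (nat_lit 11) (nat_lit 6) (nat_lit 5)
noncomputable def D3459 : OP := orK (nat_lit 192) (fin (add (start D77) D1759))
noncomputable def D3461 : OP := orK (nat_lit 212) (fin (add (start D76) D3459))
noncomputable def D1696 : OP := orK (nat_lit 168) (fin (add (start D72) D1222))
noncomputable def D1698 : OP := orK (nat_lit 192) (fin (add (start D77) D1696))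
noncomputable def D1700 : OP := orK (nat_lit 212) (fin (add (start D76) D1698))
noncomputable def D9963 : OP := orK (nat_lit 191) (fin (add (add (add (start D1700) D3461) D3425) (orK (nat_lit 168) (fin (add (start D72) (orK (nat_lit 211) (fin (add (start D87) (orK (nat_lit 171) (fin (add (start D218) (orK (nat_lit 151) (fin (add (start D162) (orK (nat_lit 152) (fin (add (start D4510) (orK (nat_lit 169) (fin (add (start D9947) (orK (nat_lit 150) (fin (add (start D7582) D4509)))))))))))))))))))))))
noncomputable def D10302 : AP := fin (add (start D979) (orK (nat_lit 166) (fin (add (start D2167) (orK (nat_lit 186) (fin (add (start D2166) (orK (nat_lit 169) (fin (add (start D310) D3236))))))))))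
noncomputable def D2154 : OP := win (nat_lit 0) (nat_lit 8) (nat_lit 9) (nat_lit 3)
noncomputable def D2519 : AP := fin (add (start D2154) D418)
noncomputable def D2520 : OP := orK (nat_lit 212) D2519
noncomputable def D3335 : AP := fin (add (start D129) D2520)
noncomputable def D3336 : OP := orK (nat_lit 211) D3335
noncomputable def D5744 : OP := win (nat_lit 5) (nat_lit 6) (nat_lit 7) (nat_lit 4)
noncomputable def D3825 : OP := win (nat_lit 5) (nat_lit 5) (nat_lit 7) (nat_lit 5)
noncomputable def D5746 : OP := orK (nat_lit 166) (fin (add (start D3825) D5744))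
noncomputable def D5750 : OP := orK (nat_lit 126) (fin (add (start D5354) (orK (nat_lit 146) (fin (add (start D5355) D5746)))))
noncomputable def D601 : OP := win (nat_lit 0) (nat_lit 7) (nat_lit 7) (nat_lit 5)
noncomputable def D600 : OP := win (nat_lit 0) (nat_lit 6) (nat_lit 7) (nat_lit 0)
noncomputable def D5378 : OP := win (nat_lit 4) (nat_lit 8) (nat_lit 6) (nat_lit 5)
noncomputable def D5544 : OP := win (nat_lit 4) (nat_lit 7) (nat_lit 6) (nat_lit 4)
noncomputable def D5820 : OP := orK (nat_lit 131) (fin (add (start D5544) D5378))
noncomputable def D10468 : OP := orK (nat_lit 147) (fin (add (start D5820) D633))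
noncomputable def D5327 : OP := win (nat_lit 4) (nat_lit 8) (nat_lit 6) (nat_lit 4)
noncomputable def D5487 : OP := orK (nat_lit 132) (fin (add (start D5327) D863))
noncomputable def D5110 : OP := win (nat_lit 2) (nat_lit 8) (nat_lit 6) (nat_lit 4)
noncomputable def D873 : OP := win (nat_lit 2) (nat_lit 7) (nat_lit 6) (nat_lit 5)
noncomputable def D10474 : OP := orK (nat_lit 128) (fin (add (start D873) D5110))
noncomputable def D10478 : OP := orK (nat_lit 148) (fin (add (add (start (orK (nat_lit 152) (fin (add (start D10474) D5487)))) D10468) D635))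
noncomputable def D2753 : OP := win (nat_lit 4) (nat_lit 10) (nat_lit 6) (nat_lit 5)
noncomputable def D2752 : OP := win (nat_lit 4) (nat_lit 9) (nat_lit 6) (nat_lit 4)
noncomputable def D2755 : OP := orK (nat_lit 133) (fin (add (start D2752) D2753))
noncomputable def D5322 : OP := win (nat_lit 2) (nat_lit 9) (nat_lit 6) (nat_lit 4)
noncomputable def D4513 : OP := win (nat_lit 2) (nat_lit 8) (nat_lit 6) (nat_lit 5)
noncomputable def D5516 : AP := fin (add (start D4513) D5322)
noncomputable def D5517 : OP := orK (nat_lit 129) D5516
noncomputable def D5526 : AP := fin (add (start D5517) D2755)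
noncomputable def D859 : OP := win (nat_lit 0) (nat_lit 10) (nat_lit 7) (nat_lit 5)
noncomputable def D2751 : OP := win (nat_lit 0) (nat_lit 9) (nat_lit 7) (nat_lit 4)
noncomputable def D5515 : OP := orK (nat_lit 173) (fin (add (start D2751) D859))
noncomputable def D5117 : OP := win (nat_lit 4) (nat_lit 9) (nat_lit 6) (nat_lit 3)
noncomputable def D5116 : OP := win (nat_lit 4) (nat_lit 8) (nat_lit 6) (nat_lit 0)
noncomputable def D5122 : OP := orK (nat_lit 132) (fin (add (start D5116) (orK (nat_lit 133) (fin (add (start D5117) (win (nat_lit 5) (nat_lit 10) (nat_lit 6) (nat_lit 0)))))))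
noncomputable def D4558 : OP := win (nat_lit 1) (nat_lit 10) (nat_lit 6) (nat_lit 2)
noncomputable def D10565 : OP := orK (nat_lit 131) (fin (add (start D4558) D5122))
noncomputable def D4505 : OP := win (nat_lit 6) (nat_lit 11) (nat_lit 7) (nat_lit 5)
noncomputable def D10574 : OP := orK (nat_lit 151) (fin (add (add (add (start (orK (nat_lit 171) (fin (add (start D162) (orK (nat_lit 211) (fin (add (start D4509) (orK (nat_lit 212) (fin (add (start D418) D4505)))))))))) D10565) (orK (nat_lit 152) (fin (add (add (start (orK (nat_lit 148) (fin (add (start D619) D10474)))) (orK (nat_lit 153) (fin (add (start D5515) D2755)))) (orK (nat_lit 153) D5526))))) D10478))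
noncomputable def D5079 : OP := win (nat_lit 0) (nat_lit 6) (nat_lit 6) (nat_lit 0)
noncomputable def D5080 : OP := win (nat_lit 2) (nat_lit 8) (nat_lit 6) (nat_lit 0)
noncomputable def D4514 : OP := win (nat_lit 7) (nat_lit 9) (nat_lit 6) (nat_lit 2)
noncomputable def D5115 : OP := win (nat_lit 3) (nat_lit 10) (nat_lit 6) (nat_lit 2)
noncomputable def D10408 : OP := orK (nat_lit 131) (fin (add (start D4558) D5115))
noncomputable def D5270 : OP := win (nat_lit 1) (nat_lit 9) (nat_lit 6) (nat_lit 2)
noncomputable def D2322 : OP := win (nat_lit 7) (nat_lit 11) (nat_lit 7) (nat_lit 5)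
noncomputable def D2323 : AP := fin (add (start D2322) D222)
noncomputable def D2324 : OP := orK (nat_lit 171) D2323
noncomputable def D10386 : OP := orK (nat_lit 172) (fin (add (start D221) (orK (nat_lit 232) (fin (add (start D226) D2324)))))
noncomputable def D1708 : AP := fin (add (start D168) D1707)
noncomputable def D1709 : OP := orK (nat_lit 208) D1708
noncomputable def D2494 : OP := win (nat_lit 0) (nat_lit 9) (nat_lit 9) (nat_lit 2)
noncomputable def D2496 : OP := orK (nat_lit 213) (fin (add (start D2494) D422))
noncomputable def D4675 : AP := fin (add (start D77) D191)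
noncomputable def D7221 : OP := orK (nat_lit 167) (fin (add (start D59) D7219))
noncomputable def D3819 : OP := win (nat_lit 6) (nat_lit 9) (nat_lit 6) (nat_lit 1)
noncomputable def D384 : OP := win (nat_lit 1) (nat_lit 8) (nat_lit 8) (nat_lit 5)
noncomputable def D1242 : OP := win (nat_lit 5) (nat_lit 8) (nat_lit 10) (nat_lit 1)
noncomputable def D10525 : OP := orK (nat_lit 148) (fin (add (start (win (nat_lit 2) (nat_lit 8) (nat_lit 7) (nat_lit 1))) D2016))
noncomputable def D10666 : OP := orK (nat_lit 172) (fin (add (start D221) (orK (nat_lit 149) (fin (add (start D284) D10525)))))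
noncomputable def D2238 : OP := orK (nat_lit 149) (fin (add (start D1893) D284))
noncomputable def D8863 : AP := fin (add (start D57) D2238)
noncomputable def D1796 : OP := win (nat_lit 7) (nat_lit 11) (nat_lit 6) (nat_lit 4)
noncomputable def D1795 : OP := win (nat_lit 7) (nat_lit 11) (nat_lit 5) (nat_lit 5)
noncomputable def D1798 : OP := orK (nat_lit 131) (fin (add (start D1795) D1796))
noncomputable def D1800 : OP := orK (nat_lit 132) (fin (add (start D1794) D1798))
noncomputable def D6167 : OP := win (nat_lit 6) (nat_lit 12) (nat_lit 7) (nat_lit 4)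
noncomputable def D9084 : OP := orK (nat_lit 233) (fin (add (start D6167) D224))
noncomputable def D2648 : OP := win (nat_lit 3) (nat_lit 12) (nat_lit 7) (nat_lit 4)
noncomputable def D9086 : OP := orK (nat_lit 232) (fin (add (start (orK (nat_lit 153) (fin (add (start D1176) D2648)))) D9084))
noncomputable def D10603 : OP := orK (nat_lit 132) (fin (add (start D10599) D1798))
noncomputable def D10605 : OP := orK (nat_lit 152) (fin (add (add (start D10603) D9086) D1800))
noncomputable def D10642 : OP := orK (nat_lit 191) (fin (add (start D77) D1959))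
noncomputable def D2357 : OP := win (nat_lit 3) (nat_lit 12) (nat_lit 6) (nat_lit 3)
noncomputable def D2356 : OP := win (nat_lit 1) (nat_lit 12) (nat_lit 5) (nat_lit 0)
noncomputable def D2358 : AP := fin (add (start D2356) D2357)
noncomputable def D2355 : OP := win (nat_lit 3) (nat_lit 12) (nat_lit 7) (nat_lit 0)
noncomputable def D2361 : OP := orK (nat_lit 153) (fin (add (start D2355) (orK (nat_lit 133) D2358)))
noncomputable def D10589 : OP := win (nat_lit 5) (nat_lit 9) (nat_lit 8) (nat_lit 2)
noncomputable def D1787 : OP := win (nat_lit 7) (nat_lit 11) (nat_lit 6) (nat_lit 5)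
noncomputable def D1226 : OP := win (nat_lit 5) (nat_lit 8) (nat_lit 10) (nat_lit 5)
noncomputable def D4557 : OP := orK (nat_lit 211) (fin (add (start D418) D1226))
noncomputable def D1271 : OP := win (nat_lit 6) (nat_lit 7) (nat_lit 8) (nat_lit 0)
noncomputable def D8558 : OP := orK (nat_lit 248) (fin (add (start D825) D1271))
noncomputable def D778 : OP := win (nat_lit 5) (nat_lit 8) (nat_lit 10) (nat_lit 4)
noncomputable def D780 : OP := orK (nat_lit 228) (fin (add (start D777) D778))
noncomputable def D822 : AP := fin (add (start D817) D780)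
noncomputable def D880 : OP := win (nat_lit 5) (nat_lit 10) (nat_lit 7) (nat_lit 0)
noncomputable def D2336 : OP := win (nat_lit 7) (nat_lit 11) (nat_lit 7) (nat_lit 4)
noncomputable def D2662 : OP := orK (nat_lit 151) (fin (add (start D1787) D2336))
noncomputable def D2497 : OP := win (nat_lit 7) (nat_lit 11) (nat_lit 6) (nat_lit 3)
noncomputable def D2501 : OP := orK (nat_lit 151) (fin (add (start D1367) (orK (nat_lit 131) (fin (add (start D1901) D2497)))))
noncomputable def D7745 : OP := win (nat_lit 1) (nat_lit 12) (nat_lit 6) (nat_lit 3)
noncomputable def D7777 : AP := fin (add (start D2356) D7745)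
noncomputable def D1021 : AP := fin (add (start D418) D780)
noncomputable def D10501 : OP := win (nat_lit 5) (nat_lit 8) (nat_lit 9) (nat_lit 1)
noncomputable def D10101 : OP := orK (nat_lit 170) (fin (add (start D1772) D641))
noncomputable def D7406 : OP := win (nat_lit 5) (nat_lit 7) (nat_lit 7) (nat_lit 0)
noncomputable def D10546 : OP := orK (nat_lit 148) (fin (add (start D2016) (orK (nat_lit 168) (fin (add (start D3937) (orK (nat_lit 167) (fin (add (start D59) D7406))))))))
noncomputable def D10087 : OP := orK (nat_lit 170) (fin (add (start D448) D641))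
noncomputable def D6124 : OP := orK (nat_lit 170) D1773
noncomputable def D248 : OP := win (nat_lit 5) (nat_lit 8) (nat_lit 10) (nat_lit 0)
noncomputable def D2603 : OP := win (nat_lit 5) (nat_lit 7) (nat_lit 10) (nat_lit 3)
noncomputable def D385 : OP := win (nat_lit 4) (nat_lit 6) (nat_lit 10) (nat_lit 0)
noncomputable def D10060 : OP := orK (nat_lit 229) (fin (add (add (start D3988) D10046) (orK (nat_lit 150) (fin (add (start D1241) (orK (nat_lit 169) (fin (add (start D10048) (orK (nat_lit 228) (fin (add (start D384) (orK (nat_lit 227) (fin (add (start D385) (orK (nat_lit 211) (fin (add (start D2603) D248)))))))))))))))))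
noncomputable def D6707 : OP := win (nat_lit 1) (nat_lit 8) (nat_lit 7) (nat_lit 0)
noncomputable def D10508 : OP := orK (nat_lit 169) (fin (add (start D6707) (orK (nat_lit 248) (fin (add (start (win (nat_lit 1) (nat_lit 8) (nat_lit 8) (nat_lit 3))) D825)))))
noncomputable def D10748 : AP := fin (add (add (add (add (add (add (start (orK (nat_lit 229) (fin (add (add (start D3988) D10046) (orK (nat_lit 191) (fin (add (start D1709) D10496))))))) (orK (nat_lit 208) (fin (add (add (start D3965) (orK (nat_lit 192) (fin (add (start D10501) (orK (nat_lit 211) (fin (add (start (orK (nat_lit 212) D10502)) (orK (nat_lit 228) (fin (add (start D777) D10508)))))))))) (orK (nat_lit 207) (fin (add (start D3946) (orK (nat_lit 227) (fin (add (start D805) (orK (nat_lit 228) (fin (add (start D2685) D10508))))))))))))) D10060) (orK (nat_lit 191) (fin (add (add (start D1709) (orK (nat_lit 192) (fin (add (start D191) (orK (nat_lit 212) (fin (add (start D77) (orK (nat_lit 169) (fin (add (start D306) (orK (nat_lit 149) (fin (add (start D284) (orK (nat_lit 150) (fin (add (start D3945) (orK (nat_lit 170) (fin (add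 (start D448) (orK (nat_lit 172) (fin (add (start D221) D10525)))))))))))))))))))))) (orK (nat_lit 207) (fin (add (start D2431) (orK (nat_lit 150) (fin (add (add (add (start D6124) D10087) (orK (nat_lit 149) (fin (add (add (add (start (orK (nat_lit 169) D10047)) (orK (nat_lit 169) (fin (add (start D3945) D10546)))) (orK (nat_lit 169) (fin (add (start D284) D10546)))) D10574)))) D10101)))))))))) (orK (nat_lit 208) (fin (add (add (start D3965) (orK (nat_lit 192) (fin (add (start D10501) (orK (nat_lit 212) (fin (add (add (add (start D10587) (orK (nat_lit 211) D1021)) (orK (nat_lit 170) (fin (add (start D1774) (orK (nat_lit 172) (fin (add (add (add (add (start (orK (nat_lit 173) (fin (add (start D10589) (orK (nat_lit 153) (fin (add (start D2355) (orK (nat_lit 133) D7777)))))))) (orK (nat_lit 171) (fin (add (start D56) D2501)))) D10605) (orK (nat_lit 152) (fin (add (add (start D10601) (orK (nat_lit 232) (fin (add (start D9084) D2662)))) D1800)))) (orK (nat_lit 171) (fin (add (start D56) (orK (nat_lit 152) (fin (add (add (start (orK (nat_lit 151) (fin (add (start D1787) (orK (nat_lit 153) (fin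 (add (start D1176) D880))))))) D10603) D10601))))))))))))) (orK (nat_lit 211) D822)))))))) (orK (nat_lit 207) (fin (add (start D3946) (orK (nat_lit 227) (fin (add (start D805) (orK (nat_lit 228) (fin (add (start D2685) (orK (nat_lit 187) (fin (add (start D804) D8558)))))))))))))))) (orK (nat_lit 229) (fin (add (add (start D3988) D10046) (orK (nat_lit 170) (fin (add (start D207) (orK (nat_lit 212) (fin (add (add (add (start D4557) (orK (nat_lit 169) (fin (add (add (start D7334) (orK (nat_lit 192) (fin (add (add (add (start (orK (nat_lit 191) (fin (add (start D77) D306)))) D10642) (orK (nat_lit 172) (fin (add (add (add (start (orK (nat_lit 171) (fin (add (start D57) D56)))) D10605) (orK (nat_lit 171) (fin (add (start D57) (orK (nat_lit 152) (fin (add (start D710) (orK (nat_lit 151) (fin (add (start D1995) D1787)))))))))) (orK (nat_lit 173) (fin (add (start D10589) D2361))))))) (orK (nat_lit 191) (fin (add (start D306) D1959))))))) (orK (nat_lit 192) (fin (add (add (add (start D10642) (orK (nat_lit 172) (fin (add (add (start D10605) (orK (nat_lit 171) D8863)) (orK (nat_lit 171) (fin (add (start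 D56) D2238))))))) (orK (nat_lit 191) (fin (add (start D77) (orK (nat_lit 228) (fin (add (start D384) D10666))))))) (orK (nat_lit 191) (fin (add (start D1959) D10666)))))))))) (orK (nat_lit 228) (fin (add (start D1242) (orK (nat_lit 169) (fin (add (start D384) (orK (nat_lit 129) (fin (add (start D3819) (orK (nat_lit 168) (fin (add (start D1722) D7221))))))))))))) (orK (nat_lit 192) (fin (add (add (add (start (orK (nat_lit 191) D4675)) D10587) D2496) (orK (nat_lit 193) (fin (add (start D10686) (win (nat_lit 5) (nat_lit 9) (nat_lit 9) (nat_lit 2)))))))))))))))))) (orK (nat_lit 191) (fin (add (add (start D1709) (orK (nat_lit 192) (fin (add (start D191) (orK (nat_lit 212) (fin (add (start D77) D10386))))))) (orK (nat_lit 208) (fin (add (start D168) (orK (nat_lit 149) (fin (add (add (start (orK (nat_lit 169) (fin (add (start D3944) D284)))) (orK (nat_lit 150) (fin (add (add (add (start (orK (nat_lit 170) (fin (add (start D1772) D40)))) (orK (nat_lit 151) (fin (add (add (add (start (orK (nat_lit 170) (fin (add (start D1772) D32)))) D10408) (orK (nat_lit 130) (fin (add (start D5270) (orK (nat_lit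 171) (fin (add (start (win (nat_lit 7) (nat_lit 10) (nat_lit 6) (nat_lit 0))) (orK (nat_lit 172) (fin (add (start D2436) (orK (nat_lit 152) (fin (add (start D617) D8437))))))))))))) (orK (nat_lit 131) (fin (add (start D4558) (orK (nat_lit 132) (fin (add (start D5116) (orK (nat_lit 133) (fin (add (start D5117) (win (nat_lit 5) (nat_lit 9) (nat_lit 6) (nat_lit 3))))))))))))))) (orK (nat_lit 151) (fin (add (add (start D10408) (orK (nat_lit 129) (fin (add (start D4514) (orK (nat_lit 128) (fin (add (start D5080) (orK (nat_lit 127) (fin (add (start D5079) (win (nat_lit 2) (nat_lit 7) (nat_lit 6) (nat_lit 3)))))))))))) D10565)))) D10574)))) (orK (nat_lit 169) (fin (add (start D3944) (orK (nat_lit 150) (fin (add (start D3945) (orK (nat_lit 148) (fin (add (start D2016) (orK (nat_lit 147) (fin (add (add (start (orK (nat_lit 170) (fin (add (start D600) D601)))) D5750) (orK (nat_lit 171) (fin (add (start D10343) (orK (nat_lit 151) (fin (add (start D605) D633))))))))))))))))))))))))))))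
noncomputable def D5822 : OP := orK (nat_lit 147) (fin (add (start D629) D5820))
noncomputable def D5234 : OP := win (nat_lit 5) (nat_lit 7) (nat_lit 7) (nat_lit 3)
noncomputable def D5198 : OP := win (nat_lit 0) (nat_lit 7) (nat_lit 6) (nat_lit 3)
noncomputable def D5238 : OP := orK (nat_lit 128) (fin (add (start D5080) (orK (nat_lit 127) (fin (add (start D5079) D5198)))))
noncomputable def D10417 : OP := win (nat_lit 6) (nat_lit 9) (nat_lit 6) (nat_lit 2)
noncomputable def D4512 : OP := orK (nat_lit 172) (fin (add (start D2436) D617))
noncomputable def D10442 : OP := orK (nat_lit 152) (fin (add (start D4510) (orK (nat_lit 149) (fin (add (start D4512) (orK (nat_lit 129) (fin (add (start D4513) D10417))))))))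
noncomputable def D10444 : OP := orK (nat_lit 171) (fin (add (start D162) D10442))
noncomputable def D10414 : OP := orK (nat_lit 171) (fin (add (start D162) D4509))
noncomputable def D10402 : OP := orK (nat_lit 209) (fin (add (start D448) (orK (nat_lit 208) (fin (add (start D168) (orK (nat_lit 228) (fin (add (start D777) (orK (nat_lit 149) (fin (add (start (win (nat_lit 1) (nat_lit 8) (nat_lit 7) (nat_lit 1))) D40)))))))))))
noncomputable def D10430 : OP := orK (nat_lit 152) (fin (add (start D4513) (orK (nat_lit 132) (fin (add (start (win (nat_lit 3) (nat_lit 11) (nat_lit 6) (nat_lit 2))) D863)))))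
noncomputable def D7355 : OP := win (nat_lit 6) (nat_lit 10) (nat_lit 6) (nat_lit 0)
noncomputable def D417 : OP := win (nat_lit 0) (nat_lit 8) (nat_lit 9) (nat_lit 0)
noncomputable def D419 : AP := fin (add (start D417) D418)
noncomputable def D4601 : OP := orK (nat_lit 209) D1708
noncomputable def D4600 : OP := orK (nat_lit 207) D4599
noncomputable def D1373 : OP := orK (nat_lit 172) (fin (add (start D221) (orK (nat_lit 171) (fin (add (start D425) D1369)))))
noncomputable def D424 : OP := orK (nat_lit 213) (fin (add (start (win (nat_lit 0) (nat_lit 9) (nat_lit 9) (nat_lit 3))) D422))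
noncomputable def D420 : OP := orK (nat_lit 211) D419
noncomputable def D2155 : OP := win (nat_lit 2) (nat_lit 8) (nat_lit 9) (nat_lit 3)
noncomputable def D2517 : AP := fin (add (start D2155) D418)
noncomputable def D2518 : OP := orK (nat_lit 212) D2517
noncomputable def D3333 : AP := fin (add (start D129) D2518)
noncomputable def D3334 : OP := orK (nat_lit 211) D3333
noncomputable def D6157 : OP := win (nat_lit 1) (nat_lit 10) (nat_lit 6) (nat_lit 1)
noncomputable def D3309 : OP := orK (nat_lit 129) (fin (add (start D3073) (orK (nat_lit 128) (fin (add (start D3074) D3083)))))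
noncomputable def D3305 : OP := orK (nat_lit 209) D1025
noncomputable def D146 : OP := orK (nat_lit 192) (fin (add (start D77) D144))
noncomputable def D7259 : OP := orK (nat_lit 211) D2519
noncomputable def D7258 : OP := orK (nat_lit 211) D2517
noncomputable def D2156 : AP := fin (add (start D2154) D2155)
noncomputable def D7257 : OP := orK (nat_lit 211) D2156
noncomputable def D3258 : OP := orK (nat_lit 167) (fin (add (start D133) (orK (nat_lit 191) (fin (add (start D132) D137)))))
noncomputable def D3238 : OP := orK (nat_lit 186) (fin (add (start D309) D3236))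
noncomputable def D3421 : OP := orK (nat_lit 187) (fin (add (add (start D2171) D3238) D3258))
noncomputable def D2433 : OP := win (nat_lit 5) (nat_lit 9) (nat_lit 7) (nat_lit 0)
noncomputable def D5387 : OP := win (nat_lit 4) (nat_lit 11) (nat_lit 6) (nat_lit 5)
noncomputable def D5386 : OP := win (nat_lit 4) (nat_lit 10) (nat_lit 6) (nat_lit 4)
noncomputable def D5389 : OP := orK (nat_lit 134) (fin (add (start D5386) D5387))
noncomputable def D5399 : OP := win (nat_lit 0) (nat_lit 11) (nat_lit 7) (nat_lit 5)
noncomputable def D5398 : OP := win (nat_lit 0) (nat_lit 10) (nat_lit 7) (nat_lit 4)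
noncomputable def D5409 : OP := orK (nat_lit 174) (fin (add (start D5398) (orK (nat_lit 154) (fin (add (start D5399) D5389)))))
noncomputable def D9174 : OP := win (nat_lit 5) (nat_lit 9) (nat_lit 7) (nat_lit 4)
noncomputable def D3475 : OP := orK (nat_lit 228) (fin (add (start D3473) D88))
noncomputable def D6693 : OP := orK (nat_lit 172) (fin (add (start D1757) (orK (nat_lit 192) (fin (add (start D221) D144)))))
noncomputable def D148 : OP := orK (nat_lit 212) (fin (add (start D76) D146))
noncomputable def D3441 : OP := orK (nat_lit 187) (fin (add (add (start D2176) D3238) (orK (nat_lit 171) (fin (add (start D1043) (orK (nat_lit 191) (fin (add (start D218) D137))))))))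
noncomputable def D977 : OP := win (nat_lit 3) (nat_lit 8) (nat_lit 9) (nat_lit 4)
noncomputable def D829 : OP := win (nat_lit 1) (nat_lit 7) (nat_lit 10) (nat_lit 5)
noncomputable def D828 : OP := win (nat_lit 1) (nat_lit 7) (nat_lit 9) (nat_lit 4)
noncomputable def D2556 : OP := orK (nat_lit 267) (fin (add (start D828) (orK (nat_lit 268) (fin (add (start D829) D977)))))
noncomputable def D2558 : OP := orK (nat_lit 248) (fin (add (start D824) D2556))
noncomputable def D839 : OP := win (nat_lit 6) (nat_lit 8) (nat_lit 9) (nat_lit 5)
noncomputable def D2544 : OP := win (nat_lit 6) (nat_lit 8) (nat_lit 8) (nat_lit 4)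
noncomputable def D2546 : OP := orK (nat_lit 249) (fin (add (start D2544) D839))
noncomputable def D2543 : OP := win (nat_lit 1) (nat_lit 7) (nat_lit 8) (nat_lit 4)
noncomputable def D2542 : OP := win (nat_lit 1) (nat_lit 7) (nat_lit 9) (nat_lit 5)
noncomputable def D2561 : OP := win (nat_lit 2) (nat_lit 7) (nat_lit 8) (nat_lit 0)
noncomputable def D2531 : OP := orK (nat_lit 248) (fin (add (start D824) (orK (nat_lit 209) (fin (add (start D825) D777)))))
noncomputable def D2577 : OP := orK (nat_lit 228) (fin (add (add (add (start D2531) (orK (nat_lit 227) (fin (add (start D2532) (orK (nat_lit 168) (fin (add (start D89) (orK (nat_lit 167) (fin (add (start D2561) D260)))))))))) (orK (nat_lit 248) (fin (add (start D824) (orK (nat_lit 247) (fin (add (start D2542) (orK (nat_lit 168) (fin (add (start D2543) (orK (nat_lit 191) (fin (add (start D72) D2546))))))))))))) D2558))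
noncomputable def D2535 : OP := win (nat_lit 3) (nat_lit 7) (nat_lit 10) (nat_lit 0)
noncomputable def D2541 : OP := orK (nat_lit 227) (fin (add (start D2532) (orK (nat_lit 247) (fin (add (start D2533) (orK (nat_lit 267) (fin (add (start D2534) D2535))))))))
noncomputable def D2560 : OP := orK (nat_lit 228) (fin (add (add (add (start D2531) D2541) (orK (nat_lit 248) (fin (add (start D824) (orK (nat_lit 247) (fin (add (start D2542) (orK (nat_lit 168) (fin (add (start D2543) D2546)))))))))) D2558))
noncomputable def D3431 : OP := orK (nat_lit 211) (fin (add (add (start D2518) D2520) (orK (nat_lit 208) (fin (add (add (add (start D2527) D2560) D2577) D3427)))))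
noncomputable def D6381 : OP := orK (nat_lit 166) (fin (add (start D2167) (orK (nat_lit 186) (fin (add (start D2166) D3236)))))
noncomputable def D1283 : OP := win (nat_lit 3) (nat_lit 7) (nat_lit 8) (nat_lit 0)
noncomputable def D4025 : OP := win (nat_lit 3) (nat_lit 7) (nat_lit 7) (nat_lit 5)
noncomputable def D4027 : OP := orK (nat_lit 168) (fin (add (start D4025) D1283))
noncomputable def D4010 : OP := win (nat_lit 1) (nat_lit 6) (nat_lit 8) (nat_lit 5)
noncomputable def D4033 : OP := orK (nat_lit 207) (fin (add (start D134) (orK (nat_lit 167) (fin (add (start D133) (orK (nat_lit 227) (fin (add (start (orK (nat_lit 208) (fin (add (start (orK (nat_lit 226) (fin (add (start D4010) (win (nat_lit 5) (nat_lit 6) (nat_lit 10) (nat_lit 1)))))) D4022)))) D4027))))))))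
noncomputable def D6632 : AP := fin (add (add (add (start D2171) D3238) D4033) D6381)
noncomputable def D4038 : OP := win (nat_lit 0) (nat_lit 6) (nat_lit 8) (nat_lit 2)
noncomputable def D4060 : OP := orK (nat_lit 166) (fin (add (start D4038) (orK (nat_lit 146) (fin (add (start (win (nat_lit 7) (nat_lit 6) (nat_lit 7) (nat_lit 0))) (orK (nat_lit 126) (fin (add (start (win (nat_lit 6) (nat_lit 6) (nat_lit 5) (nat_lit 0))) (win (nat_lit 6) (nat_lit 6) (nat_lit 6) (nat_lit 3))))))))))
noncomputable def D4063 : OP := win (nat_lit 3) (nat_lit 7) (nat_lit 6) (nat_lit 3)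
noncomputable def D4062 : OP := win (nat_lit 1) (nat_lit 7) (nat_lit 5) (nat_lit 0)
noncomputable def D4065 : OP := orK (nat_lit 128) (fin (add (start D4062) D4063))
noncomputable def D4092 : OP := orK (nat_lit 126) (fin (add (start (win (nat_lit 7) (nat_lit 6) (nat_lit 5) (nat_lit 5))) (win (nat_lit 7) (nat_lit 6) (nat_lit 6) (nat_lit 4))))
noncomputable def D4075 : OP := win (nat_lit 3) (nat_lit 7) (nat_lit 6) (nat_lit 4)
noncomputable def D4074 : OP := win (nat_lit 3) (nat_lit 7) (nat_lit 5) (nat_lit 5)
noncomputable def D4077 : OP := orK (nat_lit 128) (fin (add (start D4074) D4075))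
noncomputable def D4096 : OP := orK (nat_lit 127) (fin (add (start D4077) D4092))
noncomputable def D4099 : OP := win (nat_lit 7) (nat_lit 6) (nat_lit 7) (nat_lit 4)
noncomputable def D3533 : OP := win (nat_lit 7) (nat_lit 6) (nat_lit 6) (nat_lit 5)
noncomputable def D4101 : OP := orK (nat_lit 146) (fin (add (start D3533) D4099))
noncomputable def D4080 : OP := win (nat_lit 1) (nat_lit 6) (nat_lit 7) (nat_lit 4)
noncomputable def D4082 : OP := orK (nat_lit 226) (fin (add (start D4080) D4010))
noncomputable def D4071 : OP := win (nat_lit 1) (nat_lit 6) (nat_lit 7) (nat_lit 5)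
noncomputable def D4070 : OP := win (nat_lit 1) (nat_lit 6) (nat_lit 6) (nat_lit 4)
noncomputable def D4073 : OP := orK (nat_lit 206) (fin (add (start D4070) D4071))
noncomputable def D4079 : OP := orK (nat_lit 127) (fin (add (start D4073) D4077))
noncomputable def D4105 : OP := orK (nat_lit 147) (fin (add (add (start D4079) (orK (nat_lit 227) (fin (add (start D4082) D4101)))) D4096))
noncomputable def D4094 : OP := orK (nat_lit 127) (fin (add (start D4073) D4092))
noncomputable def D4083 : OP := win (nat_lit 3) (nat_lit 7) (nat_lit 6) (nat_lit 5)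
noncomputable def D4086 : OP := orK (nat_lit 148) (fin (add (start D4083) (win (nat_lit 3) (nat_lit 7) (nat_lit 7) (nat_lit 4))))
noncomputable def D4087 : AP := fin (add (start D4082) D4086)
noncomputable def D4098 : OP := orK (nat_lit 147) (fin (add (add (start (orK (nat_lit 227) D4087)) D4094) D4096))
noncomputable def D10097 : OP := orK (nat_lit 167) (fin (add (add (add (start D4098) D4105) (orK (nat_lit 168) (fin (add (start D59) (orK (nat_lit 148) (fin (add (start D3937) D4065))))))) D4060))
noncomputable def D10160 : OP := win (nat_lit 6) (nat_lit 7) (nat_lit 10) (nat_lit 5)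
noncomputable def D10159 : OP := win (nat_lit 6) (nat_lit 7) (nat_lit 9) (nat_lit 4)
noncomputable def D10156 : OP := win (nat_lit 1) (nat_lit 6) (nat_lit 10) (nat_lit 5)
noncomputable def D10155 : OP := win (nat_lit 1) (nat_lit 6) (nat_lit 9) (nat_lit 4)
noncomputable def D10158 : OP := orK (nat_lit 266) (fin (add (start D10155) D10156))
noncomputable def D10164 : OP := orK (nat_lit 267) (fin (add (start D10158) (orK (nat_lit 268) (fin (add (start D10159) D10160)))))
noncomputable def D4039 : OP := win (nat_lit 7) (nat_lit 6) (nat_lit 7) (nat_lit 5)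
noncomputable def D4040 : AP := fin (add (start D4038) D4039)
noncomputable def D8572 : OP := win (nat_lit 7) (nat_lit 6) (nat_lit 8) (nat_lit 4)
noncomputable def D4041 : OP := orK (nat_lit 166) D4040
noncomputable def D4124 : OP := win (nat_lit 5) (nat_lit 6) (nat_lit 10) (nat_lit 2)
noncomputable def D4061 : OP := win (nat_lit 3) (nat_lit 7) (nat_lit 7) (nat_lit 0)
noncomputable def D4037 : OP := orK (nat_lit 208) D4036
noncomputable def D10170 : OP := orK (nat_lit 207) (fin (add (add (add (start D4037) (orK (nat_lit 206) (fin (add (start (win (nat_lit 4) (nat_lit 6) (nat_lit 9) (nat_lit 2))) (orK (nat_lit 167) (fin (add (add (start (orK (nat_lit 168) (fin (add (start D59) (orK (nat_lit 148) (fin (add (start D4061) D3937))))))) (orK (nat_lit 226) (fin (add (start (win (nat_lit 1) (nat_lit 6) (nat_lit 7) (nat_lit 0))) (orK (nat_lit 246) (fin (add (start (win (nat_lit 1) (nat_lit 6) (nat_lit 8) (nat_lit 3))) (win (nat_lit 3) (nat_lit 6) (nat_lit 9) (nat_lit 0))))))))) (orK (nat_lit 148) (fin (add (start (orK (nat_lit 168) (fin (add (start D59) D3937)))) (orK (nat_lit 147) (fin (add (start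 D4071) D4083))))))))))))) (orK (nat_lit 227) (fin (add (add (start (orK (nat_lit 208) (fin (add (start D804) D805)))) (orK (nat_lit 226) (fin (add (start D4124) (orK (nat_lit 167) (fin (add (start D4010) D4041))))))) (orK (nat_lit 247) (fin (add (start (orK (nat_lit 166) (fin (add (start D8572) (orK (nat_lit 167) D4040))))) D10164))))))) D10097))
noncomputable def D10260 : OP := orK (nat_lit 186) (fin (add (start (win (nat_lit 5) (nat_lit 6) (nat_lit 8) (nat_lit 0))) (orK (nat_lit 185) (fin (add (start (win (nat_lit 4) (nat_lit 4) (nat_lit 8) (nat_lit 0))) (win (nat_lit 5) (nat_lit 5) (nat_lit 8) (nat_lit 3)))))))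
noncomputable def D4067 : OP := orK (nat_lit 148) (fin (add (start D4061) D4065))
noncomputable def D4110 : OP := win (nat_lit 0) (nat_lit 4) (nat_lit 7) (nat_lit 0)
noncomputable def D10268 : AP := fin (add (start D3533) (orK (nat_lit 168) (fin (add (start (win (nat_lit 2) (nat_lit 6) (nat_lit 7) (nat_lit 0))) (orK (nat_lit 145) (fin (add (start D4110) (win (nat_lit 0) (nat_lit 5) (nat_lit 7) (nat_lit 3)))))))))
noncomputable def D1272 : OP := win (nat_lit 6) (nat_lit 7) (nat_lit 9) (nat_lit 5)
noncomputable def D6399 : OP := win (nat_lit 6) (nat_lit 7) (nat_lit 8) (nat_lit 4)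
noncomputable def D6401 : OP := orK (nat_lit 248) (fin (add (start D6399) D1272))
noncomputable def D6396 : OP := win (nat_lit 1) (nat_lit 6) (nat_lit 9) (nat_lit 5)
noncomputable def D6395 : OP := win (nat_lit 1) (nat_lit 6) (nat_lit 8) (nat_lit 4)
noncomputable def D8594 : OP := orK (nat_lit 246) (fin (add (start D6395) (orK (nat_lit 247) (fin (add (start D6396) D6401)))))
noncomputable def D8574 : OP := orK (nat_lit 166) (fin (add (start D4039) D8572))
noncomputable def D8600 : OP := orK (nat_lit 227) (fin (add (add (start (orK (nat_lit 226) (fin (add (start D4010) (orK (nat_lit 147) (fin (add (start D4080) D4101))))))) D8594) (orK (nat_lit 248) (fin (add (start D6399) (orK (nat_lit 247) (fin (add (start D1272) D8574))))))))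
noncomputable def D8608 : OP := orK (nat_lit 206) (fin (add (start D4071) (orK (nat_lit 127) (fin (add (start D4070) D4092)))))
noncomputable def D8604 : OP := orK (nat_lit 206) (fin (add (start D4071) (orK (nat_lit 127) (fin (add (start D4070) D4077)))))
noncomputable def D2117 : OP := win (nat_lit 6) (nat_lit 7) (nat_lit 8) (nat_lit 5)
noncomputable def D2116 : OP := win (nat_lit 6) (nat_lit 7) (nat_lit 7) (nat_lit 0)
noncomputable def D2118 : AP := fin (add (start D2116) D2117)
noncomputable def D6802 : OP := orK (nat_lit 228) D2118
noncomputable def D10249 : OP := orK (nat_lit 227) (fin (add (start D805) (orK (nat_lit 167) (fin (add (start (orK (nat_lit 168) (fin (add (start D59) D4025)))) D6802)))))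
noncomputable def D7434 : OP := orK (nat_lit 208) (fin (add (start D3944) D7432))
noncomputable def D10107 : OP := orK (nat_lit 149) (fin (add (start D284) D7434))
noncomputable def D6814 : OP := orK (nat_lit 147) (fin (add (start D4086) D4101))
noncomputable def D6398 : OP := orK (nat_lit 246) (fin (add (start D6395) D6396))
noncomputable def D10197 : OP := orK (nat_lit 186) (fin (add (start (win (nat_lit 7) (nat_lit 6) (nat_lit 8) (nat_lit 5))) (win (nat_lit 7) (nat_lit 6) (nat_lit 9) (nat_lit 4))))
noncomputable def D7108 : OP := win (nat_lit 4) (nat_lit 4) (nat_lit 11) (nat_lit 0)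
noncomputable def D1251 : OP := win (nat_lit 3) (nat_lit 8) (nat_lit 10) (nat_lit 0)
noncomputable def D8562 : OP := orK (nat_lit 227) (fin (add (start D805) (orK (nat_lit 228) (fin (add (start D2685) D8558)))))
noncomputable def D8566 : OP := orK (nat_lit 208) (fin (add (start D804) D8562))
noncomputable def D8564 : OP := orK (nat_lit 208) (fin (add (start D3946) D8562))
noncomputable def D4043 : OP := orK (nat_lit 167) (fin (add (start D2116) D4041))
noncomputable def D10081 : OP := orK (nat_lit 227) (fin (add (start D805) (orK (nat_lit 228) (fin (add (start D2685) (orK (nat_lit 169) (fin (add (start D6707) D4043))))))))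
noncomputable def D3557 : OP := orK (nat_lit 168) (fin (add (start D1722) (orK (nat_lit 167) (fin (add (start D59) D2080)))))
noncomputable def D2687 : OP := orK (nat_lit 227) (fin (add (start D385) D2685))
noncomputable def D1249 : OP := win (nat_lit 1) (nat_lit 8) (nat_lit 8) (nat_lit 0)
noncomputable def D10294 : AP := fin (add (add (add (add (add (add (add (start D10060) (orK (nat_lit 208) (fin (add (start D7432) (orK (nat_lit 229) (fin (add (start D3988) (orK (nat_lit 228) (fin (add (start (orK (nat_lit 248) (fin (add (start D1249) D825)))) D2687)))))))))) (orK (nat_lit 229) (fin (add (add (start D3988) D10046) (orK (nat_lit 169) (fin (add (add (start D10069) (orK (nat_lit 170) (fin (add (start D207) D3557)))) D7334))))))) (orK (nat_lit 207) (fin (add (add (add (start D4037) (orK (nat_lit 208) (fin (add (start D3946) D10081)))) (orK (nat_lit 208) (fin (add (start D804) D10081)))) (orK (nat_lit 150) (fin (add (add (add (start D6124) D10087) (orK (nat_lit 169) (fin (add (start D10048) D10097)))) D10101))))))) (orK (nat_lit 169) (fin (add (add (start D10107) (orK (nat_lit 149) (fin (add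 (start D284) (orK (nat_lit 148) (fin (add (start D2016) (orK (nat_lit 229) (fin (add (start D7330) (orK (nat_lit 248) (fin (add (start D1232) (orK (nat_lit 249) (fin (add (start D1231) D751)))))))))))))))) D10170)))) (orK (nat_lit 207) (fin (add (add (add (start D4037) D8564) D8566) (orK (nat_lit 229) (fin (add (start D3988) (orK (nat_lit 227) (fin (add (add (add (add (start (orK (nat_lit 228) (fin (add (start D385) (orK (nat_lit 248) (fin (add (start D1271) (orK (nat_lit 268) (fin (add (start D1251) (win (nat_lit 6) (nat_lit 7) (nat_lit 9) (nat_lit 3)))))))))))) (orK (nat_lit 228) (fin (add (start D385) (orK (nat_lit 247) (fin (add (add (start (orK (nat_lit 246) (fin (add (start D6396) (orK (nat_lit 245) (fin (add (start D7108) (win (nat_lit 4) (nat_lit 5) (nat_lit 11) (nat_lit 3))))))))) (orK (nat_lit 268) (fin (add (start D10159) (orK (nat_lit 267) (fin (add (start D10160) D10197))))))) (orK (nat_lit 266) (fin (add (start D10155) (orK (nat_lit 267) (fin (add (start D10156) D10197))))))))))))) (orK (nat_lit 247) (fin (add (add (start (orK (nat_lit 167) (fin (add (start D6401) D8574))))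 D10164) (orK (nat_lit 267) (fin (add (start D10158) D10197))))))) (orK (nat_lit 167) (fin (add (add (start (orK (nat_lit 147) D4087)) (orK (nat_lit 247) (fin (add (start D6398) D8574)))) D6814)))) (orK (nat_lit 226) (fin (add (start (win (nat_lit 4) (nat_lit 6) (nat_lit 10) (nat_lit 2))) (orK (nat_lit 246) (fin (add (start (win (nat_lit 1) (nat_lit 6) (nat_lit 8) (nat_lit 0))) (orK (nat_lit 266) (fin (add (start (win (nat_lit 3) (nat_lit 6) (nat_lit 9) (nat_lit 3))) (win (nat_lit 3) (nat_lit 6) (nat_lit 10) (nat_lit 0))))))))))))))))))))) (orK (nat_lit 169) (fin (add (add (start D10107) (orK (nat_lit 149) (fin (add (start D284) (orK (nat_lit 150) (fin (add (start D3945) (orK (nat_lit 148) (fin (add (start D2016) (orK (nat_lit 151) (fin (add (start (orK (nat_lit 131) (fin (add (start D5115) D5378)))) (orK (nat_lit 168) (fin (add (start D620) D609)))))))))))))))) (orK (nat_lit 207) (fin (add (add (add (start D4037) (orK (nat_lit 208) (fin (add (start D3946) D10249)))) (orK (nat_lit 208) (fin (add (start D804) D10249)))) (orK (nat_lit 167) (fin (add (add (add (add (start (orK (nat_lit 168)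 (fin (add (start D10260) (orK (nat_lit 227) (fin (add (start D4025) D8594))))))) (orK (nat_lit 147) (fin (add (add (start D8604) (orK (nat_lit 146) D10268)) D8608)))) D8600) (orK (nat_lit 146) (fin (add (start (orK (nat_lit 227) (fin (add (start D4099) D8594)))) (orK (nat_lit 147) D10268))))) (orK (nat_lit 168) (fin (add (start D4067) D10260))))))))))))) (orK (nat_lit 150) (fin (add (add (add (start D6124) D10087) (orK (nat_lit 169) (fin (add (start D10048) D10170)))) D10101))))
noncomputable def D4035 : OP := orK (nat_lit 188) (fin (add (start D979) D4033))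
noncomputable def D2581 : OP := orK (nat_lit 149) (fin (add (start D2578) D2579))
noncomputable def D2591 : OP := orK (nat_lit 211) (fin (add (add (start D2518) D2520) (orK (nat_lit 208) (fin (add (add (add (start D2527) D2560) D2577) (orK (nat_lit 191) (fin (add (start D86) (orK (nat_lit 168) (fin (add (start D72) (orK (nat_lit 169) (fin (add (start D73) D2581))))))))))))))
noncomputable def D10880 : AP := fin (add (add (add (add (add (add (add (add (add (add (start (orK (nat_lit 188) (fin (add (add (start D9963) D2184) D3334)))) (orK (nat_lit 188) (fin (add (add (add (start D3421) D2591) D3334) D3336)))) (orK (nat_lit 187) (fin (add (add (add (add (start (orK (nat_lit 188) D10039)) D4035) (orK (nat_lit 209) D10294)) (orK (nat_lit 188) D10302)) (orK (nat_lit 188) D6632))))) (orK (nat_lit 188) (fin (add (add (add (start D2184) D3431) D3334) D3336)))) (orK (nat_lit 188) (fin (add (add (add (start D3441) (orK (nat_lit 191) (fin (add (add (add (start D3461) D148) D6693) (orK (nat_lit 208) (fin (add (start D86) (orK (nat_lit 171) (fin (add (start D218) (orK (nat_lit 151) (fin (add (start D162)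 (orK (nat_lit 169) (fin (add (add (start (orK (nat_lit 149) (fin (add (start D2578) D3475)))) (orK (nat_lit 149) (fin (add (start D2578) (orK (nat_lit 211) (fin (add (start D87) (orK (nat_lit 150) (fin (add (start D4509) (orK (nat_lit 152) (fin (add (start D4510) (orK (nat_lit 153) (fin (add (start D9174) D5409)))))))))))))))) (orK (nat_lit 211) (fin (add (start D87) (orK (nat_lit 228) (fin (add (start D88) (orK (nat_lit 150) (fin (add (start D4509) (orK (nat_lit 152) (fin (add (start D4510) (orK (nat_lit 209) (fin (add (start D777) (orK (nat_lit 170) (fin (add (start D448) D2433)))))))))))))))))))))))))))))))))) D3334) D3336)))) (orK (nat_lit 188) (fin (add (add (add (start D3421) (orK (nat_lit 212) (fin (add (add (add (start D7257) D7258) D7259) (orK (nat_lit 191) (fin (add (add (start D3459) D146) (orK (nat_lit 168) (fin (add (start D72) (orK (nat_lit 208) (fin (add (start D86) (orK (nat_lit 148) (fin (add (add (start D3305) D3309) (orK (nat_lit 149) (fin (add (start D2998) (orK (nat_lit 171) (fin (add (start D218) (orK (nat_lit 209) (fin (add (start D1024) (orK (nat_lit 147) (fin (add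 (start D3012) (orK (nat_lit 150) (fin (add (start D10343) (orK (nat_lit 131) (fin (add (start D6157) D5544)))))))))))))))))))))))))))))))))) D3334) D3336)))) (orK (nat_lit 191) (fin (add (add (add (add (start (orK (nat_lit 212) (fin (add (add (add (start D420) D424) (orK (nat_lit 192) (fin (add (start D77) (orK (nat_lit 169) (fin (add (start D306) D1373))))))) (orK (nat_lit 188) (fin (add (start D76) D3425))))))) D10377) (orK (nat_lit 208) (fin (add (add (add (start D4600) D4601) (orK (nat_lit 192) (fin (add (start D142) D1763)))) (orK (nat_lit 188) D3426))))) (orK (nat_lit 192) (fin (add (add (start D327) D3228) (orK (nat_lit 212) (fin (add (start D77) (orK (nat_lit 209) (fin (add (start D325) D10386)))))))))) (orK (nat_lit 211) (fin (add (start (orK (nat_lit 212) D419)) (orK (nat_lit 150) (fin (add (add (add (start (orK (nat_lit 170) (fin (add (start D7355) D10402)))) (orK (nat_lit 151) (fin (add (add (add (start (orK (nat_lit 170) (fin (add (start D32) D7355)))) D10408) (orK (nat_lit 130) (fin (add (start (win (nat_lit 6) (nat_lit 10) (nat_lit 6) (nat_lit 2))) (win (nat_lit 7) (nat_lit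 10) (nat_lit 6) (nat_lit 2)))))) D10414)))) (orK (nat_lit 151) (fin (add (add (add (start D10408) (orK (nat_lit 149) (fin (add (add (add (start (orK (nat_lit 129) (fin (add (start D10417) D4514)))) (orK (nat_lit 148) (fin (add (add (start (orK (nat_lit 147) (fin (add (start (orK (nat_lit 171) (fin (add (start D10343) D605)))) D629)))) D625) D635)))) (orK (nat_lit 129) (fin (add (start D4514) D10430)))) (orK (nat_lit 129) (fin (add (start D10417) D10430))))))) D10444) (orK (nat_lit 170) (fin (add (start D32) D10402))))))) (orK (nat_lit 151) (fin (add (add (add (start D10414) D10444) (orK (nat_lit 171) (fin (add (start D4509) D10442)))) (orK (nat_lit 149) (fin (add (add (add (add (start (orK (nat_lit 129) (fin (add (start D10417) D5238)))) (orK (nat_lit 169) (fin (add (start D284) (orK (nat_lit 168) (fin (add (start D609) (orK (nat_lit 167) (fin (add (start D59) D5234)))))))))) (orK (nat_lit 148) (fin (add (add (start D5822) (orK (nat_lit 152) (fin (add (start D5487) D623)))) D635)))) (orK (nat_lit 169) (fin (add (start D284) (orK (nat_lit 148) (fin (add (add (start (orK (nat_lit 168) (fin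 (add (start D620) (orK (nat_lit 128) (fin (add (start D873) D3818))))))) D5822) D10468))))))) D10478)))))))))))))))) (orK (nat_lit 209) D10748)) (orK (nat_lit 188) (fin (add (add (add (start D3336) (orK (nat_lit 187) D10302)) D9963) (orK (nat_lit 187) (fin (add (add (start (orK (nat_lit 186) (fin (add (start D2174) D3236)))) (orK (nat_lit 186) (fin (add (start D2169) D3236)))) (orK (nat_lit 191) (fin (add (start D1008) D2178)))))))))) (orK (nat_lit 191) (fin (add (add (add (add (add (start D3887) D10377) (orK (nat_lit 207) (fin (add (add (add (start (orK (nat_lit 208) D4599)) (orK (nat_lit 209) (fin (add (start D2431) (orK (nat_lit 229) (fin (add (add (start D3988) D10046) D10496))))))) (orK (nat_lit 188) (fin (add (add (start D10773) (orK (nat_lit 171) (fin (add (start D218) (orK (nat_lit 187) (fin (add (start D1043) D134))))))) (orK (nat_lit 171) (fin (add (start D218) (orK (nat_lit 168) (fin (add (start D72) (orK (nat_lit 169) (fin (add (add (add (start (orK (nat_lit 151) (fin (add (start D162) (orK (nat_lit 152) (fin (add (start D9947) (orK (nat_lit 149) (fin (add (start D9183) D284))))))))))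 (orK (nat_lit 151) (fin (add (start D162) (orK (nat_lit 170) (fin (add (start D1992) D10784))))))) (orK (nat_lit 209) (fin (add (add (start D10790) (orK (nat_lit 149) (fin (add (start D284) (orK (nat_lit 150) (fin (add (start D3945) (orK (nat_lit 229) (fin (add (start D1241) D3492)))))))))) (orK (nat_lit 149) (fin (add (start D284) (orK (nat_lit 150) (fin (add (start D3945) (orK (nat_lit 148) (fin (add (start D1023) (orK (nat_lit 147) (fin (add (start D10343) (orK (nat_lit 146) (fin (add (start D3311) D8324))))))))))))))))))) (orK (nat_lit 149) (fin (add (start D284) (orK (nat_lit 151) (fin (add (start D162) (orK (nat_lit 150) (fin (add (start D609) (orK (nat_lit 209) (fin (add (start D3945) D10790))))))))))))))))))))))))) (orK (nat_lit 188) (fin (add (start D135) D10773))))))) (orK (nat_lit 192) (fin (add (add (start D327) D3686) (orK (nat_lit 169) (fin (add (start D306) (orK (nat_lit 209) (fin (add (start D325) (orK (nat_lit 149) (fin (add (start D284) (orK (nat_lit 150) (fin (add (start D3945) (orK (nat_lit 170) (fin (add (start D448) (orK (nat_lit 151) (fin (add (start D32) (orK (nat_lit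 172) (fin (add (start D221) (orK (nat_lit 148) (fin (add (start D616) D2016)))))))))))))))))))))))))))) (orK (nat_lit 192) (fin (add (start D6369) D1763)))) (orK (nat_lit 169) (fin (add (add (add (start D334) (orK (nat_lit 192) (fin (add (add (start D3857) D4607) D3477)))) D3222) (orK (nat_lit 168) (fin (add (add (start D332) (orK (nat_lit 149) (fin (add (start D284) (orK (nat_lit 188) (fin (add (start (orK (nat_lit 208) (fin (add (start D2579) D86)))) (orK (nat_lit 171) (fin (add (start D218) (orK (nat_lit 151) (fin (add (start D162) (orK (nat_lit 170) (fin (add (start D52) D1992)))))))))))))))) D3220)))))))))) (orK (nat_lit 188) (fin (add (add (add (add (start D3433) (orK (nat_lit 187) D10039)) (orK (nat_lit 208) (fin (add (add (add (start D2527) (orK (nat_lit 228) (fin (add (add (start (orK (nat_lit 169) (fin (add (start D88) (orK (nat_lit 149) (fin (add (start D2578) D3473))))))) (orK (nat_lit 227) (fin (add (start (orK (nat_lit 247) (fin (add (start D2533) (orK (nat_lit 267) (fin (add (start D5219) D2534))))))) (orK (nat_lit 209) D5586))))) D6316)))) (orK (nat_lit 191) (fin (add (add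 (add (start (orK (nat_lit 168) (fin (add (start D72) (orK (nat_lit 192) (fin (add (start D1222) D142))))))) D6326) (orK (nat_lit 168) (fin (add (start D72) (orK (nat_lit 171) (fin (add (start D218) (orK (nat_lit 151) (fin (add (start D162) (orK (nat_lit 148) (fin (add (add (start (orK (nat_lit 228) (fin (add (start D6306) (orK (nat_lit 229) (fin (add (start D1665) D3008))))))) (orK (nat_lit 128) (fin (add (start D5085) D3083)))) (orK (nat_lit 128) (fin (add (start D5972) D3083)))))))))))))))) D3425)))) D3427)))) (orK (nat_lit 187) (fin (add (start D979) (orK (nat_lit 167) (fin (add (start D133) (orK (nat_lit 191) (fin (add (start D132) (orK (nat_lit 170) (fin (add (start D2161) D137))))))))))))) D2184))))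
noncomputable def D1958 : OP := win (nat_lit 0) (nat_lit 8) (nat_lit 8) (nat_lit 0)
noncomputable def D1082 : OP := win (nat_lit 5) (nat_lit 10) (nat_lit 8) (nat_lit 0)
noncomputable def D1610 : OP := orK (nat_lit 189) (fin (add (start D425) D56))
noncomputable def D3365 : OP := win (nat_lit 1) (nat_lit 9) (nat_lit 5) (nat_lit 5)
noncomputable def D496 : OP := win (nat_lit 5) (nat_lit 9) (nat_lit 8) (nat_lit 5)
noncomputable def D1896 : OP := orK (nat_lit 173) (fin (add (start (win (nat_lit 2) (nat_lit 9) (nat_lit 7) (nat_lit 4))) D496))
noncomputable def D1923 : OP := orK (nat_lit 149) (fin (add (add (add (start (orK (nat_lit 129) (fin (add (start D1876) (orK (nat_lit 169) D1879))))) (orK (nat_lit 150) (fin (add (start D40) (orK (nat_lit 151) (fin (add (start D32) (orK (nat_lit 171) (fin (add (start D1883) D857)))))))))) (orK (nat_lit 171) (fin (add (add (add (start (orK (nat_lit 230) (fin (add (start D2) D41)))) (orK (nat_lit 169) (fin (add (start D1892) (orK (nat_lit 172) (fin (add (start D1893) D1896))))))) D1906) (orK (nat_lit 172) (fin (add (add (start D1896) (orK (nat_lit 148) (fin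 (add (start (win (nat_lit 2) (nat_lit 8) (nat_lit 7) (nat_lit 3))) (orK (nat_lit 150) (fin (add (start D604) (win (nat_lit 0) (nat_lit 8) (nat_lit 7) (nat_lit 3))))))))) (orK (nat_lit 169) D1913)))))))) D1921))
noncomputable def D7587 : OP := win (nat_lit 5) (nat_lit 9) (nat_lit 7) (nat_lit 3)
noncomputable def D9262 : AP := fin (add (start D7587) D880)
noncomputable def D9858 : OP := win (nat_lit 0) (nat_lit 9) (nat_lit 7) (nat_lit 1)
noncomputable def D3181 : AP := fin (add (start D1137) D1082)
noncomputable def D1333 : OP := win (nat_lit 2) (nat_lit 11) (nat_lit 9) (nat_lit 0)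
noncomputable def D1099 : OP := win (nat_lit 2) (nat_lit 10) (nat_lit 9) (nat_lit 3)
noncomputable def D1334 : AP := fin (add (start D1099) D1333)
noncomputable def D1335 : OP := orK (nat_lit 214) D1334
noncomputable def D2373 : OP := orK (nat_lit 213) (fin (add (start D2371) D1335))
noncomputable def D4537 : OP := win (nat_lit 7) (nat_lit 11) (nat_lit 7) (nat_lit 3)
noncomputable def D4538 : AP := fin (add (start D4537) D222)
noncomputable def D8958 : OP := orK (nat_lit 232) D4538
noncomputable def D4536 : OP := win (nat_lit 6) (nat_lit 11) (nat_lit 7) (nat_lit 3)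
noncomputable def D5005 : OP := orK (nat_lit 232) (fin (add (start D4536) D222))
noncomputable def D788 : OP := win (nat_lit 4) (nat_lit 10) (nat_lit 9) (nat_lit 5)
noncomputable def D1427 : OP := win (nat_lit 2) (nat_lit 10) (nat_lit 9) (nat_lit 0)
noncomputable def D1428 : AP := fin (add (start D1427) D788)
noncomputable def D9259 : OP := win (nat_lit 2) (nat_lit 9) (nat_lit 8) (nat_lit 1)
noncomputable def D9266 : OP := win (nat_lit 1) (nat_lit 11) (nat_lit 4) (nat_lit 0)
noncomputable def D864 : OP := win (nat_lit 3) (nat_lit 11) (nat_lit 6) (nat_lit 0)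
noncomputable def D1996 : OP := win (nat_lit 4) (nat_lit 9) (nat_lit 7) (nat_lit 3)
noncomputable def D1997 : AP := fin (add (start D1996) D880)
noncomputable def D1998 : OP := orK (nat_lit 153) D1997
noncomputable def D9682 : AP := fin (add (start D1996) D7587)
noncomputable def D9700 : OP := orK (nat_lit 152) (fin (add (start D1995) (orK (nat_lit 153) D9682)))
noncomputable def D7805 : OP := orK (nat_lit 148) (fin (add (start D493) D7640))
noncomputable def D7562 : OP := orK (nat_lit 150) (fin (add (start D32) (orK (nat_lit 149) (fin (add (start D40) (orK (nat_lit 169) (fin (add (start D1892) D611))))))))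
noncomputable def D7556 : OP := orK (nat_lit 131) (fin (add (start D1902) (orK (nat_lit 171) D1950)))
noncomputable def D571 : OP := win (nat_lit 1) (nat_lit 9) (nat_lit 5) (nat_lit 4)
noncomputable def D3374 : AP := fin (add (start D571) D525)
noncomputable def D7212 : OP := orK (nat_lit 110) D3374
noncomputable def D570 : OP := win (nat_lit 1) (nat_lit 9) (nat_lit 6) (nat_lit 5)
noncomputable def D9707 : AP := fin (add (start D570) D7212)
noncomputable def D9712 : OP := orK (nat_lit 131) (fin (add (start D347) (orK (nat_lit 130) (fin (add (start D348) (orK (nat_lit 189) D9707))))))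
noncomputable def D1934 : OP := win (nat_lit 1) (nat_lit 9) (nat_lit 5) (nat_lit 0)
noncomputable def D1927 : OP := orK (nat_lit 171) (fin (add (start D369) (orK (nat_lit 230) (fin (add (start D2) D161)))))
noncomputable def D1929 : OP := orK (nat_lit 191) (fin (add (start D211) D1927))
noncomputable def D9250 : OP := orK (nat_lit 151) (fin (add (start D32) (orK (nat_lit 171) (fin (add (start D1883) D9246)))))
noncomputable def D219 : AP := fin (add (start D52) D218)
noncomputable def D220 : OP := orK (nat_lit 188) D219
noncomputable def D6363 : OP := orK (nat_lit 192) (fin (add (start D1696) D1759))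
noncomputable def D575 : OP := orK (nat_lit 189) (fin (add (start D570) (orK (nat_lit 110) (fin (add (start D571) D547)))))
noncomputable def D585 : OP := orK (nat_lit 189) (fin (add (start D570) (orK (nat_lit 110) (fin (add (start D571) (orK (nat_lit 111) (fin (add (start D545) D544))))))))
noncomputable def D1392 : OP := win (nat_lit 2) (nat_lit 10) (nat_lit 8) (nat_lit 0)
noncomputable def D1306 : OP := win (nat_lit 0) (nat_lit 8) (nat_lit 8) (nat_lit 1)
noncomputable def D9722 : AP := fin (add (start D129) (orK (nat_lit 191) (fin (add (start D87) D7355))))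
noncomputable def D8555 : AP := fin (add (start D979) D2161)
noncomputable def D9727 : OP := orK (nat_lit 187) D8555
noncomputable def D2158 : AP := fin (add (start D129) (orK (nat_lit 212) D2156))
noncomputable def D3364 : OP := win (nat_lit 6) (nat_lit 10) (nat_lit 6) (nat_lit 4)
noncomputable def D9263 : OP := orK (nat_lit 152) D9262
noncomputable def D498 : OP := orK (nat_lit 173) (fin (add (start D495) D496))
noncomputable def D1213 : OP := win (nat_lit 4) (nat_lit 11) (nat_lit 8) (nat_lit 5)
noncomputable def D1212 : OP := win (nat_lit 4) (nat_lit 10) (nat_lit 8) (nat_lit 4)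
noncomputable def D1563 : OP := orK (nat_lit 174) (fin (add (start D1212) D1213))
noncomputable def D932 : OP := win (nat_lit 2) (nat_lit 10) (nat_lit 8) (nat_lit 4)
noncomputable def D1818 : OP := orK (nat_lit 194) (fin (add (start D932) D1563))
noncomputable def D1211 : OP := orK (nat_lit 213) (fin (add (start D924) (orK (nat_lit 189) (fin (add (start D923) D1207)))))
noncomputable def D918 : OP := win (nat_lit 0) (nat_lit 11) (nat_lit 9) (nat_lit 5)
noncomputable def D917 : OP := win (nat_lit 0) (nat_lit 10) (nat_lit 9) (nat_lit 4)
noncomputable def D9659 : OP := orK (nat_lit 214) (fin (add (start D917) (orK (nat_lit 194) (fin (add (start D918) D932)))))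
noncomputable def D1604 : OP := orK (nat_lit 111) (fin (add (start D544) (orK (nat_lit 110) (fin (add (start D545) D521)))))
noncomputable def D141 : OP := orK (nat_lit 167) (fin (add (start D132) (orK (nat_lit 187) (fin (add (start D133) D137)))))
noncomputable def D885 : AP := fin (add (start D168) D170)
noncomputable def D886 : OP := orK (nat_lit 208) D885
noncomputable def D887 : AP := fin (add (start D191) D886)
noncomputable def D945 : OP := orK (nat_lit 209) D887
noncomputable def D1020 : OP := orK (nat_lit 188) D130
noncomputable def D2804 : OP := orK (nat_lit 212) (fin (add (start D77) (orK (nat_lit 188) (fin (add (start D76) D144)))))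
noncomputable def D3622 : OP := orK (nat_lit 192) (fin (add (add (start D327) D3228) D2804))
noncomputable def D1606 : OP := orK (nat_lit 130) (fin (add (start D211) D1604))
noncomputable def D3670 : OP := orK (nat_lit 150) (fin (add (start D40) D1606))
noncomputable def D916 : OP := win (nat_lit 5) (nat_lit 10) (nat_lit 9) (nat_lit 4)
noncomputable def D1217 : OP := orK (nat_lit 174) (fin (add (start D1212) (orK (nat_lit 194) (fin (add (start D1213) D916)))))
noncomputable def D1203 : OP := orK (nat_lit 214) (fin (add (start D917) (orK (nat_lit 194) (fin (add (start D918) D916)))))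
noncomputable def D1219 : OP := orK (nat_lit 193) (fin (add (add (start D1203) D1211) D1217))
noncomputable def D1356 : OP := win (nat_lit 6) (nat_lit 12) (nat_lit 10) (nat_lit 5)
noncomputable def D1355 : OP := win (nat_lit 6) (nat_lit 12) (nat_lit 9) (nat_lit 4)
noncomputable def D1358 : OP := orK (nat_lit 273) (fin (add (start D1355) D1356))
noncomputable def D1354 : OP := win (nat_lit 1) (nat_lit 11) (nat_lit 10) (nat_lit 5)
noncomputable def D1353 : OP := win (nat_lit 1) (nat_lit 11) (nat_lit 9) (nat_lit 4)
noncomputable def D1362 : OP := orK (nat_lit 271) (fin (add (start D1353) (orK (nat_lit 272) (fin (add (start D1354) D1358)))))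
noncomputable def D1338 : OP := win (nat_lit 7) (nat_lit 11) (nat_lit 8) (nat_lit 5)
noncomputable def D1364 : OP := orK (nat_lit 252) (fin (add (start D1338) D1362))
noncomputable def D1377 : OP := win (nat_lit 4) (nat_lit 9) (nat_lit 8) (nat_lit 0)
noncomputable def D1376 : OP := win (nat_lit 3) (nat_lit 12) (nat_lit 7) (nat_lit 5)
noncomputable def D1339 : OP := win (nat_lit 7) (nat_lit 11) (nat_lit 9) (nat_lit 0)
noncomputable def D1340 : AP := fin (add (start D1338) D1339)
noncomputable def D1313 : OP := win (nat_lit 0) (nat_lit 9) (nat_lit 10) (nat_lit 5)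
noncomputable def D1343 : OP := orK (nat_lit 211) (fin (add (start D1313) (orK (nat_lit 252) D1340)))
noncomputable def D1385 : OP := orK (nat_lit 232) (fin (add (add (start D1343) (orK (nat_lit 233) (fin (add (start D223) (orK (nat_lit 172) (fin (add (start D224) (orK (nat_lit 173) (fin (add (start D1376) D1377)))))))))) D1364))
noncomputable def D1010 : OP := orK (nat_lit 187) (fin (add (start D1006) D1008))
noncomputable def D1346 : OP := win (nat_lit 7) (nat_lit 12) (nat_lit 10) (nat_lit 0)
noncomputable def D1366 : OP := orK (nat_lit 232) (fin (add (add (start D1343) (orK (nat_lit 233) (fin (add (start D223) (orK (nat_lit 253) (fin (add (start (win (nat_lit 6) (nat_lit 12) (nat_lit 8) (nat_lit 0))) (orK (nat_lit 273) (fin (add (start (win (nat_lit 7) (nat_lit 12) (nat_lit 9) (nat_lit 3))) D1346)))))))))) D1364))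
noncomputable def D1332 : OP := win (nat_lit 0) (nat_lit 9) (nat_lit 9) (nat_lit 0)
noncomputable def D1337 : OP := orK (nat_lit 213) (fin (add (start D1332) D1335))
noncomputable def D874 : AP := fin (add (start D168) D169)
noncomputable def D875 : OP := orK (nat_lit 208) D874
noncomputable def D4213 : OP := orK (nat_lit 209) (fin (add (add (start D875) (orK (nat_lit 212) (fin (add (add (add (start D1337) D1366) (orK (nat_lit 189) (fin (add (start D77) (orK (nat_lit 172) (fin (add (start D221) (orK (nat_lit 188) (fin (add (start D1757) D1010)))))))))) D1385)))) D886))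
noncomputable def D1586 : OP := orK (nat_lit 194) (fin (add (start D932) D916))
noncomputable def D3824 : OP := win (nat_lit 1) (nat_lit 7) (nat_lit 7) (nat_lit 5)
noncomputable def D5088 : AP := fin (add (start D3824) D2909)
noncomputable def D5089 : OP := orK (nat_lit 207) D5088
noncomputable def D2210 : OP := orK (nat_lit 172) (fin (add (add (start D709) (orK (nat_lit 168) (fin (add (start D481) D2090)))) (orK (nat_lit 173) (fin (add (start (orK (nat_lit 193) (fin (add (start D2001) D1137)))) D2003)))))
noncomputable def D9546 : OP := orK (nat_lit 171) (fin (add (add (start D2210) (orK (nat_lit 168) (fin (add (add (start D481) (orK (nat_lit 147) (fin (add (start D61) (orK (nat_lit 167) (fin (add (start D60) (orK (nat_lit 166) (fin (add (start D482) (win (nat_lit 4) (nat_lit 6) (nat_lit 7) (nat_lit 5)))))))))))) (orK (nat_lit 148) (fin (add (start D493) (orK (nat_lit 191) (fin (add (start D364) (orK (nat_lit 188) (fin (add (start D679) (orK (nat_lit 208) (fin (add (start D2579) D5089)))))))))))))))) (orK (nat_lit 148) (fin (add (start D7623) (orK (nat_lit 147) (fin (add (start D600) (win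 (nat_lit 0) (nat_lit 7) (nat_lit 7) (nat_lit 3))))))))))
noncomputable def D2098 : OP := orK (nat_lit 169) (fin (add (start D20) D2096))
noncomputable def D2100 : OP := orK (nat_lit 171) (fin (add (start D2) D2098))
noncomputable def D116 : OP := win (nat_lit 1) (nat_lit 9) (nat_lit 10) (nat_lit 5)
noncomputable def D115 : OP := win (nat_lit 1) (nat_lit 9) (nat_lit 9) (nat_lit 4)
noncomputable def D126 : OP := orK (nat_lit 269) (fin (add (start D115) (orK (nat_lit 270) (fin (add (start D116) D15)))))
noncomputable def D676 : OP := orK (nat_lit 250) (fin (add (start D21) D126))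
noncomputable def D8486 : OP := orK (nat_lit 169) (fin (add (start D20) D676))
noncomputable def D7482 : OP := orK (nat_lit 171) (fin (add (start D2) (orK (nat_lit 250) (fin (add (start D3) D126)))))
noncomputable def D9945 : AP := fin (add (add (add (add (add (add (add (start (orK (nat_lit 230) (fin (add (add (start D7482) D8486) D2100)))) (orK (nat_lit 149) (fin (add (add (add (start (orK (nat_lit 169) (fin (add (start D1892) D9546)))) D1921) (orK (nat_lit 191) (fin (add (add (add (start (orK (nat_lit 192) (fin (add (add (add (start (orK (nat_lit 193) (fin (add (start D79) D1586)))) D945) D4213) D1219)))) D3670) (orK (nat_lit 150) (fin (add (start D40) (orK (nat_lit 189) (fin (add (add (start D3622) (orK (nat_lit 211) (fin (add (start D7355) D1020)))) (orK (nat_lit 209) (fin (add (start D1772) D1709)))))))))) (orK (nat_lit 192) (fin (add (add (add (start D945) (orK (nat_lit 193) (fin (add (start D79) D9659)))) (orK (nat_lit 150) (fin (add (start D40) (orK (nat_lit 189) (fin (add (add (start (orK (nat_lit 209) (fin (add (start D1772) D325)))) (orK (nat_lit 172) (fin (add (start D221) (orK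 (nat_lit 188) (fin (add (start D1757) D141))))))) (orK (nat_lit 130) (fin (add (start D570) D1604)))))))))) (orK (nat_lit 193) (fin (add (add (start D9659) D1211) D1818)))))))))) D7932)))) (orK (nat_lit 150) (fin (add (add (add (add (start (orK (nat_lit 151) (fin (add (start D32) (orK (nat_lit 171) (fin (add (start D1883) (orK (nat_lit 169) (fin (add (add (add (start D7569) D2096) (orK (nat_lit 153) (fin (add (add (start (orK (nat_lit 152) D9682)) (orK (nat_lit 172) (fin (add (add (start D498) (orK (nat_lit 192) (fin (add (start D57) (orK (nat_lit 189) (fin (add (start D707) (orK (nat_lit 212) (fin (add (start D1367) D2496)))))))))) (orK (nat_lit 193) (fin (add (start D2001) (orK (nat_lit 173) (fin (add (start D1137) D495)))))))))) D9263)))) D9700)))))))))) D9712) D537) (orK (nat_lit 189) (fin (add (add (add (start (orK (nat_lit 211) (fin (add (add (add (start (orK (nat_lit 130) (fin (add (start D570) D3364)))) (orK (nat_lit 188) D2158)) (orK (nat_lit 188) (fin (add (start D129) (orK (nat_lit 209) (fin (add (start D1772) D3494))))))) (orK (nat_lit 188) D9722))))) (orK (nat_lit 130) D9707))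 (orK (nat_lit 188) (fin (add (add (start D9727) (orK (nat_lit 171) (fin (add (add (start D2478) (orK (nat_lit 230) (fin (add (start D2) (orK (nat_lit 250) (fin (add (start D3) D128))))))) D2483)))) (orK (nat_lit 187) (fin (add (start D979) (orK (nat_lit 186) (fin (add (start D309) D2172)))))))))) (orK (nat_lit 188) (fin (add (add (add (start D9727) (orK (nat_lit 211) D9722)) (orK (nat_lit 171) (fin (add (add (start D2478) (orK (nat_lit 191) (fin (add (start (orK (nat_lit 168) (fin (add (start D72) (orK (nat_lit 192) (fin (add (start D1306) (orK (nat_lit 213) (fin (add (start D923) (orK (nat_lit 193) (fin (add (start D924) D1392))))))))))))) D371)))) D2483)))) (orK (nat_lit 171) (fin (add (start D52) (orK (nat_lit 172) (fin (add (start D2213) D2248))))))))))))) (orK (nat_lit 130) (fin (add (add (add (start D585) D575) D551) (orK (nat_lit 189) (fin (add (start D570) (orK (nat_lit 191) (fin (add (start D211) (orK (nat_lit 129) (fin (add (start D459) (orK (nat_lit 131) (fin (add (start D348) (orK (nat_lit 188) (fin (add (add (start (orK (nat_lit 171) D219)) (orK (nat_lit 187) (fin (add (start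 D1008) D137)))) D6363)))))))))))))))))))))) (orK (nat_lit 150) (fin (add (add (add (add (start D565) (orK (nat_lit 131) (fin (add (start D347) (orK (nat_lit 130) (fin (add (start D348) (orK (nat_lit 191) (fin (add (start D211) (orK (nat_lit 171) (fin (add (start D369) (orK (nat_lit 189) (fin (add (start D570) D220)))))))))))))))) D9250) (orK (nat_lit 129) (fin (add (start D460) (orK (nat_lit 130) (fin (add (start D459) D1929))))))) D559)))) (orK (nat_lit 150) (fin (add (add (add (add (start D565) (orK (nat_lit 149) (fin (add (start D40) (orK (nat_lit 169) (fin (add (start D1892) D9803))))))) (orK (nat_lit 129) (fin (add (start D460) (orK (nat_lit 130) (fin (add (start D459) (orK (nat_lit 189) (fin (add (start D570) (orK (nat_lit 169) (fin (add (start D1934) (orK (nat_lit 191) (fin (add (start D211) (orK (nat_lit 168) (fin (add (start D363) D73))))))))))))))))))) (orK (nat_lit 131) (fin (add (start D347) (orK (nat_lit 130) (fin (add (start D348) (orK (nat_lit 189) (fin (add (start D570) (orK (nat_lit 169) (fin (add (start D1934) (orK (nat_lit 230) (fin (add (start D20) D283))))))))))))))))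 D9712)))) (orK (nat_lit 151) (fin (add (add (add (start D7556) D7562) (orK (nat_lit 171) (fin (add (start D1883) (orK (nat_lit 169) (fin (add (add (add (start D7569) (orK (nat_lit 168) (fin (add (add (start D481) D2087) (orK (nat_lit 192) (fin (add (start D58) (orK (nat_lit 172) (fin (add (start D57) D7805)))))))))) D9700) (orK (nat_lit 152) (fin (add (add (start D1998) (orK (nat_lit 191) (fin (add (add (add (start (orK (nat_lit 132) (fin (add (start D864) (orK (nat_lit 112) (fin (add (start D9266) (win (nat_lit 1) (nat_lit 11) (nat_lit 5) (nat_lit 3))))))))) (orK (nat_lit 193) (fin (add (start D9259) (orK (nat_lit 211) (fin (add (start D4510) (orK (nat_lit 130) (fin (add (start (win (nat_lit 6) (nat_lit 10) (nat_lit 6) (nat_lit 1))) (orK (nat_lit 212) (fin (add (start D4505) (orK (nat_lit 213) D1428)))))))))))))) (orK (nat_lit 192) (fin (add (start D1959) (orK (nat_lit 212) (fin (add (add (start D5005) D8958) (orK (nat_lit 172) (fin (add (start (orK (nat_lit 173) (fin (add (start D1082) (orK (nat_lit 149) (fin (add (start D9858) D1893))))))) D2373)))))))))) (orK (nat_lit 172) (fin (add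 (add (start (orK (nat_lit 193) (fin (add (start D2001) (orK (nat_lit 173) D3181))))) (orK (nat_lit 192) (fin (add (start D57) (orK (nat_lit 132) (fin (add (start D1090) (orK (nat_lit 149) (fin (add (start D1893) (orK (nat_lit 133) (fin (add (start D1115) (win (nat_lit 4) (nat_lit 9) (nat_lit 6) (nat_lit 1))))))))))))))) (orK (nat_lit 149) (fin (add (start D1893) (orK (nat_lit 173) (fin (add (start D9858) D1082))))))))))))) (orK (nat_lit 153) D9262))))))))))) D7598)))) D1923) (orK (nat_lit 150) (fin (add (add (add (add (add (start D565) D641) (orK (nat_lit 131) (fin (add (start D347) (orK (nat_lit 130) (fin (add (start D348) (orK (nat_lit 191) (fin (add (start D211) (orK (nat_lit 110) (fin (add (start D521) (orK (nat_lit 169) (fin (add (start D3365) (orK (nat_lit 90) (fin (add (start (win (nat_lit 1) (nat_lit 9) (nat_lit 4) (nat_lit 4))) (orK (nat_lit 71) (fin (add (start (win (nat_lit 3) (nat_lit 10) (nat_lit 3) (nat_lit 4))) D8399)))))))))))))))))))))) (orK (nat_lit 129) (fin (add (start D460) (orK (nat_lit 130) (fin (add (start D459) (orK (nat_lit 191) (fin (add (start D211) (orK (nat_lit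 171) (fin (add (start D369) (orK (nat_lit 172) (fin (add (add (start D1610) (orK (nat_lit 173) (fin (add (start D1082) (orK (nat_lit 153) (fin (add (start D495) (orK (nat_lit 152) (fin (add (start (win (nat_lit 2) (nat_lit 9) (nat_lit 6) (nat_lit 2))) D1138)))))))))) (orK (nat_lit 192) (fin (add (start (orK (nat_lit 169) (fin (add (start D1958) D57)))) (orK (nat_lit 212) (fin (add (start (orK (nat_lit 189) (fin (add (start D77) D425)))) (orK (nat_lit 232) D2323))))))))))))))))))))))) D537) D559))))
noncomputable def D1994 : OP := orK (nat_lit 168) (fin (add (start D1992) D481))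
noncomputable def D8686 : OP := orK (nat_lit 150) (fin (add (add (start D466) D565) D520))
noncomputable def D8656 : OP := orK (nat_lit 209) (fin (add (start D448) (orK (nat_lit 130) (fin (add (start D210) D8652)))))
noncomputable def D8523 : OP := orK (nat_lit 173) (fin (add (start D8426) D496))
noncomputable def D8538 : OP := orK (nat_lit 193) (fin (add (start D2001) (orK (nat_lit 173) (fin (add (start D1137) D8426)))))
noncomputable def D9566 : OP := orK (nat_lit 189) (fin (add (start D707) (orK (nat_lit 192) (fin (add (start D57) (orK (nat_lit 152) (fin (add (start D710) (orK (nat_lit 212) (fin (add (start D1367) (orK (nat_lit 213) (fin (add (start D2494) D2371))))))))))))))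
noncomputable def D8510 : OP := orK (nat_lit 168) (fin (add (start D608) D1992))
noncomputable def D7809 : OP := orK (nat_lit 192) (fin (add (start D57) (orK (nat_lit 168) (fin (add (start D58) D7805)))))
noncomputable def D7637 : OP := orK (nat_lit 152) D7636
noncomputable def D4449 : OP := win (nat_lit 2) (nat_lit 9) (nat_lit 7) (nat_lit 5)
noncomputable def D23 : OP := orK (nat_lit 169) (fin (add (start D20) D21))
noncomputable def D0 : OP := win (nat_lit 1) (nat_lit 9) (nat_lit 9) (nat_lit 5)
noncomputable def D1 : OP := win (nat_lit 1) (nat_lit 9) (nat_lit 8) (nat_lit 4)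
noncomputable def D476 : OP := orK (nat_lit 249) (fin (add (start D1) (orK (nat_lit 250) (fin (add (start D0) D23)))))
noncomputable def D1978 : OP := orK (nat_lit 249) (fin (add (start D1) (orK (nat_lit 250) (fin (add (start D0) D3)))))
noncomputable def D681 : OP := win (nat_lit 7) (nat_lit 8) (nat_lit 7) (nat_lit 2)
noncomputable def D653 : OP := orK (nat_lit 250) (fin (add (start D10) D21))
noncomputable def D1619 : OP := win (nat_lit 4) (nat_lit 8) (nat_lit 8) (nat_lit 1)
noncomputable def D8745 : OP := orK (nat_lit 151) (fin (add (start D162) D1992))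
noncomputable def D5 : OP := orK (nat_lit 171) (fin (add (start D2) D3))
noncomputable def D472 : OP := orK (nat_lit 249) (fin (add (start D1) (orK (nat_lit 250) (fin (add (start D0) D5)))))
noncomputable def D8460 : OP := orK (nat_lit 150) (fin (add (add (start D520) D641) D543))
noncomputable def D9630 : AP := fin (add (add (add (add (add (add (add (add (start D8460) (orK (nat_lit 169) (fin (add (add (add (start D1981) (orK (nat_lit 230) (fin (add (add (start (orK (nat_lit 249) (fin (add (start D1) (orK (nat_lit 250) (fin (add (start D0) D21))))))) (orK (nat_lit 171) (fin (add (start D2) D2096)))) D472)))) (orK (nat_lit 230) (fin (add (start D20) D472)))) (orK (nat_lit 168) (fin (add (add (add (start D9488) (orK (nat_lit 191) (fin (add (add (start D9237) D8222) (orK (nat_lit 171) (fin (add (start D8745) (orK (nat_lit 148) (fin (add (start D493) (orK (nat_lit 172) (fin (add (start D7640) (orK (nat_lit 188) (fin (add (start D1619) D679)))))))))))))))) D9499) D8224))))))) (orK (nat_lit 169) (fin (add (add (add (start D1981) (orK (nat_lit 168) (fin (add (add (add (start D9488) (orK (nat_lit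 191) (fin (add (add (start D9237) D8222) (orK (nat_lit 230) (fin (add (add (start D653) (orK (nat_lit 229) (fin (add (start D30) (orK (nat_lit 209) (fin (add (start D207) (orK (nat_lit 208) (fin (add (start D168) (orK (nat_lit 148) (fin (add (start (win (nat_lit 6) (nat_lit 8) (nat_lit 7) (nat_lit 2))) D681))))))))))))) (orK (nat_lit 249) (fin (add (start D1) (orK (nat_lit 250) (fin (add (start D0) D10))))))))))))) D9499) D8224)))) D7575) (orK (nat_lit 149) (fin (add (add (start D1919) D9546) D7573))))))) (orK (nat_lit 171) (fin (add (add (start (orK (nat_lit 230) (fin (add (add (start D1978) D2098) D476)))) D1906) (orK (nat_lit 151) (fin (add (add (start D1951) (orK (nat_lit 172) (fin (add (add (start (orK (nat_lit 173) (fin (add (start D496) (orK (nat_lit 150) (fin (add (start D4449) D8426))))))) (orK (nat_lit 169) (fin (add (add (start D7637) D7809) D9566)))) D2236)))) D1904))))))) (orK (nat_lit 150) (fin (add (add (add (start D520) (orK (nat_lit 151) (fin (add (start D32) (orK (nat_lit 171) (fin (add (start D1883) (orK (nat_lit 169) (fin (add (add (start D8510) (orK (nat_lit 130) (fin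 (add (add (start (orK (nat_lit 110) (fin (add (start D3365) D9575)))) (orK (nat_lit 129) (fin (add (start D459) (orK (nat_lit 172) (fin (add (add (start D8523) D9566) D8538))))))) D9584)))) (orK (nat_lit 168) (fin (add (start D608) (orK (nat_lit 192) (fin (add (start D58) (orK (nat_lit 172) (fin (add (start D57) D8523))))))))))))))))))) (orK (nat_lit 209) (fin (add (start D448) (orK (nat_lit 130) (fin (add (start D210) (orK (nat_lit 109) (fin (add (start D523) (orK (nat_lit 110) (fin (add (start D522) (orK (nat_lit 91) (fin (add (start D8394) (orK (nat_lit 90) (fin (add (start D8395) (orK (nat_lit 171) (fin (add (start (win (nat_lit 6) (nat_lit 10) (nat_lit 4) (nat_lit 4))) D9582)))))))))))))))))))))) D8656)))) D8686) D567) (orK (nat_lit 171) (fin (add (add (add (start D1953) (orK (nat_lit 169) (fin (add (start D7575) D2096)))) D1906) (orK (nat_lit 151) (fin (add (add (start D1951) (orK (nat_lit 169) (fin (add (start (orK (nat_lit 172) (fin (add (add (start D709) (orK (nat_lit 149) (fin (add (start D1893) (orK (nat_lit 150) (fin (add (start D8423) D40))))))) D2011)))) D1994)))) D1904)))))))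 D643)
noncomputable def D9239 : OP := orK (nat_lit 168) D9238
noncomputable def D9395 : OP := orK (nat_lit 147) (fin (add (start (win (nat_lit 5) (nat_lit 6) (nat_lit 6) (nat_lit 5))) (win (nat_lit 5) (nat_lit 7) (nat_lit 6) (nat_lit 4))))
noncomputable def D9390 : OP := win (nat_lit 2) (nat_lit 6) (nat_lit 5) (nat_lit 5)
noncomputable def D9389 : OP := win (nat_lit 2) (nat_lit 7) (nat_lit 5) (nat_lit 4)
noncomputable def D9359 : OP := win (nat_lit 4) (nat_lit 9) (nat_lit 5) (nat_lit 5)
noncomputable def D9361 : OP := orK (nat_lit 112) (fin (add (start (win (nat_lit 4) (nat_lit 8) (nat_lit 5) (nat_lit 4))) D9359))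
noncomputable def D9355 : OP := win (nat_lit 2) (nat_lit 8) (nat_lit 5) (nat_lit 4)
noncomputable def D9354 : OP := win (nat_lit 2) (nat_lit 7) (nat_lit 5) (nat_lit 5)
noncomputable def D9368 : OP := win (nat_lit 2) (nat_lit 8) (nat_lit 5) (nat_lit 5)
noncomputable def D9377 : OP := orK (nat_lit 113) (fin (add (start (win (nat_lit 4) (nat_lit 9) (nat_lit 5) (nat_lit 4))) (win (nat_lit 4) (nat_lit 10) (nat_lit 5) (nat_lit 5))))
noncomputable def D9369 : OP := win (nat_lit 2) (nat_lit 9) (nat_lit 5) (nat_lit 4)
noncomputable def D9365 : OP := win (nat_lit 0) (nat_lit 10) (nat_lit 6) (nat_lit 5)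
noncomputable def D9364 : OP := win (nat_lit 0) (nat_lit 9) (nat_lit 6) (nat_lit 4)
noncomputable def D9371 : OP := orK (nat_lit 109) (fin (add (start D9368) D9369))
noncomputable def D5376 : OP := win (nat_lit 2) (nat_lit 10) (nat_lit 6) (nat_lit 0)
noncomputable def D2059 : OP := win (nat_lit 0) (nat_lit 9) (nat_lit 6) (nat_lit 3)
noncomputable def D2058 : OP := win (nat_lit 0) (nat_lit 8) (nat_lit 6) (nat_lit 0)
noncomputable def D9367 : OP := orK (nat_lit 153) (fin (add (start D9364) D9365))
noncomputable def D1567 : OP := orK (nat_lit 214) (fin (add (start D917) (orK (nat_lit 194) (fin (add (start D918) D1563)))))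
noncomputable def D931 : OP := win (nat_lit 2) (nat_lit 9) (nat_lit 8) (nat_lit 5)
noncomputable def D2307 : OP := win (nat_lit 5) (nat_lit 11) (nat_lit 8) (nat_lit 0)
noncomputable def D4216 : OP := win (nat_lit 4) (nat_lit 10) (nat_lit 8) (nat_lit 3)
noncomputable def D4256 : AP := fin (add (start D1377) (orK (nat_lit 174) (fin (add (start D4216) D2307))))
noncomputable def D8862 : OP := orK (nat_lit 173) D4256
noncomputable def D2504 : OP := win (nat_lit 7) (nat_lit 11) (nat_lit 6) (nat_lit 0)
noncomputable def D9126 : AP := fin (add (start D2504) (orK (nat_lit 111) (fin (add (start (win (nat_lit 6) (nat_lit 11) (nat_lit 4) (nat_lit 0))) (win (nat_lit 7) (nat_lit 11) (nat_lit 5) (nat_lit 3))))))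
noncomputable def D1139 : OP := win (nat_lit 7) (nat_lit 12) (nat_lit 6) (nat_lit 0)
noncomputable def D1404 : OP := win (nat_lit 6) (nat_lit 13) (nat_lit 8) (nat_lit 5)
noncomputable def D1497 : OP := orK (nat_lit 234) (fin (add (start (win (nat_lit 6) (nat_lit 13) (nat_lit 7) (nat_lit 4))) D1404))
noncomputable def D1401 : OP := win (nat_lit 1) (nat_lit 12) (nat_lit 8) (nat_lit 5)
noncomputable def D4420 : OP := win (nat_lit 1) (nat_lit 12) (nat_lit 7) (nat_lit 4)
noncomputable def D4422 : OP := orK (nat_lit 232) (fin (add (start D4420) D1401))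
noncomputable def D7531 : OP := orK (nat_lit 233) (fin (add (start D4422) D1497))
noncomputable def D1492 : OP := win (nat_lit 3) (nat_lit 13) (nat_lit 7) (nat_lit 4)
noncomputable def D1451 : OP := win (nat_lit 3) (nat_lit 13) (nat_lit 6) (nat_lit 5)
noncomputable def D1494 : OP := orK (nat_lit 154) (fin (add (start D1451) D1492))
noncomputable def D4424 : OP := orK (nat_lit 233) (fin (add (start D4422) D1494))
noncomputable def D1101 : OP := win (nat_lit 6) (nat_lit 13) (nat_lit 7) (nat_lit 5)
noncomputable def D1465 : OP := orK (nat_lit 214) (fin (add (start (win (nat_lit 6) (nat_lit 13) (nat_lit 6) (nat_lit 4))) D1101))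
noncomputable def D1472 : OP := win (nat_lit 3) (nat_lit 13) (nat_lit 6) (nat_lit 4)
noncomputable def D1117 : OP := win (nat_lit 3) (nat_lit 13) (nat_lit 5) (nat_lit 5)
noncomputable def D1474 : OP := orK (nat_lit 134) (fin (add (start D1117) D1472))
noncomputable def D1476 : OP := orK (nat_lit 133) (fin (add (start D1474) D1465))
noncomputable def D4660 : OP := orK (nat_lit 129) (fin (add (start D460) (orK (nat_lit 130) (fin (add (start D459) D1604)))))
noncomputable def D9468 : AP := fin (add (add (add (add (start (orK (nat_lit 169) (fin (add (add (start (orK (nat_lit 230) (fin (add (start D20) D653)))) D9239) D9240)))) (orK (nat_lit 150) (fin (add (add (add (add (start D565) (orK (nat_lit 130) (fin (add (add (start D450) D1927) D1604)))) D9250) (orK (nat_lit 129) (fin (add (start D460) (orK (nat_lit 130) (fin (add (start D459) D1927))))))) D4660)))) (orK (nat_lit 151) (fin (add (add (start (orK (nat_lit 171) (fin (add (start D1883) (orK (nat_lit 169) (fin (add (add (start D366) (orK (nat_lit 193) (fin (add (start D9259) (orK (nat_lit 173) (fin (add (add (start (orK (nat_lit 172) (fin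 (add (start D1137) D496)))) (orK (nat_lit 153) (fin (add (add (start D9263) (orK (nat_lit 213) (fin (add (add (start D1476) D4424) D7531)))) (orK (nat_lit 152) (fin (add (start D7587) (orK (nat_lit 132) (fin (add (start D1139) (orK (nat_lit 112) (fin (add (start D9266) (win (nat_lit 7) (nat_lit 12) (nat_lit 5) (nat_lit 3))))))))))))))) (orK (nat_lit 172) (fin (add (start D496) D1082)))))))))) (orK (nat_lit 168) (fin (add (start D363) D1992)))))))))) (orK (nat_lit 171) (fin (add (start D162) D1883)))) (orK (nat_lit 131) (fin (add (start D1902) (orK (nat_lit 192) (fin (add (add (add (start (orK (nat_lit 169) (fin (add (start D1959) (orK (nat_lit 168) (fin (add (start D363) D656))))))) (orK (nat_lit 172) (fin (add (start (orK (nat_lit 152) D9126)) D8862)))) (orK (nat_lit 193) (fin (add (start D931) D1567)))) (orK (nat_lit 189) (fin (add (start (orK (nat_lit 212) (fin (add (start D77) (orK (nat_lit 172) (fin (add (start D221) D2497))))))) (orK (nat_lit 188) (fin (add (add (add (start D1696) (orK (nat_lit 169) (fin (add (start D306) D9307)))) (orK (nat_lit 207) (fin (add (start D135) (orK (nat_lit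 187) (fin (add (start D134) (orK (nat_lit 166) (fin (add (start D2167) (orK (nat_lit 186) (fin (add (start D2166) D2172))))))))))))) D141)))))))))))))))) (orK (nat_lit 169) (fin (add (start D9239) D7575)))) (orK (nat_lit 169) (fin (add (add (add (start (orK (nat_lit 193) (fin (add (start D9259) (orK (nat_lit 129) (fin (add (add (start (orK (nat_lit 149) D1879)) (orK (nat_lit 131) (fin (add (add (start (orK (nat_lit 151) (fin (add (start D4558) D1902)))) (orK (nat_lit 130) (fin (add (add (add (start (orK (nat_lit 150) (fin (add (start D348) D459)))) (orK (nat_lit 111) (fin (add (start (win (nat_lit 3) (nat_lit 10) (nat_lit 5) (nat_lit 2))) (orK (nat_lit 112) (fin (add (start (win (nat_lit 4) (nat_lit 8) (nat_lit 5) (nat_lit 0))) (orK (nat_lit 113) (fin (add (start (win (nat_lit 4) (nat_lit 9) (nat_lit 5) (nat_lit 3))) (win (nat_lit 5) (nat_lit 9) (nat_lit 5) (nat_lit 3)))))))))))) (orK (nat_lit 109) (fin (add (start (win (nat_lit 7) (nat_lit 9) (nat_lit 5) (nat_lit 2))) (orK (nat_lit 108) (fin (add (start (win (nat_lit 2) (nat_lit 8) (nat_lit 5) (nat_lit 0))) (orK (nat_lit 107) (fin (add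 (start (win (nat_lit 0) (nat_lit 6) (nat_lit 5) (nat_lit 0))) (win (nat_lit 0) (nat_lit 7) (nat_lit 5) (nat_lit 3)))))))))))) (orK (nat_lit 132) (fin (add (add (start (orK (nat_lit 128) (fin (add (start (orK (nat_lit 108) (fin (add (start D9354) D9355)))) D9361)))) (orK (nat_lit 133) (fin (add (start D9367) D9371)))) (orK (nat_lit 133) (fin (add (start D9367) D9377)))))))))) (orK (nat_lit 151) (fin (add (start D4558) (orK (nat_lit 130) (fin (add (add (add (start (orK (nat_lit 152) (fin (add (start D2058) (orK (nat_lit 153) (fin (add (start D2059) D5376))))))) (orK (nat_lit 128) (fin (add (start (win (nat_lit 0) (nat_lit 8) (nat_lit 6) (nat_lit 5))) (orK (nat_lit 107) (fin (add (start D9389) (orK (nat_lit 127) (fin (add (start D9390) (orK (nat_lit 110) (fin (add (start (win (nat_lit 4) (nat_lit 7) (nat_lit 5) (nat_lit 5))) D9395))))))))))))) (orK (nat_lit 132) (fin (add (add (add (start (orK (nat_lit 153) (fin (add (start D9364) (orK (nat_lit 133) (fin (add (start D9365) D9371))))))) (orK (nat_lit 153) (fin (add (start D9364) (orK (nat_lit 133) (fin (add (start D9365) D9377))))))) (orK (nat_lit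 109) (fin (add (start D9368) (orK (nat_lit 133) (fin (add (start D9369) D9377))))))) (orK (nat_lit 152) (fin (add (start (win (nat_lit 0) (nat_lit 9) (nat_lit 6) (nat_lit 5))) (orK (nat_lit 112) (fin (add (start D9359) (orK (nat_lit 92) (fin (add (start (win (nat_lit 1) (nat_lit 11) (nat_lit 3) (nat_lit 0))) (orK (nat_lit 91) (fin (add (start (win (nat_lit 7) (nat_lit 11) (nat_lit 3) (nat_lit 5))) (orK (nat_lit 111) (fin (add (start (win (nat_lit 6) (nat_lit 11) (nat_lit 4) (nat_lit 5))) (orK (nat_lit 109) (fin (add (start D9368) (orK (nat_lit 93) (fin (add (start (win (nat_lit 3) (nat_lit 12) (nat_lit 3) (nat_lit 5))) (win (nat_lit 4) (nat_lit 9) (nat_lit 4) (nat_lit 1))))))))))))))))))))))))))) (orK (nat_lit 128) (fin (add (add (start (orK (nat_lit 108) (fin (add (start D9354) (orK (nat_lit 132) (fin (add (start D9355) D9361))))))) (orK (nat_lit 111) (fin (add (start (win (nat_lit 4) (nat_lit 8) (nat_lit 5) (nat_lit 5))) (orK (nat_lit 127) (fin (add (start (win (nat_lit 4) (nat_lit 7) (nat_lit 5) (nat_lit 4))) D9395))))))) (orK (nat_lit 107) (fin (add (start D9389) (orK (nat_lit 127)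 (fin (add (start D9390) D9395))))))))))))))))))) (orK (nat_lit 149) (fin (add (start D1878) D1876)))))))))) D9239) D9240) D9227))))
noncomputable def D352 : OP := orK (nat_lit 131) (fin (add (start D347) (orK (nat_lit 130) (fin (add (start D348) D211)))))
noncomputable def D356 : OP := orK (nat_lit 149) (fin (add (start D41) (orK (nat_lit 150) (fin (add (start D40) D352)))))
noncomputable def D3672 : OP := orK (nat_lit 149) (fin (add (start D41) D3670))
noncomputable def D7610 : OP := orK (nat_lit 173) (fin (add (start D495) D2224))
noncomputable def D7612 : OP := orK (nat_lit 153) (fin (add (start D494) D7610))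
noncomputable def D8704 : OP := orK (nat_lit 171) (fin (add (start D2) (orK (nat_lit 169) (fin (add (start D20) (orK (nat_lit 188) (fin (add (add (start (orK (nat_lit 187) (fin (add (start (win (nat_lit 4) (nat_lit 7) (nat_lit 8) (nat_lit 2))) (win (nat_lit 5) (nat_lit 7) (nat_lit 8) (nat_lit 3)))))) (orK (nat_lit 172) (fin (add (start D2088) D7612)))) (orK (nat_lit 168) (fin (add (start D679) (orK (nat_lit 167) (fin (add (start D7219) D63))))))))))))))
noncomputable def D1608 : OP := orK (nat_lit 150) (fin (add (add (add (start D35) (orK (nat_lit 171) (fin (add (start D2) D371)))) D1606) D352))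
noncomputable def D202 : OP := win (nat_lit 3) (nat_lit 10) (nat_lit 7) (nat_lit 3)
noncomputable def D203 : AP := fin (add (start D162) D202)
noncomputable def D204 : OP := orK (nat_lit 151) D203
noncomputable def D206 : OP := orK (nat_lit 171) (fin (add (start D161) D204))
noncomputable def D180 : OP := win (nat_lit 2) (nat_lit 8) (nat_lit 11) (nat_lit 0)
noncomputable def D182 : OP := orK (nat_lit 228) (fin (add (start (win (nat_lit 0) (nat_lit 7) (nat_lit 11) (nat_lit 0))) D180))
noncomputable def D178 : OP := win (nat_lit 1) (nat_lit 9) (nat_lit 8) (nat_lit 0)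
noncomputable def D127 : OP := win (nat_lit 6) (nat_lit 10) (nat_lit 9) (nat_lit 5)
noncomputable def D2849 : OP := orK (nat_lit 249) (fin (add (start D0) (orK (nat_lit 251) (fin (add (start D127) (orK (nat_lit 229) (fin (add (start D178) D182))))))))
noncomputable def D344 : OP := orK (nat_lit 269) (fin (add (start D115) (orK (nat_lit 270) (fin (add (start D116) D11)))))
noncomputable def D4647 : OP := orK (nat_lit 250) (fin (add (add (start D344) D2849) D17))
noncomputable def D163 : OP := win (nat_lit 1) (nat_lit 10) (nat_lit 7) (nat_lit 3)
noncomputable def D164 : AP := fin (add (start D162) D163)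
noncomputable def D165 : OP := orK (nat_lit 151) D164
noncomputable def D167 : OP := orK (nat_lit 171) (fin (add (start D161) D165))
noncomputable def D1097 : OP := win (nat_lit 7) (nat_lit 12) (nat_lit 7) (nat_lit 0)
noncomputable def D4634 : OP := orK (nat_lit 152) (fin (add (start D4632) D1097))
noncomputable def D4642 : OP := orK (nat_lit 193) (fin (add (add (start D1203) (orK (nat_lit 173) (fin (add (start D1205) (orK (nat_lit 172) (fin (add (start D1377) (orK (nat_lit 213) (fin (add (start D924) D4634)))))))))) D1217))
noncomputable def D1091 : OP := win (nat_lit 1) (nat_lit 11) (nat_lit 6) (nat_lit 5)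
noncomputable def D2394 : OP := orK (nat_lit 132) (fin (add (start D1091) D1798))
noncomputable def D2432 : OP := win (nat_lit 5) (nat_lit 8) (nat_lit 7) (nat_lit 5)
noncomputable def D9053 : AP := fin (add (start D306) D3472)
noncomputable def D9054 : OP := orK (nat_lit 189) D9053
noncomputable def D2338 : OP := orK (nat_lit 132) (fin (add (start D1091) D1794))
noncomputable def D2362 : OP := win (nat_lit 6) (nat_lit 12) (nat_lit 7) (nat_lit 0)
noncomputable def D2389 : OP := orK (nat_lit 233) (fin (add (start D2362) (orK (nat_lit 253) (fin (add (start (win (nat_lit 6) (nat_lit 12) (nat_lit 8) (nat_lit 3))) (win (nat_lit 7) (nat_lit 12) (nat_lit 9) (nat_lit 0)))))))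
noncomputable def D2391 : OP := orK (nat_lit 213) (fin (add (start D1335) D2389))
noncomputable def D721 : OP := orK (nat_lit 113) (fin (add (start (win (nat_lit 3) (nat_lit 12) (nat_lit 5) (nat_lit 4))) (orK (nat_lit 112) (fin (add (start (win (nat_lit 3) (nat_lit 12) (nat_lit 4) (nat_lit 5))) (orK (nat_lit 111) (fin (add (start (win (nat_lit 7) (nat_lit 11) (nat_lit 4) (nat_lit 5))) (win (nat_lit 7) (nat_lit 11) (nat_lit 5) (nat_lit 4))))))))))
noncomputable def D9102 : AP := fin (add (start (win (nat_lit 1) (nat_lit 12) (nat_lit 4) (nat_lit 0))) (win (nat_lit 1) (nat_lit 12) (nat_lit 5) (nat_lit 3)))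
noncomputable def D4234 : OP := win (nat_lit 3) (nat_lit 12) (nat_lit 6) (nat_lit 0)
noncomputable def D4565 : OP := win (nat_lit 4) (nat_lit 9) (nat_lit 6) (nat_lit 0)
noncomputable def D9141 : AP := fin (add (start D4565) (win (nat_lit 5) (nat_lit 10) (nat_lit 6) (nat_lit 3)))
noncomputable def D1120 : OP := win (nat_lit 5) (nat_lit 12) (nat_lit 6) (nat_lit 0)
noncomputable def D9136 : AP := fin (add (start (win (nat_lit 4) (nat_lit 11) (nat_lit 6) (nat_lit 3))) D1120)
noncomputable def D2408 : OP := win (nat_lit 1) (nat_lit 11) (nat_lit 6) (nat_lit 0)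
noncomputable def D2315 : OP := orK (nat_lit 212) (fin (add (start D77) (orK (nat_lit 188) (fin (add (start D76) D1696)))))
noncomputable def D2317 : OP := orK (nat_lit 189) (fin (add (start D221) D2315))
noncomputable def D9209 : AP := fin (add (add (add (start D2317) (orK (nat_lit 152) (fin (add (add (add (add (start (orK (nat_lit 132) (fin (add (start D1091) (orK (nat_lit 131) (fin (add (start D1795) (orK (nat_lit 151) (fin (add (start D2504) (orK (nat_lit 150) (fin (add (start D5115) (orK (nat_lit 149) (fin (add (start D617) D5116)))))))))))))))) (orK (nat_lit 212) (fin (add (add (start (orK (nat_lit 213) (fin (add (start D2371) (orK (nat_lit 211) (fin (add (start D2408) D1427))))))) D9086) D2338)))) (orK (nat_lit 212) (fin (add (start D2373) (orK (nat_lit 153) (fin (add (start D1176) (orK (nat_lit 173) (fin (add (start D2355) (orK (nat_lit 174) (fin (add (start D2307) (orK (nat_lit 151) (fin (add (start (win (nat_lit 0) (nat_lit 10) (nat_lit 7) (nat_lit 0))) D1787)))))))))))))))) (orK (nat_lit 133) (fin (add (add (add (start (orK (nat_lit 113) (fin (add (start (win (nat_lit 3) (nat_lit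 12) (nat_lit 5) (nat_lit 3))) (orK (nat_lit 153) D9102))))) (orK (nat_lit 132) (fin (add (start D1115) (orK (nat_lit 131) (fin (add (start D1795) (orK (nat_lit 151) (fin (add (start D2504) (orK (nat_lit 150) (fin (add (start D5115) D4565))))))))))))) (orK (nat_lit 151) (fin (add (add (add (start (orK (nat_lit 212) (fin (add (start D1792) D1787)))) (orK (nat_lit 153) (fin (add (start D4234) (orK (nat_lit 150) (fin (add (start D2753) (orK (nat_lit 149) (fin (add (start D617) D2752)))))))))) (orK (nat_lit 131) D9126)) (orK (nat_lit 134) (fin (add (add (add (start (orK (nat_lit 153) (fin (add (start (win (nat_lit 4) (nat_lit 10) (nat_lit 6) (nat_lit 0))) (orK (nat_lit 135) D9136))))) (orK (nat_lit 150) (fin (add (start (win (nat_lit 4) (nat_lit 10) (nat_lit 6) (nat_lit 3))) (orK (nat_lit 132) D9141))))) (orK (nat_lit 135) (fin (add (start (win (nat_lit 5) (nat_lit 11) (nat_lit 6) (nat_lit 3))) (orK (nat_lit 153) D9136))))) (orK (nat_lit 132) (fin (add (start (win (nat_lit 5) (nat_lit 11) (nat_lit 6) (nat_lit 0))) (orK (nat_lit 150) D9141))))))))))) (orK (nat_lit 153) (fin (add (start D4234)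 (orK (nat_lit 113) D9102)))))))) (orK (nat_lit 132) (fin (add (start D1091) D721))))))) (orK (nat_lit 189) (fin (add (start D221) (orK (nat_lit 169) D9053))))) (orK (nat_lit 212) (fin (add (add (add (start D1337) (orK (nat_lit 213) (fin (add (start D1332) D2389)))) D2391) (orK (nat_lit 152) (fin (add (add (start D2338) (orK (nat_lit 151) (fin (add (start D1787) (orK (nat_lit 153) (fin (add (start D1176) (orK (nat_lit 169) (fin (add (add (add (add (start (orK (nat_lit 168) (fin (add (start D656) (orK (nat_lit 170) (fin (add (start D363) D7587))))))) D9054) (orK (nat_lit 150) (fin (add (start D9174) (orK (nat_lit 129) (fin (add (start D5322) (orK (nat_lit 149) (fin (add (start D4513) D1878)))))))))) (orK (nat_lit 149) (fin (add (add (add (start (orK (nat_lit 189) (fin (add (start D306) D284)))) (orK (nat_lit 168) (fin (add (start D656) D9183)))) (orK (nat_lit 129) (fin (add (start D1878) (orK (nat_lit 150) D5516))))) (orK (nat_lit 150) (fin (add (start D2432) D5517))))))) (orK (nat_lit 150) (fin (add (start D9174) (orK (nat_lit 129) (fin (add (start D5322) (orK (nat_lit 149) (fin (add (start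 D4513) D2432))))))))))))))))))) D2394)))))))
noncomputable def D1403 : OP := win (nat_lit 0) (nat_lit 10) (nat_lit 10) (nat_lit 1)
noncomputable def D1402 : OP := win (nat_lit 1) (nat_lit 12) (nat_lit 7) (nat_lit 0)
noncomputable def D1398 : OP := win (nat_lit 7) (nat_lit 12) (nat_lit 8) (nat_lit 0)
noncomputable def D1397 : OP := win (nat_lit 7) (nat_lit 12) (nat_lit 7) (nat_lit 5)
noncomputable def D1416 : OP := orK (nat_lit 173) (fin (add (start D1205) (orK (nat_lit 213) (fin (add (start D924) (orK (nat_lit 233) (fin (add (start (orK (nat_lit 172) (fin (add (start D1397) D1398)))) (orK (nat_lit 232) (fin (add (start D1401) (orK (nat_lit 212) (fin (add (start D1402) (orK (nat_lit 234) (fin (add (start D1403) D1404)))))))))))))))))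
noncomputable def D1568 : AP := fin (add (add (add (start D1203) D1217) D1416) D1567)
noncomputable def D8967 : OP := orK (nat_lit 193) D1568
noncomputable def D3292 : OP := win (nat_lit 5) (nat_lit 10) (nat_lit 9) (nat_lit 0)
noncomputable def D4959 : OP := orK (nat_lit 211) (fin (add (start D3292) D1020))
noncomputable def D4963 : OP := orK (nat_lit 173) (fin (add (start D1204) (orK (nat_lit 193) (fin (add (start D1205) D4959)))))
noncomputable def D3229 : AP := fin (add (start D306) D3228)
noncomputable def D1816 : OP := orK (nat_lit 213) (fin (add (start D924) (orK (nat_lit 189) (fin (add (start D923) D928)))))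
noncomputable def D9009 : OP := win (nat_lit 0) (nat_lit 12) (nat_lit 9) (nat_lit 5)
noncomputable def D9008 : OP := win (nat_lit 0) (nat_lit 11) (nat_lit 9) (nat_lit 4)
noncomputable def D8952 : AP := fin (add (start (win (nat_lit 2) (nat_lit 11) (nat_lit 8) (nat_lit 4))) (orK (nat_lit 175) (fin (add (start (win (nat_lit 4) (nat_lit 11) (nat_lit 8) (nat_lit 4))) (win (nat_lit 4) (nat_lit 12) (nat_lit 8) (nat_lit 5))))))
noncomputable def D6033 : AP := fin (add (start D72) D131)
noncomputable def D8913 : OP := orK (nat_lit 187) (fin (add (start D979) D137))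
noncomputable def D3589 : OP := orK (nat_lit 193) (fin (add (start D1205) D1203))
noncomputable def D4257 : OP := orK (nat_lit 172) D4256
noncomputable def D2308 : AP := fin (add (start (win (nat_lit 5) (nat_lit 10) (nat_lit 8) (nat_lit 3))) D2307)
noncomputable def D2309 : OP := orK (nat_lit 174) D2308
noncomputable def D2310 : AP := fin (add (start D1377) D2309)
noncomputable def D1450 : OP := win (nat_lit 7) (nat_lit 12) (nat_lit 6) (nat_lit 5)
noncomputable def D5655 : OP := orK (nat_lit 152) (fin (add (start D1450) (win (nat_lit 7) (nat_lit 12) (nat_lit 7) (nat_lit 4))))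
noncomputable def D1469 : OP := orK (nat_lit 132) (fin (add (start (win (nat_lit 7) (nat_lit 12) (nat_lit 5) (nat_lit 5))) (win (nat_lit 7) (nat_lit 12) (nat_lit 6) (nat_lit 4))))
noncomputable def D1100 : OP := win (nat_lit 1) (nat_lit 12) (nat_lit 7) (nat_lit 5)
noncomputable def D2853 : AP := fin (add (start (win (nat_lit 1) (nat_lit 12) (nat_lit 6) (nat_lit 0))) D1100)
noncomputable def D8851 : OP := orK (nat_lit 214) (fin (add (start (win (nat_lit 0) (nat_lit 10) (nat_lit 9) (nat_lit 3))) D1333))
noncomputable def D8959 : AP := fin (add (start D1332) D8851)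
noncomputable def D2854 : OP := orK (nat_lit 153) D2853
noncomputable def D4393 : OP := orK (nat_lit 213) (fin (add (start D924) (orK (nat_lit 212) (fin (add (start D1332) D2854)))))
noncomputable def D4394 : AP := fin (add (start D1205) D4393)
noncomputable def D2862 : OP := orK (nat_lit 193) (fin (add (add (start D1203) (orK (nat_lit 213) (fin (add (start D924) (orK (nat_lit 212) (fin (add (start D1332) (orK (nat_lit 173) (fin (add (start D1205) D2854)))))))))) D1217))
noncomputable def D2340 : OP := orK (nat_lit 152) (fin (add (start D1787) D2338))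
noncomputable def D2327 : OP := win (nat_lit 7) (nat_lit 11) (nat_lit 9) (nat_lit 4)
noncomputable def D2328 : AP := fin (add (start D1354) D2327)
noncomputable def D2330 : AP := fin (add (start D1353) (orK (nat_lit 272) D2328))
noncomputable def D2331 : OP := orK (nat_lit 271) D2330
noncomputable def D2326 : OP := win (nat_lit 6) (nat_lit 12) (nat_lit 9) (nat_lit 5)
noncomputable def D2325 : OP := win (nat_lit 6) (nat_lit 12) (nat_lit 8) (nat_lit 4)
noncomputable def D2335 : OP := orK (nat_lit 253) (fin (add (start D2325) (orK (nat_lit 252) (fin (add (start D2326) D2331)))))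
noncomputable def D2344 : OP := orK (nat_lit 232) (fin (add (add (start D2324) D2335) (orK (nat_lit 151) (fin (add (start D2336) D2340)))))
noncomputable def D1832 : OP := win (nat_lit 5) (nat_lit 7) (nat_lit 12) (nat_lit 4)
noncomputable def D1831 : OP := win (nat_lit 5) (nat_lit 6) (nat_lit 12) (nat_lit 5)
noncomputable def D1834 : OP := orK (nat_lit 267) (fin (add (start D1831) D1832))
noncomputable def D1851 : OP := win (nat_lit 2) (nat_lit 6) (nat_lit 11) (nat_lit 5)
noncomputable def D1850 : OP := win (nat_lit 2) (nat_lit 7) (nat_lit 11) (nat_lit 4)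
noncomputable def D1840 : OP := win (nat_lit 2) (nat_lit 5) (nat_lit 11) (nat_lit 5)
noncomputable def D1839 : OP := win (nat_lit 2) (nat_lit 6) (nat_lit 11) (nat_lit 4)
noncomputable def D960 : OP := win (nat_lit 2) (nat_lit 8) (nat_lit 11) (nat_lit 5)
noncomputable def D974 : OP := win (nat_lit 2) (nat_lit 8) (nat_lit 11) (nat_lit 4)
noncomputable def D975 : OP := win (nat_lit 2) (nat_lit 7) (nat_lit 11) (nat_lit 5)
noncomputable def D1857 : OP := orK (nat_lit 248) (fin (add (add (add (start (orK (nat_lit 228) (fin (add (start D975) D974)))) (orK (nat_lit 229) (fin (add (start D960) (orK (nat_lit 247) (fin (add (start (win (nat_lit 4) (nat_lit 6) (nat_lit 11) (nat_lit 0))) D1834))))))) (orK (nat_lit 267) (fin (add (start D1832) (orK (nat_lit 247) (fin (add (start D1831) (orK (nat_lit 226) (fin (add (start D1839) (orK (nat_lit 246) (fin (add (start D1840) (win (nat_lit 4) (nat_lit 6) (nat_lit 11) (nat_lit 4))))))))))))))) (orK (nat_lit 227) (fin (add (start D1850) (orK (nat_lit 247) (fin (add (start D1851) D1834))))))))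
noncomputable def D967 : OP := win (nat_lit 4) (nat_lit 10) (nat_lit 11) (nat_lit 5)
noncomputable def D966 : OP := win (nat_lit 4) (nat_lit 9) (nat_lit 11) (nat_lit 4)
noncomputable def D969 : OP := orK (nat_lit 233) (fin (add (start D966) D967))
noncomputable def D965 : OP := win (nat_lit 0) (nat_lit 10) (nat_lit 12) (nat_lit 5)
noncomputable def D964 : OP := win (nat_lit 0) (nat_lit 9) (nat_lit 12) (nat_lit 4)
noncomputable def D973 : OP := orK (nat_lit 273) (fin (add (start D964) (orK (nat_lit 253) (fin (add (start D965) D969)))))
noncomputable def D3788 : OP := orK (nat_lit 249) (fin (add (start D0) (orK (nat_lit 251) (fin (add (start D127) (orK (nat_lit 252) (fin (add (start D973) D1857))))))))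
noncomputable def D3815 : AP := fin (add (start D73) (orK (nat_lit 208) (fin (add (start D86) D2581))))
noncomputable def D4619 : OP := orK (nat_lit 187) (fin (add (start D979) D1008))
noncomputable def D1066 : OP := orK (nat_lit 187) (fin (add (start D1043) D137))
noncomputable def D3602 : OP := win (nat_lit 4) (nat_lit 7) (nat_lit 10) (nat_lit 3)
noncomputable def D5627 : AP := fin (add (start D89) (orK (nat_lit 229) (fin (add (start D3602) D3008))))
noncomputable def D5628 : OP := orK (nat_lit 227) D5627
noncomputable def D6335 : OP := orK (nat_lit 169) (fin (add (start D2261) D88))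
noncomputable def D3230 : OP := orK (nat_lit 192) D3229
noncomputable def D303 : OP := orK (nat_lit 149) (fin (add (start D284) D301))
noncomputable def D3796 : OP := orK (nat_lit 169) (fin (add (start D303) D3230))
noncomputable def D3591 : OP := orK (nat_lit 173) (fin (add (start D1204) D3589))
noncomputable def D4965 : OP := orK (nat_lit 192) (fin (add (add (add (start D3228) (orK (nat_lit 212) (fin (add (start D77) (orK (nat_lit 188) (fin (add (start D76) D141))))))) D3591) D4963))
noncomputable def D305 : OP := orK (nat_lit 169) (fin (add (start D283) D303))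
noncomputable def D346 : OP := orK (nat_lit 250) (fin (add (start D10) D344))
noncomputable def D4415 : OP := win (nat_lit 2) (nat_lit 9) (nat_lit 9) (nat_lit 5)
noncomputable def D4416 : AP := fin (add (start D4415) D1427)
noncomputable def D4525 : AP := fin (add (start D162) (orK (nat_lit 211) (fin (add (start (orK (nat_lit 212) (fin (add (start D4505) (orK (nat_lit 213) D4416))))) (orK (nat_lit 150) (fin (add (start D4509) (orK (nat_lit 152) (fin (add (start D4510) (orK (nat_lit 149) (fin (add (start D4512) (orK (nat_lit 129) (fin (add (start D4513) D4514))))))))))))))))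
noncomputable def D4198 : AP := fin (add (start D202) D161)
noncomputable def D4199 : OP := orK (nat_lit 230) D4198
noncomputable def D4200 : AP := fin (add (start D162) D4199)
noncomputable def D4201 : OP := orK (nat_lit 151) D4200
noncomputable def D4194 : AP := fin (add (start D163) D161)
noncomputable def D4196 : AP := fin (add (start D162) (orK (nat_lit 230) D4194))
noncomputable def D4197 : OP := orK (nat_lit 151) D4196
noncomputable def D1070 : OP := win (nat_lit 5) (nat_lit 9) (nat_lit 8) (nat_lit 3)
noncomputable def D4494 : OP := orK (nat_lit 189) (fin (add (start D425) D1070))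
noncomputable def D4473 : OP := win (nat_lit 3) (nat_lit 13) (nat_lit 4) (nat_lit 5)
noncomputable def D4476 : OP := orK (nat_lit 114) (fin (add (start D4473) (win (nat_lit 3) (nat_lit 13) (nat_lit 5) (nat_lit 4))))
noncomputable def D4490 : OP := orK (nat_lit 193) (fin (add (start D1137) (orK (nat_lit 153) (fin (add (start D495) (orK (nat_lit 133) (fin (add (add (start (orK (nat_lit 213) (fin (add (start (orK (nat_lit 212) (fin (add (start (win (nat_lit 1) (nat_lit 12) (nat_lit 6) (nat_lit 4))) D1100)))) D1469)))) (orK (nat_lit 113) (fin (add (start (win (nat_lit 1) (nat_lit 12) (nat_lit 5) (nat_lit 5))) D4476)))) (orK (nat_lit 113) (fin (add (start D4476) (orK (nat_lit 112) (fin (add (start (win (nat_lit 7) (nat_lit 12) (nat_lit 4) (nat_lit 5))) (win (nat_lit 7) (nat_lit 12) (nat_lit 5) (nat_lit 4))))))))))))))))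
noncomputable def D4492 : OP := orK (nat_lit 170) (fin (add (start (orK (nat_lit 150) (fin (add (start D4449) D371)))) D4490))
noncomputable def D1069 : OP := win (nat_lit 4) (nat_lit 9) (nat_lit 8) (nat_lit 3)
noncomputable def D4385 : OP := orK (nat_lit 189) (fin (add (start D425) D1069))
noncomputable def D4428 : OP := orK (nat_lit 211) (fin (add (start D4415) D788))
noncomputable def D4419 : OP := orK (nat_lit 212) (fin (add (start D1100) (orK (nat_lit 211) D4416)))
noncomputable def D1431 : OP := win (nat_lit 3) (nat_lit 12) (nat_lit 9) (nat_lit 0)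
noncomputable def D1435 : OP := orK (nat_lit 232) (fin (add (start D1402) (orK (nat_lit 252) (fin (add (start (win (nat_lit 1) (nat_lit 12) (nat_lit 8) (nat_lit 3))) D1431)))))
noncomputable def D1499 : OP := orK (nat_lit 233) (fin (add (start D1494) D1497))
noncomputable def D1528 : OP := orK (nat_lit 235) (fin (add (start (win (nat_lit 2) (nat_lit 12) (nat_lit 10) (nat_lit 0))) (orK (nat_lit 255) (fin (add (start (win (nat_lit 0) (nat_lit 12) (nat_lit 11) (nat_lit 5))) (orK (nat_lit 215) (fin (add (start (win (nat_lit 4) (nat_lit 12) (nat_lit 10) (nat_lit 5))) (orK (nat_lit 194) (fin (add (start (win (nat_lit 6) (nat_lit 14) (nat_lit 8) (nat_lit 2))) (win (nat_lit 7) (nat_lit 14) (nat_lit 8) (nat_lit 3)))))))))))))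
noncomputable def D4406 : OP := orK (nat_lit 232) (fin (add (start D1401) D1528))
noncomputable def D1504 : OP := win (nat_lit 3) (nat_lit 13) (nat_lit 7) (nat_lit 5)
noncomputable def D1443 : OP := orK (nat_lit 254) (fin (add (start (win (nat_lit 6) (nat_lit 13) (nat_lit 8) (nat_lit 4))) (win (nat_lit 6) (nat_lit 13) (nat_lit 9) (nat_lit 5))))
noncomputable def D1505 : OP := win (nat_lit 3) (nat_lit 13) (nat_lit 8) (nat_lit 4)
noncomputable def D1515 : OP := orK (nat_lit 174) (fin (add (start D1504) (orK (nat_lit 253) (fin (add (start D1505) D1443)))))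
noncomputable def D1439 : OP := win (nat_lit 1) (nat_lit 12) (nat_lit 9) (nat_lit 5)
noncomputable def D1438 : OP := win (nat_lit 1) (nat_lit 12) (nat_lit 8) (nat_lit 4)
noncomputable def D1511 : OP := orK (nat_lit 252) (fin (add (start D1438) (orK (nat_lit 253) (fin (add (start D1439) (orK (nat_lit 174) (fin (add (start D1504) D1505))))))))
noncomputable def D1501 : OP := orK (nat_lit 133) (fin (add (start D1474) D1469))
noncomputable def D1471 : OP := orK (nat_lit 133) (fin (add (start D1465) D1469))
noncomputable def D1503 : OP := orK (nat_lit 153) (fin (add (add (start D1499) D1471) D1501))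
noncomputable def D1048 : OP := win (nat_lit 2) (nat_lit 10) (nat_lit 8) (nat_lit 5)
noncomputable def D1050 : OP := orK (nat_lit 194) (fin (add (start D1048) D916))
noncomputable def D4383 : OP := win (nat_lit 3) (nat_lit 10) (nat_lit 8) (nat_lit 1)
noncomputable def D4528 : OP := orK (nat_lit 171) (fin (add (add (add (start (orK (nat_lit 250) (fin (add (start D4383) (orK (nat_lit 173) (fin (add (add (add (add (start (orK (nat_lit 172) (fin (add (start D1082) D4385)))) (orK (nat_lit 193) (fin (add (add (add (start (orK (nat_lit 192) (fin (add (start D1205) D1050)))) (orK (nat_lit 192) D4394)) (orK (nat_lit 192) (fin (add (start D1050) D4393)))) (orK (nat_lit 213) (fin (add (add (add (add (start D1503) (orK (nat_lit 233) (fin (add (add (add (start D1511) (orK (nat_lit 252) (fin (add (start D1438) (orK (nat_lit 253) (fin (add (start D1439) (orK (nat_lit 234) (fin (add (start (win (nat_lit 4) (nat_lit 10) (nat_lit 11) (nat_lit 1))) D1404)))))))))) D1515) (orK (nat_lit 174) (fin (add (start D1504) (orK (nat_lit 234) (fin (add (start D1404) (orK (nat_lit 212) (fin (add (start D1403) D4406)))))))))))))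 (orK (nat_lit 153) (fin (add (add (start D4419) D4424) D1499)))) (orK (nat_lit 212) (fin (add (start D4428) D1435)))) (orK (nat_lit 153) (fin (add (add (start D4419) D1476) (orK (nat_lit 212) (fin (add (start D1100) D4428))))))))))))) (orK (nat_lit 172) (fin (add (add (start D4385) D4492) D4494)))) (orK (nat_lit 172) (fin (add (start D1082) D4492)))) (orK (nat_lit 172) (fin (add (start D1082) D4494)))))))))) D4197) D4201) (orK (nat_lit 151) D4525)))
noncomputable def D368 : OP := orK (nat_lit 169) (fin (add (start D20) D366))
noncomputable def D1822 : OP := orK (nat_lit 193) (fin (add (add (start D1816) (orK (nat_lit 170) (fin (add (start D931) D1818)))) D1211))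
noncomputable def D4560 : OP := orK (nat_lit 131) (fin (add (start D4558) D2497))
noncomputable def D8828 : OP := orK (nat_lit 193) (fin (add (start (win (nat_lit 3) (nat_lit 12) (nat_lit 8) (nat_lit 5))) (orK (nat_lit 213) (fin (add (start D924) D1431)))))
noncomputable def D786 : OP := win (nat_lit 0) (nat_lit 10) (nat_lit 10) (nat_lit 5)
noncomputable def D2363 : AP := fin (add (start D786) D1427)
noncomputable def D2311 : OP := orK (nat_lit 173) D2310
noncomputable def D2428 : OP := orK (nat_lit 172) (fin (add (add (add (start D2311) D2317) (orK (nat_lit 212) (fin (add (add (start D2344) D1337) (orK (nat_lit 189) (fin (add (start D77) (orK (nat_lit 168) (fin (add (start D1222) (orK (nat_lit 188) (fin (add (start D72) D1757))))))))))))) (orK (nat_lit 173) (fin (add (add (start D2309) (orK (nat_lit 212) (fin (add (add (add (start (orK (nat_lit 232) (fin (add (start D1376) D2324)))) D2361) (orK (nat_lit 232) (fin (add (start D2324) (orK (nat_lit 233) (fin (add (start D224) (orK (nat_lit 213) (fin (add (start D2362) (orK (nat_lit 211) D2363))))))))))) (orK (nat_lit 152) (fin (add (start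 D2373) (orK (nat_lit 133) (fin (add (start D1792) (orK (nat_lit 132) (fin (add (start D1115) D1798))))))))))))) (orK (nat_lit 174) (fin (add (start D2307) (orK (nat_lit 212) (fin (add (add (add (start D2361) (orK (nat_lit 232) (fin (add (start D1376) D2335)))) D2391) (orK (nat_lit 133) (fin (add (add (add (start (orK (nat_lit 153) D2358)) (orK (nat_lit 152) (fin (add (start D1792) D2394)))) (orK (nat_lit 153) (fin (add (start D2356) (orK (nat_lit 214) (fin (add (start (orK (nat_lit 213) D1334)) (orK (nat_lit 194) (fin (add (start (win (nat_lit 7) (nat_lit 13) (nat_lit 6) (nat_lit 3))) (win (nat_lit 7) (nat_lit 13) (nat_lit 7) (nat_lit 0)))))))))))) (orK (nat_lit 152) (fin (add (start D2373) (orK (nat_lit 131) (fin (add (start D1796) (orK (nat_lit 132) (fin (add (start D1115) D1795)))))))))))))))))))))))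
noncomputable def D934 : OP := orK (nat_lit 170) (fin (add (start D931) D932))
noncomputable def D1588 : OP := orK (nat_lit 170) (fin (add (start D931) D1586))
noncomputable def D1594 : OP := orK (nat_lit 193) (fin (add (add (start D1588) D1217) (orK (nat_lit 169) (fin (add (start D78) (orK (nat_lit 189) (fin (add (start D306) D1207))))))))
noncomputable def D938 : OP := orK (nat_lit 193) (fin (add (add (start (orK (nat_lit 194) (fin (add (start D916) (orK (nat_lit 214) (fin (add (start D917) D918))))))) (orK (nat_lit 189) (fin (add (start (orK (nat_lit 213) (fin (add (start D923) D924)))) D928)))) (orK (nat_lit 194) (fin (add (start D916) D934)))))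
noncomputable def D9470 : AP := fin (add (add (add (add (add (add (add (start (orK (nat_lit 192) (fin (add (add (add (add (add (add (start D938) D1219) D1594) (orK (nat_lit 193) (fin (add (add (add (start D1203) D1588) (orK (nat_lit 170) (fin (add (start D931) D1416)))) (orK (nat_lit 214) (fin (add (start D917) (orK (nat_lit 194) (fin (add (start D918) D934)))))))))) D2428) (orK (nat_lit 212) (fin (add (add (start (orK (nat_lit 232) (fin (add (add (add (start (orK (nat_lit 171) (fin (add (start D222) (orK (nat_lit 151) (fin (add (start D162) D4537))))))) (orK (nat_lit 252) (fin (add (start D1338) D8828)))) (orK (nat_lit 252) (fin (add (add (start D8828) (orK (nat_lit 272) (fin (add (start (orK (nat_lit 271) (fin (add (start D1353) D1354)))) D1358)))) (orK (nat_lit 172) (fin (add (start (orK (nat_lit 173) (fin (add (start D1376) (win (nat_lit 3) (nat_lit 12) (nat_lit 8) (nat_lit 4)))))) (orK (nat_lit 253) (fin (add (start D2325) D2326)))))))))) (orK (nat_lit 172) (fin (add (start (orK (nat_lit 171) (fin (add (start D2322) (orK (nat_lit 173) (fin (add (start D1376) D1082))))))) (orK (nat_lit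 213) (fin (add (start D8851) (orK (nat_lit 233) (fin (add (start D2362) D224))))))))))))) (orK (nat_lit 172) (fin (add (add (add (start (orK (nat_lit 189) (fin (add (start D221) (orK (nat_lit 188) (fin (add (start D76) D1757))))))) D8862) (orK (nat_lit 232) (fin (add (start D2335) (orK (nat_lit 171) (fin (add (start D2322) (orK (nat_lit 189) (fin (add (start D425) (orK (nat_lit 169) (fin (add (start D306) (orK (nat_lit 170) D8863)))))))))))))) (orK (nat_lit 151) (fin (add (add (start D4560) (orK (nat_lit 232) (fin (add (start D2336) (orK (nat_lit 173) (fin (add (start D1376) (orK (nat_lit 193) (fin (add (start (win (nat_lit 3) (nat_lit 12) (nat_lit 8) (nat_lit 0))) D1205)))))))))) D2340))))))) D1337)))) D1822)))) (orK (nat_lit 230) (fin (add (add (add (start D167) D4647) D206) (orK (nat_lit 170) (fin (add (add (add (start (orK (nat_lit 171) (fin (add (start D2) D368)))) D1608) D3672) D356))))))) D4528) (orK (nat_lit 230) (fin (add (add (add (start D346) (orK (nat_lit 189) (fin (add (start D305) D4965)))) (orK (nat_lit 189) (fin (add (add (add (start D3796) (orK (nat_lit 188) (fin (add (add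 (start D131) D141) (orK (nat_lit 211) (fin (add (start D87) (orK (nat_lit 168) (fin (add (start D72) (orK (nat_lit 208) (fin (add (start D86) (orK (nat_lit 228) (fin (add (start D6335) D5628)))))))))))))))) (orK (nat_lit 188) (fin (add (add (start D131) (orK (nat_lit 171) (fin (add (start D218) D1066)))) D3461)))) (orK (nat_lit 188) (fin (add (add (start D4619) D8913) (orK (nat_lit 168) (fin (add (start D72) (orK (nat_lit 169) D3815))))))))))) (orK (nat_lit 250) (fin (add (start D10) (orK (nat_lit 249) (fin (add (start D0) (orK (nat_lit 170) (fin (add (start D1) D23))))))))))))) (orK (nat_lit 230) (fin (add (add (add (start D167) (orK (nat_lit 250) (fin (add (add (start D344) D17) (orK (nat_lit 169) (fin (add (start D21) D3788))))))) (orK (nat_lit 250) (fin (add (start D10) D126)))) (orK (nat_lit 192) (fin (add (add (add (add (add (add (start (orK (nat_lit 189) (fin (add (add (start D2315) (orK (nat_lit 212) (fin (add (start D77) (orK (nat_lit 172) (fin (add (start D221) D2344))))))) D1763)))) D2862) (orK (nat_lit 171) (fin (add (add (start D165) (orK (nat_lit 193) (fin (add (add (start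 D1203) (orK (nat_lit 213) (fin (add (start D924) (orK (nat_lit 189) (fin (add (start D923) (orK (nat_lit 168) (fin (add (start D1222) (orK (nat_lit 188) (fin (add (start D72) D218))))))))))))) (orK (nat_lit 194) (fin (add (start D916) (orK (nat_lit 195) D8952)))))))) (orK (nat_lit 151) (fin (add (start D162) (orK (nat_lit 212) (fin (add (start D8958) (orK (nat_lit 213) D8959))))))))))) D8967) (orK (nat_lit 173) (fin (add (add (add (start (orK (nat_lit 193) D4394)) (orK (nat_lit 213) (fin (add (add (add (start (orK (nat_lit 189) (fin (add (start D923) D1204)))) (orK (nat_lit 212) D8959)) (orK (nat_lit 193) (fin (add (start D924) (orK (nat_lit 153) (fin (add (add (start (orK (nat_lit 212) D2853)) (orK (nat_lit 134) (fin (add (start D1472) (orK (nat_lit 133) (fin (add (start D1117) D1469))))))) (orK (nat_lit 232) (fin (add (start D4420) (orK (nat_lit 233) (fin (add (start D1401) D5655))))))))))))) (orK (nat_lit 193) (fin (add (start D924) (orK (nat_lit 172) (fin (add (start D1377) D4634)))))))))) (orK (nat_lit 174) (fin (add (start D4216) (orK (nat_lit 172) D2308))))) (orK (nat_lit 172) D2310)))))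 (orK (nat_lit 173) (fin (add (add (start D4257) D3589) (orK (nat_lit 189) (fin (add (start D1204) (orK (nat_lit 168) (fin (add (start D1222) (orK (nat_lit 188) (fin (add (start D72) D8913))))))))))))) (orK (nat_lit 189) (fin (add (add (add (start (orK (nat_lit 168) (fin (add (start D1222) (orK (nat_lit 188) D6033))))) (orK (nat_lit 168) (fin (add (start D1222) (orK (nat_lit 193) (fin (add (add (add (start D1207) D1217) (orK (nat_lit 194) (fin (add (start D916) (orK (nat_lit 215) (fin (add (start D9008) (orK (nat_lit 195) (fin (add (start D9009) (orK (nat_lit 171) D8952))))))))))) (orK (nat_lit 194) (fin (add (start D916) (orK (nat_lit 215) (fin (add (start D9008) (orK (nat_lit 195) (fin (add (start D9009) (orK (nat_lit 172) (fin (add (start (win (nat_lit 2) (nat_lit 11) (nat_lit 8) (nat_lit 5))) D221))))))))))))))))))) (orK (nat_lit 172) (fin (add (start D221) (orK (nat_lit 188) (fin (add (start D1757) D131))))))) D1763)))))))))) (orK (nat_lit 192) (fin (add (add (add (add (add (start (orK (nat_lit 193) (fin (add (add (start D1203) D1816) (orK (nat_lit 169) (fin (add (start D78) (orK (nat_lit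 189) (fin (add (start D306) D4959)))))))))) (orK (nat_lit 169) (fin (add (add (start (orK (nat_lit 170) (fin (add (start D1959) D7575)))) (orK (nat_lit 189) D3229)) D9054)))) (orK (nat_lit 169) (fin (add (add (start (orK (nat_lit 193) (fin (add (start D78) D1217)))) (orK (nat_lit 189) (fin (add (start D306) D4963)))) D9054)))) D8967) (orK (nat_lit 172) D9209)) D4642)))) (orK (nat_lit 230) (fin (add (add (add (start D167) D4647) D206) (orK (nat_lit 170) (fin (add (add (add (start D1608) D8704) D3672) D356))))))) (orK (nat_lit 170) D9468))
noncomputable def D680 : OP := win (nat_lit 6) (nat_lit 8) (nat_lit 7) (nat_lit 3)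
noncomputable def D6005 : OP := win (nat_lit 7) (nat_lit 7) (nat_lit 6) (nat_lit 0)
noncomputable def D2101 : OP := win (nat_lit 4) (nat_lit 8) (nat_lit 9) (nat_lit 5)
noncomputable def D2608 : AP := fin (add (start D168) D2101)
noncomputable def D7151 : AP := fin (add (start (win (nat_lit 0) (nat_lit 5) (nat_lit 8) (nat_lit 0))) (win (nat_lit 0) (nat_lit 6) (nat_lit 8) (nat_lit 3)))
noncomputable def D7179 : AP := fin (add (start D2561) (orK (nat_lit 166) D7151))
noncomputable def D1991 : OP := orK (nat_lit 230) (fin (add (start D2) (orK (nat_lit 249) (fin (add (start D1) (orK (nat_lit 250) (fin (add (start D0) (orK (nat_lit 271) (fin (add (start D12) D23)))))))))))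
noncomputable def D1980 : OP := orK (nat_lit 230) (fin (add (start D20) D1978))
noncomputable def D597 : OP := orK (nat_lit 149) (fin (add (start D40) (orK (nat_lit 230) (fin (add (start D41) (orK (nat_lit 171) (fin (add (start D2) D591))))))))
noncomputable def D1933 : OP := orK (nat_lit 209) (fin (add (start D448) (orK (nat_lit 130) (fin (add (start D210) D1929)))))
noncomputable def D747 : OP := orK (nat_lit 149) (fin (add (start D40) (orK (nat_lit 230) (fin (add (start D41) D472)))))
noncomputable def D1948 : OP := orK (nat_lit 150) (fin (add (add (add (start D466) D747) D1933) D597))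
noncomputable def D743 : OP := orK (nat_lit 151) (fin (add (start D32) (orK (nat_lit 230) (fin (add (start D33) D476)))))
noncomputable def D1946 : OP := orK (nat_lit 150) (fin (add (add (add (add (add (start D454) D520) D1933) D555) D743) (orK (nat_lit 151) (fin (add (start D32) (orK (nat_lit 230) (fin (add (start D33) (orK (nat_lit 169) (fin (add (start D20) (orK (nat_lit 189) (fin (add (start D283) (orK (nat_lit 130) (fin (add (start D1934) D570)))))))))))))))))
noncomputable def D1827 : OP := win (nat_lit 0) (nat_lit 9) (nat_lit 12) (nat_lit 5)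
noncomputable def D1871 : OP := orK (nat_lit 251) (fin (add (start D127) (orK (nat_lit 249) (fin (add (start D0) (orK (nat_lit 189) (fin (add (start D128) (orK (nat_lit 191) (fin (add (start D10) (orK (nat_lit 252) (fin (add (add (start (orK (nat_lit 229) (fin (add (start D960) (win (nat_lit 2) (nat_lit 9) (nat_lit 11) (nat_lit 0)))))) D973) (orK (nat_lit 272) (fin (add (start D1827) (orK (nat_lit 233) (fin (add (start D966) D1857))))))))))))))))))))
noncomputable def D122 : OP := orK (nat_lit 269) (fin (add (start D115) (orK (nat_lit 270) (fin (add (start D116) (orK (nat_lit 191) (fin (add (start D10) D11))))))))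
noncomputable def D6236 : OP := orK (nat_lit 250) (fin (add (add (add (start D122) D126) D19) D1871))
noncomputable def D290 : OP := win (nat_lit 7) (nat_lit 9) (nat_lit 9) (nat_lit 4)
noncomputable def D951 : OP := orK (nat_lit 189) (fin (add (start D128) D290))
noncomputable def D959 : OP := orK (nat_lit 271) (fin (add (start D12) (orK (nat_lit 270) (fin (add (start D13) D951)))))
noncomputable def D2147 : OP := orK (nat_lit 249) (fin (add (start D1) D0))
noncomputable def D2151 : OP := orK (nat_lit 250) (fin (add (add (start (orK (nat_lit 270) (fin (add (start (orK (nat_lit 269) (fin (add (start D115) D116)))) D15)))) (orK (nat_lit 270) (fin (add (start D15) D951)))) (orK (nat_lit 170) (fin (add (start D2147) D23)))))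
noncomputable def D2851 : OP := orK (nat_lit 250) (fin (add (add (start D122) D2849) D19))
noncomputable def D47 : OP := orK (nat_lit 229) (fin (add (start D30) (orK (nat_lit 150) (fin (add (start D31) D43)))))
noncomputable def D39 : OP := orK (nat_lit 229) (fin (add (start D30) (orK (nat_lit 150) (fin (add (start D31) D35)))))
noncomputable def D1452 : OP := win (nat_lit 5) (nat_lit 11) (nat_lit 7) (nat_lit 0)
noncomputable def D7793 : AP := fin (add (start (win (nat_lit 5) (nat_lit 10) (nat_lit 7) (nat_lit 3))) D1452)
noncomputable def D7760 : OP := win (nat_lit 4) (nat_lit 10) (nat_lit 7) (nat_lit 3)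
noncomputable def D7776 : OP := orK (nat_lit 232) (fin (add (start D2648) D2322))
noncomputable def D1163 : OP := win (nat_lit 2) (nat_lit 11) (nat_lit 8) (nat_lit 0)
noncomputable def D7649 : OP := win (nat_lit 0) (nat_lit 10) (nat_lit 8) (nat_lit 3)
noncomputable def D7652 : AP := fin (add (start D2488) (orK (nat_lit 194) (fin (add (start D7649) D1163))))
noncomputable def D7653 : OP := orK (nat_lit 193) D7652
noncomputable def D1116 : OP := win (nat_lit 1) (nat_lit 12) (nat_lit 6) (nat_lit 5)
noncomputable def D7801 : OP := orK (nat_lit 153) (fin (add (add (add (start (orK (nat_lit 173) (fin (add (start D495) (orK (nat_lit 193) (fin (add (start D1137) (orK (nat_lit 192) (fin (add (start D2488) (orK (nat_lit 133) (fin (add (start D2356) D1116))))))))))))) (orK (nat_lit 192) (fin (add (add (add (start (orK (nat_lit 169) (fin (add (start D57) D494)))) D7653) (orK (nat_lit 212) (fin (add (add (start D7776) (orK (nat_lit 133) (fin (add (start D2357) (orK (nat_lit 173) D7777))))) (orK (nat_lit 152) (fin (add (start D1176) (orK (nat_lit 151) (fin (add (start D1787) D1367)))))))))) (orK (nat_lit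 152) (fin (add (start D1138) (orK (nat_lit 212) (fin (add (start D1176) D7776)))))))))) (orK (nat_lit 154) (fin (add (start D7760) (orK (nat_lit 152) D7793))))) (orK (nat_lit 152) (fin (add (start D1138) (orK (nat_lit 154) D7793))))))
noncomputable def D7690 : OP := orK (nat_lit 154) (fin (add (start D2229) D2230))
noncomputable def D7694 : OP := orK (nat_lit 194) (fin (add (start D2218) (orK (nat_lit 174) (fin (add (start D2219) D7690)))))
noncomputable def D2250 : OP := orK (nat_lit 188) (fin (add (start D52) D2248))
noncomputable def D2254 : OP := orK (nat_lit 189) (fin (add (start D56) D2250))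
noncomputable def D7699 : OP := win (nat_lit 0) (nat_lit 13) (nat_lit 8) (nat_lit 5)
noncomputable def D7698 : OP := win (nat_lit 0) (nat_lit 12) (nat_lit 8) (nat_lit 4)
noncomputable def D7697 : OP := win (nat_lit 2) (nat_lit 11) (nat_lit 7) (nat_lit 4)
noncomputable def D7648 : OP := orK (nat_lit 212) (fin (add (start D2497) D1367))
noncomputable def D7723 : OP := win (nat_lit 0) (nat_lit 12) (nat_lit 8) (nat_lit 5)
noncomputable def D7722 : OP := win (nat_lit 0) (nat_lit 11) (nat_lit 8) (nat_lit 4)
noncomputable def D7701 : OP := win (nat_lit 4) (nat_lit 13) (nat_lit 7) (nat_lit 5)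
noncomputable def D7700 : OP := win (nat_lit 4) (nat_lit 12) (nat_lit 7) (nat_lit 4)
noncomputable def D7703 : OP := orK (nat_lit 156) (fin (add (start D7700) D7701))
noncomputable def D2007 : OP := orK (nat_lit 193) (fin (add (start D2001) (orK (nat_lit 173) (fin (add (start D1137) D2003)))))
noncomputable def D7635 : OP := orK (nat_lit 149) (fin (add (start D1893) D1892))
noncomputable def D7657 : OP := orK (nat_lit 131) (fin (add (start D1901) (orK (nat_lit 192) (fin (add (start D7648) D7653)))))
noncomputable def D7803 : OP := orK (nat_lit 172) (fin (add (add (add (add (add (start (orK (nat_lit 169) (fin (add (add (start D7635) (orK (nat_lit 151) (fin (add (start D1883) D7637)))) D7644)))) (orK (nat_lit 151) (fin (add (start D1883) D7657)))) (orK (nat_lit 169) (fin (add (start D7635) D2007)))) (orK (nat_lit 230) (fin (add (start D2) (orK (nat_lit 169) (fin (add (start D20) (orK (nat_lit 249) (fin (add (start D1) (orK (nat_lit 250) (fin (add (start D0) (orK (nat_lit 251) (fin (add (start D127) (orK (nat_lit 193) (fin (add (start D2001) (orK (nat_lit 173) (fin (add (start D1137) (orK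 (nat_lit 154) (fin (add (start D2229) (orK (nat_lit 174) (fin (add (start D2230) (orK (nat_lit 233) (fin (add (start (win (nat_lit 3) (nat_lit 13) (nat_lit 7) (nat_lit 1))) (orK (nat_lit 252) (fin (add (start D966) (orK (nat_lit 273) (fin (add (start D964) (orK (nat_lit 253) (fin (add (start D965) D967)))))))))))))))))))))))))))))))))))))))) (orK (nat_lit 151) (fin (add (start D1883) (orK (nat_lit 173) (fin (add (add (add (add (start D7694) D4490) (orK (nat_lit 174) (fin (add (add (start (orK (nat_lit 194) (fin (add (start D2218) D2219)))) (orK (nat_lit 175) (fin (add (start D7697) (orK (nat_lit 196) (fin (add (start D7698) (orK (nat_lit 176) (fin (add (start D7699) D7703)))))))))) (orK (nat_lit 175) (fin (add (start D7697) (orK (nat_lit 193) (fin (add (start D1137) (orK (nat_lit 156) (fin (add (start D7700) (orK (nat_lit 176) (fin (add (start D7701) (win (nat_lit 5) (nat_lit 12) (nat_lit 8) (nat_lit 5)))))))))))))))))) (orK (nat_lit 111) (fin (add (start (win (nat_lit 1) (nat_lit 10) (nat_lit 5) (nat_lit 1))) (orK (nat_lit 154) (fin (add (start D2229) (orK (nat_lit 174) (fin (add (start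 D2230) (orK (nat_lit 195) (fin (add (start D7722) (orK (nat_lit 175) (fin (add (start D7723) D7697)))))))))))))))) (orK (nat_lit 131) (fin (add (start D1901) (orK (nat_lit 192) (fin (add (add (start D7648) (orK (nat_lit 154) (fin (add (start D2229) (orK (nat_lit 174) (fin (add (start D2230) (orK (nat_lit 175) (fin (add (start D7697) (orK (nat_lit 196) (fin (add (start D7698) (orK (nat_lit 176) (fin (add (start D7699) (win (nat_lit 5) (nat_lit 12) (nat_lit 8) (nat_lit 4)))))))))))))))))) (orK (nat_lit 153) (fin (add (start D495) (orK (nat_lit 133) (fin (add (start D2356) (orK (nat_lit 212) (fin (add (start D7745) D2355)))))))))))))))))))))) D7801))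
noncomputable def D8484 : OP := orK (nat_lit 250) (fin (add (add (add (start D2147) D126) D8473) D8482))
noncomputable def D2019 : OP := orK (nat_lit 147) (fin (add (start D600) (win (nat_lit 2) (nat_lit 7) (nat_lit 7) (nat_lit 3))))
noncomputable def D7627 : OP := orK (nat_lit 149) (fin (add (start D1892) (orK (nat_lit 148) (fin (add (start D7623) D2019)))))
noncomputable def D492 : OP := orK (nat_lit 147) (fin (add (start D61) (orK (nat_lit 167) (fin (add (start D60) D488)))))
noncomputable def D8070 : OP := win (nat_lit 5) (nat_lit 4) (nat_lit 7) (nat_lit 5)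
noncomputable def D7043 : OP := win (nat_lit 2) (nat_lit 4) (nat_lit 6) (nat_lit 5)
noncomputable def D8567 : OP := win (nat_lit 4) (nat_lit 7) (nat_lit 7) (nat_lit 5)
noncomputable def D8569 : OP := orK (nat_lit 169) (fin (add (start D59) D8567))
noncomputable def D753 : OP := orK (nat_lit 249) (fin (add (start (win (nat_lit 3) (nat_lit 9) (nat_lit 8) (nat_lit 3))) D751))
noncomputable def D754 : AP := fin (add (start D207) D753)
noncomputable def D7564 : OP := orK (nat_lit 230) (fin (add (start D33) D20))
noncomputable def D8687 : AP := fin (add (add (add (add (add (add (add (start D8460) (orK (nat_lit 230) (fin (add (add (add (start D47) D8484) D8486) D8492)))) D1923) (orK (nat_lit 229) (fin (add (add (start (orK (nat_lit 230) (fin (add (start D30) D8502)))) (orK (nat_lit 150) (fin (add (start D31) (orK (nat_lit 151) (fin (add (start D32) (orK (nat_lit 169) (fin (add (add (start D7564) (orK (nat_lit 168) (fin (add (start D608) (orK (nat_lit 152) (fin (add (start D7582) D2433))))))) (orK (nat_lit 171) (fin (add (start D1883) D8510))))))))))))) (orK (nat_lit 209) D754))))) (orK (nat_lit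 150) (fin (add (add (add (start D520) (orK (nat_lit 151) (fin (add (start D32) (orK (nat_lit 171) (fin (add (start D1883) (orK (nat_lit 169) (fin (add (add (start D8510) (orK (nat_lit 152) (fin (add (start D2433) (orK (nat_lit 172) (fin (add (add (start D8523) (orK (nat_lit 192) (fin (add (start D57) (orK (nat_lit 189) (fin (add (start D707) (orK (nat_lit 110) (fin (add (start (win (nat_lit 1) (nat_lit 9) (nat_lit 5) (nat_lit 1))) (orK (nat_lit 212) (fin (add (start D1367) (orK (nat_lit 213) (fin (add (start D422) D2371)))))))))))))))) D8538))))))) (orK (nat_lit 168) (fin (add (start D608) (orK (nat_lit 188) (fin (add (start D679) (orK (nat_lit 172) (fin (add (start D2088) D8538))))))))))))))))))) (orK (nat_lit 209) (fin (add (start D448) (orK (nat_lit 189) (fin (add (start D1772) (orK (nat_lit 187) (fin (add (add (start (orK (nat_lit 188) D8555)) (orK (nat_lit 207) (fin (add (add (add (start D4037) D8564) D8566) (orK (nat_lit 167) (fin (add (add (add (add (start (orK (nat_lit 168) (fin (add (start D8569) D4067)))) (orK (nat_lit 168) (fin (add (add (start D8569) (orK (nat_lit 227) (fin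 (add (start D4025) (orK (nat_lit 246) (fin (add (start D6395) (orK (nat_lit 247) (fin (add (start D6396) (orK (nat_lit 228) (fin (add (start D2117) D8574))))))))))))) (orK (nat_lit 169) (fin (add (start D8567) D2080))))))) D8600) D4098) (orK (nat_lit 147) (fin (add (add (add (start D8604) D8608) (orK (nat_lit 128) (fin (add (start D4075) (orK (nat_lit 127) (fin (add (start D4074) D4092))))))) (orK (nat_lit 206) (fin (add (start D4071) (orK (nat_lit 146) (fin (add (start D3533) (orK (nat_lit 168) (fin (add (start (win (nat_lit 2) (nat_lit 6) (nat_lit 7) (nat_lit 1))) (orK (nat_lit 148) (fin (add (start D4083) (orK (nat_lit 145) (fin (add (start D4110) (orK (nat_lit 125) (fin (add (start D7043) (orK (nat_lit 165) (fin (add (start D8070) (orK (nat_lit 185) (fin (add (start (win (nat_lit 6) (nat_lit 5) (nat_lit 6) (nat_lit 4))) (orK (nat_lit 184) (fin (add (start (win (nat_lit 1) (nat_lit 4) (nat_lit 6) (nat_lit 5))) (win (nat_lit 5) (nat_lit 4) (nat_lit 8) (nat_lit 2))))))))))))))))))))))))))))))))))))))) (orK (nat_lit 188) (fin (add (start D1006) D2161))))))))))))) D8656)))) (orK (nat_lit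 171) (fin (add (add (add (start (orK (nat_lit 169) (fin (add (add (start D1981) (orK (nat_lit 172) (fin (add (start D2007) (orK (nat_lit 168) (fin (add (add (add (start D2090) (orK (nat_lit 147) (fin (add (start D61) (orK (nat_lit 167) (fin (add (start D60) (orK (nat_lit 189) (fin (add (start D59) D707)))))))))) D492) D2087))))))) D7627)))) (orK (nat_lit 230) (fin (add (start D2) D8484)))) D7803) (orK (nat_lit 172) (fin (add (add (add (start D2254) (orK (nat_lit 173) (fin (add (start D496) D7694)))) D8680) D7801))))))) D8686) D643)
noncomputable def D763 : OP := orK (nat_lit 150) (fin (add (start D448) (orK (nat_lit 131) (fin (add (start D347) (orK (nat_lit 130) (fin (add (start D348) D757))))))))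
noncomputable def D2732 : OP := win (nat_lit 0) (nat_lit 5) (nat_lit 10) (nat_lit 4)
noncomputable def D767 : OP := win (nat_lit 2) (nat_lit 5) (nat_lit 9) (nat_lit 5)
noncomputable def D766 : OP := win (nat_lit 2) (nat_lit 6) (nat_lit 9) (nat_lit 4)
noncomputable def D2688 : OP := win (nat_lit 6) (nat_lit 8) (nat_lit 8) (nat_lit 0)
noncomputable def D251 : OP := win (nat_lit 2) (nat_lit 7) (nat_lit 9) (nat_lit 5)
noncomputable def D785 : OP := win (nat_lit 0) (nat_lit 9) (nat_lit 10) (nat_lit 4)
noncomputable def D2709 : OP := orK (nat_lit 194) (fin (add (start (win (nat_lit 4) (nat_lit 10) (nat_lit 9) (nat_lit 4))) (win (nat_lit 4) (nat_lit 11) (nat_lit 9) (nat_lit 5))))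
noncomputable def D2705 : OP := win (nat_lit 2) (nat_lit 10) (nat_lit 9) (nat_lit 4)
noncomputable def D2711 : OP := orK (nat_lit 214) (fin (add (start D2705) D2709))
noncomputable def D790 : OP := orK (nat_lit 193) (fin (add (start (win (nat_lit 4) (nat_lit 9) (nat_lit 9) (nat_lit 4))) D788))
noncomputable def D794 : OP := orK (nat_lit 233) (fin (add (start D785) (orK (nat_lit 213) (fin (add (start D786) D790)))))
noncomputable def D2723 : OP := orK (nat_lit 212) (fin (add (add (add (start (orK (nat_lit 192) (fin (add (start D2702) D817)))) D794) (orK (nat_lit 233) (fin (add (start D785) (orK (nat_lit 213) (fin (add (start D786) D2711))))))) (orK (nat_lit 233) (fin (add (start D785) (orK (nat_lit 213) (fin (add (start D786) (orK (nat_lit 191) (fin (add (start D1427) D2101)))))))))))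
noncomputable def D2724 : AP := fin (add (start D251) D2723)
noncomputable def D2616 : OP := orK (nat_lit 267) (fin (add (start D828) D829))
noncomputable def D2618 : OP := orK (nat_lit 268) (fin (add (start D1251) D2616))
noncomputable def D2285 : OP := win (nat_lit 0) (nat_lit 5) (nat_lit 9) (nat_lit 0)
noncomputable def D2690 : AP := fin (add (start D2285) D2689)
noncomputable def D2691 : OP := orK (nat_lit 186) D2690
noncomputable def D980 : OP := win (nat_lit 7) (nat_lit 7) (nat_lit 8) (nat_lit 5)
noncomputable def D775 : OP := orK (nat_lit 191) D194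
noncomputable def D2748 : OP := orK (nat_lit 249) (fin (add (start D751) (orK (nat_lit 208) (fin (add (add (add (start D775) (orK (nat_lit 228) (fin (add (start D2687) (orK (nat_lit 188) (fin (add (start D2688) (orK (nat_lit 248) (fin (add (start (orK (nat_lit 187) (fin (add (start D980) D2691)))) D2618)))))))))) (orK (nat_lit 211) (fin (add (add (start (orK (nat_lit 228) (fin (add (start D777) D248)))) (orK (nat_lit 188) D2724)) (orK (nat_lit 188) (fin (add (start D251) (orK (nat_lit 228) (fin (add (start D777) D2688)))))))))) (orK (nat_lit 207) (fin (add (start D765) (orK (nat_lit 186) (fin (add (start D766) (orK (nat_lit 206) (fin (add (start D767) (orK (nat_lit 205) (fin (add (start D2732) (orK (nat_lit 225) (fin (add (start (win (nat_lit 5) (nat_lit 4) (nat_lit 10) (nat_lit 5))) (win (nat_lit 5) (nat_lit 5) (nat_lit 10) (nat_lit 4))))))))))))))))))))))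
noncomputable def D6795 : OP := win (nat_lit 5) (nat_lit 6) (nat_lit 10) (nat_lit 4)
noncomputable def D6794 : OP := win (nat_lit 5) (nat_lit 5) (nat_lit 10) (nat_lit 5)
noncomputable def D6797 : OP := orK (nat_lit 226) (fin (add (start D6794) D6795))
noncomputable def D7067 : OP := win (nat_lit 0) (nat_lit 6) (nat_lit 10) (nat_lit 5)
noncomputable def D8005 : AP := fin (add (start D7067) D6797)
noncomputable def D803 : OP := win (nat_lit 2) (nat_lit 7) (nat_lit 9) (nat_lit 4)
noncomputable def D5719 : OP := win (nat_lit 5) (nat_lit 9) (nat_lit 10) (nat_lit 4)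
noncomputable def D8374 : OP := orK (nat_lit 233) (fin (add (start D785) (orK (nat_lit 213) (fin (add (start D786) D5719)))))
noncomputable def D7498 : OP := orK (nat_lit 168) (fin (add (start D258) (orK (nat_lit 167) (fin (add (start (win (nat_lit 0) (nat_lit 7) (nat_lit 8) (nat_lit 2))) D260)))))
noncomputable def D812 : OP := orK (nat_lit 187) (fin (add (start D803) (orK (nat_lit 207) (fin (add (start D804) D808)))))
noncomputable def D2609 : OP := orK (nat_lit 191) D2608
noncomputable def D7973 : OP := win (nat_lit 1) (nat_lit 9) (nat_lit 8) (nat_lit 3)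
noncomputable def D7975 : OP := orK (nat_lit 249) (fin (add (start D7973) D751))
noncomputable def D7066 : OP := orK (nat_lit 186) (fin (add (start D766) (orK (nat_lit 206) (fin (add (start D767) D6797)))))
noncomputable def D8216 : OP := orK (nat_lit 207) (fin (add (start D765) D7066))
noncomputable def D5377 : OP := win (nat_lit 4) (nat_lit 7) (nat_lit 6) (nat_lit 0)
noncomputable def D8204 : OP := orK (nat_lit 168) (fin (add (start D2998) (orK (nat_lit 228) (fin (add (start D777) D3015)))))
noncomputable def D5813 : OP := win (nat_lit 7) (nat_lit 7) (nat_lit 6) (nat_lit 2)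
noncomputable def D8320 : OP := orK (nat_lit 131) (fin (add (start D347) D5544))
noncomputable def D5226 : OP := win (nat_lit 7) (nat_lit 7) (nat_lit 7) (nat_lit 3)
noncomputable def D8186 : OP := orK (nat_lit 228) (fin (add (start D777) (orK (nat_lit 168) D3014)))
noncomputable def D8058 : OP := win (nat_lit 3) (nat_lit 8) (nat_lit 6) (nat_lit 2)
noncomputable def D8060 : OP := orK (nat_lit 129) (fin (add (start D8058) D1876))
noncomputable def D4158 : OP := win (nat_lit 3) (nat_lit 8) (nat_lit 7) (nat_lit 3)
noncomputable def D6817 : AP := fin (add (start D805) (orK (nat_lit 167) (fin (add (add (start (orK (nat_lit 247) (fin (add (start (orK (nat_lit 168) (fin (add (start D4025) (win (nat_lit 3) (nat_lit 7) (nat_lit 8) (nat_lit 4)))))) D6401)))) D6802) D6814))))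
noncomputable def D6819 : AP := fin (add (start D804) (orK (nat_lit 227) D6817))
noncomputable def D8047 : OP := orK (nat_lit 207) D6819
noncomputable def D5227 : OP := win (nat_lit 7) (nat_lit 7) (nat_lit 8) (nat_lit 0)
noncomputable def D8029 : OP := orK (nat_lit 228) (fin (add (start D5226) D5227))
noncomputable def D8033 : OP := orK (nat_lit 167) (fin (add (start D3536) D8029))
noncomputable def D2286 : OP := win (nat_lit 5) (nat_lit 6) (nat_lit 8) (nat_lit 3)
noncomputable def D2119 : OP := orK (nat_lit 167) D2118
noncomputable def D8046 : OP := orK (nat_lit 207) (fin (add (start D804) (orK (nat_lit 227) (fin (add (start D805) (orK (nat_lit 228) (fin (add (start D2685) D2119))))))))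
noncomputable def D1646 : OP := win (nat_lit 1) (nat_lit 7) (nat_lit 7) (nat_lit 0)
noncomputable def D4015 : OP := orK (nat_lit 168) (fin (add (start D1646) D1283))
noncomputable def D7946 : OP := orK (nat_lit 188) (fin (add (start D2284) D4015))
noncomputable def D7941 : OP := win (nat_lit 5) (nat_lit 6) (nat_lit 10) (nat_lit 3)
noncomputable def D8018 : OP := orK (nat_lit 186) (fin (add (start D2689) (orK (nat_lit 188) (fin (add (start D2285) D2284)))))
noncomputable def D4654 : OP := orK (nat_lit 130) (fin (add (start D369) D462))
noncomputable def D7252 : OP := orK (nat_lit 229) (fin (add (start D30) (orK (nat_lit 150) (fin (add (start D31) D565)))))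
noncomputable def D7936 : OP := orK (nat_lit 249) (fin (add (start D1) (orK (nat_lit 250) (fin (add (start D0) D19)))))
noncomputable def D5257 : OP := win (nat_lit 3) (nat_lit 8) (nat_lit 6) (nat_lit 3)
noncomputable def D6014 : OP := win (nat_lit 3) (nat_lit 8) (nat_lit 6) (nat_lit 0)
noncomputable def D7620 : OP := orK (nat_lit 172) (fin (add (add (add (start (orK (nat_lit 192) (fin (add (start D58) D57)))) D2007) D7612) (orK (nat_lit 191) (fin (add (start D364) (orK (nat_lit 153) (fin (add (start D494) (orK (nat_lit 173) (fin (add (start D495) D1082)))))))))))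
noncomputable def D6877 : OP := orK (nat_lit 185) (fin (add (start (win (nat_lit 5) (nat_lit 4) (nat_lit 8) (nat_lit 5))) (win (nat_lit 5) (nat_lit 5) (nat_lit 8) (nat_lit 4))))
noncomputable def D2041 : OP := win (nat_lit 4) (nat_lit 5) (nat_lit 7) (nat_lit 4)
noncomputable def D5346 : OP := win (nat_lit 4) (nat_lit 7) (nat_lit 6) (nat_lit 5)
noncomputable def D5893 : AP := fin (add (start D626) D5813)
noncomputable def D8035 : AP := fin (add (start D601) (orK (nat_lit 127) D5893))
noncomputable def D8061 : OP := orK (nat_lit 150) D8035
noncomputable def D5146 : OP := win (nat_lit 6) (nat_lit 7) (nat_lit 6) (nat_lit 3)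
noncomputable def D8107 : OP := orK (nat_lit 167) (fin (add (start D630) D5146))
noncomputable def D8149 : OP := win (nat_lit 6) (nat_lit 6) (nat_lit 4) (nat_lit 5)
noncomputable def D8137 : OP := orK (nat_lit 107) (fin (add (start (win (nat_lit 1) (nat_lit 6) (nat_lit 4) (nat_lit 0))) (win (nat_lit 3) (nat_lit 6) (nat_lit 5) (nat_lit 0))))
noncomputable def D8123 : OP := win (nat_lit 4) (nat_lit 6) (nat_lit 6) (nat_lit 5)
noncomputable def D8071 : OP := win (nat_lit 5) (nat_lit 5) (nat_lit 7) (nat_lit 4)
noncomputable def D8073 : OP := orK (nat_lit 165) (fin (add (start D8070) D8071))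
noncomputable def D7044 : OP := win (nat_lit 2) (nat_lit 5) (nat_lit 6) (nat_lit 4)
noncomputable def D8077 : OP := orK (nat_lit 125) (fin (add (start D7044) (orK (nat_lit 145) (fin (add (start D7043) D8073)))))
noncomputable def D8122 : OP := win (nat_lit 4) (nat_lit 5) (nat_lit 6) (nat_lit 4)
noncomputable def D2034 : OP := win (nat_lit 4) (nat_lit 5) (nat_lit 7) (nat_lit 0)
noncomputable def D5144 : OP := win (nat_lit 7) (nat_lit 7) (nat_lit 7) (nat_lit 0)
noncomputable def D8079 : OP := orK (nat_lit 167) (fin (add (start D4110) D5144))
noncomputable def D8105 : OP := orK (nat_lit 146) (fin (add (add (add (start D8077) (orK (nat_lit 165) (fin (add (start D8071) (orK (nat_lit 168) (fin (add (start D3012) (orK (nat_lit 145) (fin (add (start D8070) D8079)))))))))) (orK (nat_lit 125) (fin (add (start D7044) (orK (nat_lit 168) (fin (add (start D3012) (orK (nat_lit 145) (fin (add (start D7043) D8079)))))))))) (orK (nat_lit 168) (fin (add (start D3012) (orK (nat_lit 167) (fin (add (start D5144) (orK (nat_lit 126) (fin (add (start D5355) (orK (nat_lit 166) (fin (add (start D2034) (orK (nat_lit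 106) (fin (add (start (win (nat_lit 6) (nat_lit 6) (nat_lit 4) (nat_lit 0))) (win (nat_lit 6) (nat_lit 6) (nat_lit 5) (nat_lit 5)))))))))))))))))))
noncomputable def D6664 : OP := win (nat_lit 5) (nat_lit 8) (nat_lit 6) (nat_lit 0)
noncomputable def D5347 : OP := win (nat_lit 4) (nat_lit 6) (nat_lit 6) (nat_lit 0)
noncomputable def D830 : OP := win (nat_lit 6) (nat_lit 8) (nat_lit 9) (nat_lit 4)
noncomputable def D833 : OP := orK (nat_lit 269) (fin (add (start D830) (win (nat_lit 6) (nat_lit 8) (nat_lit 10) (nat_lit 5))))
noncomputable def D837 : OP := orK (nat_lit 267) (fin (add (start D828) (orK (nat_lit 268) (fin (add (start D829) D833)))))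
noncomputable def D3124 : OP := win (nat_lit 7) (nat_lit 7) (nat_lit 8) (nat_lit 4)
noncomputable def D5233 : OP := orK (nat_lit 248) (fin (add (start D3124) D837))
noncomputable def D6735 : OP := orK (nat_lit 211) D2724
noncomputable def D8217 : AP := fin (add (add (add (start D775) (orK (nat_lit 150) (fin (add (start D40) (orK (nat_lit 187) (fin (add (add (add (start D8018) (orK (nat_lit 188) (fin (add (start D2284) (orK (nat_lit 147) (fin (add (add (add (start (orK (nat_lit 148) (fin (add (start D601) (orK (nat_lit 127) (fin (add (start D626) (win (nat_lit 6) (nat_lit 7) (nat_lit 6) (nat_lit 2))))))))) (orK (nat_lit 167) (fin (add (start (orK (nat_lit 148) (fin (add (start D601) D630)))) D8029)))) D8033) (orK (nat_lit 148) D8035)))))))) D8046) D8047))))))) (orK (nat_lit 188) (fin (add (add (start D6735) (orK (nat_lit 148) (fin (add (add (add (start D8060) (orK (nat_lit 147) (fin (add (add (add (start D8061) (orK (nat_lit 150) (fin (add (start D601) (orK (nat_lit 130) (fin (add (start D5346) (orK (nat_lit 167) (fin (add (start D630) (orK (nat_lit 228) (fin (add (start D5226) D5233)))))))))))))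 D8105) (orK (nat_lit 150) (fin (add (start D601) (orK (nat_lit 127) (fin (add (start D626) D8107)))))))))) (orK (nat_lit 147) (fin (add (add (add (start (orK (nat_lit 168) (fin (add (start D2998) D3012)))) (orK (nat_lit 129) (fin (add (start D8058) (orK (nat_lit 130) (fin (add (start D5347) (orK (nat_lit 131) (fin (add (start (win (nat_lit 5) (nat_lit 7) (nat_lit 6) (nat_lit 3))) D6664)))))))))) D8105) (orK (nat_lit 146) (fin (add (add (add (start (orK (nat_lit 125) (fin (add (start D7044) (orK (nat_lit 145) (fin (add (start D7043) (orK (nat_lit 129) (fin (add (start D8122) D8123)))))))))) (orK (nat_lit 129) (fin (add (start D8123) (orK (nat_lit 145) (fin (add (start D8122) D8073))))))) D8077) (orK (nat_lit 166) (fin (add (start D3825) (orK (nat_lit 126) (fin (add (start D5355) (orK (nat_lit 129) (fin (add (start D8123) (orK (nat_lit 106) (fin (add (add (start (orK (nat_lit 127) (fin (add (start D8137) (orK (nat_lit 105) (fin (add (start (win (nat_lit 2) (nat_lit 5) (nat_lit 5) (nat_lit 1))) (win (nat_lit 7) (nat_lit 5) (nat_lit 4) (nat_lit 5))))))))) (orK (nat_lit 127) (fin (add (start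 D8137) (orK (nat_lit 86) (fin (add (start (win (nat_lit 6) (nat_lit 6) (nat_lit 3) (nat_lit 0))) D8149))))))) (orK (nat_lit 86) (fin (add (start D8149) (orK (nat_lit 85) (fin (add (start (win (nat_lit 7) (nat_lit 5) (nat_lit 3) (nat_lit 5))) (win (nat_lit 7) (nat_lit 5) (nat_lit 4) (nat_lit 4))))))))))))))))))))))))))) (orK (nat_lit 150) (fin (add (start D40) (orK (nat_lit 147) (fin (add (start D601) (orK (nat_lit 127) (fin (add (start D626) (orK (nat_lit 130) (fin (add (start D5346) D8107)))))))))))))))) (orK (nat_lit 211) (fin (add (start D2723) (orK (nat_lit 148) (fin (add (add (add (start D8060) (orK (nat_lit 147) (fin (add (add (add (start D8061) D8186) (orK (nat_lit 150) (fin (add (start D601) (orK (nat_lit 167) (fin (add (start D630) (orK (nat_lit 228) (fin (add (start D777) D5226)))))))))) (orK (nat_lit 150) (fin (add (start D601) (orK (nat_lit 126) (fin (add (start D5354) (orK (nat_lit 146) (fin (add (start D5355) (orK (nat_lit 130) (fin (add (start D5346) D5746)))))))))))))))) D8204) (orK (nat_lit 150) (fin (add (start D40) (orK (nat_lit 147) (fin (add (start D601) D5750))))))))))))))))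 D8216)
noncomputable def D2926 : OP := win (nat_lit 6) (nat_lit 8) (nat_lit 9) (nat_lit 3)
noncomputable def D3340 : OP := win (nat_lit 3) (nat_lit 10) (nat_lit 9) (nat_lit 0)
noncomputable def D3706 : OP := win (nat_lit 5) (nat_lit 7) (nat_lit 12) (nat_lit 0)
noncomputable def D6424 : AP := fin (add (start D2284) D2691)
noncomputable def D6734 : OP := orK (nat_lit 187) D6424
noncomputable def D3009 : AP := fin (add (start D258) D3008)
noncomputable def D3010 : OP := orK (nat_lit 229) D3009
noncomputable def D1652 : OP := win (nat_lit 3) (nat_lit 7) (nat_lit 9) (nat_lit 0)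
noncomputable def D1653 : AP := fin (add (start (win (nat_lit 3) (nat_lit 7) (nat_lit 8) (nat_lit 3))) D1652)
noncomputable def D6483 : OP := win (nat_lit 1) (nat_lit 7) (nat_lit 8) (nat_lit 3)
noncomputable def D7955 : OP := orK (nat_lit 148) (fin (add (start D1666) D1024))
noncomputable def D7875 : OP := win (nat_lit 2) (nat_lit 12) (nat_lit 7) (nat_lit 0)
noncomputable def D7874 : OP := win (nat_lit 2) (nat_lit 11) (nat_lit 7) (nat_lit 5)
noncomputable def D7851 : OP := orK (nat_lit 155) (fin (add (start (win (nat_lit 4) (nat_lit 11) (nat_lit 7) (nat_lit 4))) (win (nat_lit 4) (nat_lit 12) (nat_lit 7) (nat_lit 5))))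
noncomputable def D7836 : OP := orK (nat_lit 148) (fin (add (start D7640) (orK (nat_lit 168) (fin (add (start D493) (orK (nat_lit 167) (fin (add (start D7219) D2083))))))))
noncomputable def D2489 : OP := win (nat_lit 2) (nat_lit 10) (nat_lit 8) (nat_lit 3)
noncomputable def D2505 : AP := fin (add (start D1901) D2504)
noncomputable def D1174 : AP := fin (add (start D1090) D1091)
noncomputable def D1175 : OP := orK (nat_lit 132) D1174
noncomputable def D7927 : AP := fin (add (add (add (start D1953) (orK (nat_lit 169) (fin (add (add (start D1980) (orK (nat_lit 168) (fin (add (start D2087) D7620)))) D7627)))) D7803) (orK (nat_lit 172) (fin (add (add (add (add (add (add (start (orK (nat_lit 169) (fin (add (add (start D7809) (orK (nat_lit 192) (fin (add (start D57) (orK (nat_lit 152) (fin (add (start D710) (orK (nat_lit 131) (fin (add (add (start (orK (nat_lit 191) (fin (add (start D6157) D1175)))) (orK (nat_lit 132) (fin (add (start D1795) (orK (nat_lit 191) D1174))))) (orK (nat_lit 151) D2505))))))))))) D7644)))) (orK (nat_lit 193) (fin (add (add (start (orK (nat_lit 173) (fin (add (start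 D1137) D2234)))) (orK (nat_lit 169) (fin (add (start D2001) D7836)))) (orK (nat_lit 192) D7652))))) (orK (nat_lit 151) (fin (add (add (start D1951) (orK (nat_lit 193) (fin (add (add (start (orK (nat_lit 192) (fin (add (start D2488) (orK (nat_lit 194) (fin (add (start D7649) D2489))))))) (orK (nat_lit 169) (fin (add (start D2001) (orK (nat_lit 148) (fin (add (start D7640) (orK (nat_lit 168) (fin (add (start D493) D1992)))))))))) (orK (nat_lit 173) (fin (add (start D1137) (orK (nat_lit 174) (fin (add (start D2220) (orK (nat_lit 175) (fin (add (start D7697) (orK (nat_lit 196) (fin (add (start D7698) D7851)))))))))))))))) D7657)))) (orK (nat_lit 173) (fin (add (add (start D2224) D4490) D2234)))) D7801) (orK (nat_lit 153) (fin (add (add (start (orK (nat_lit 152) (fin (add (start D1138) (orK (nat_lit 154) (fin (add (start D7760) D1452))))))) D7610) (orK (nat_lit 169) (fin (add (start D494) D7836))))))) (orK (nat_lit 173) (fin (add (add (add (add (start D2234) (orK (nat_lit 174) (fin (add (start D2220) (orK (nat_lit 195) (fin (add (start D7722) (orK (nat_lit 175) (fin (add (start D7723) (orK (nat_lit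 152) (fin (add (start D7874) (orK (nat_lit 153) (fin (add (start D7875) D1138)))))))))))))))) (orK (nat_lit 174) (fin (add (start D2220) (orK (nat_lit 195) (fin (add (start D7722) (orK (nat_lit 175) (fin (add (start D7723) (orK (nat_lit 151) (fin (add (start D7697) D7851))))))))))))) (orK (nat_lit 153) (fin (add (start D495) (orK (nat_lit 169) (fin (add (start D494) (orK (nat_lit 148) (fin (add (start D7640) (orK (nat_lit 168) (fin (add (start D493) D481))))))))))))) (orK (nat_lit 174) (fin (add (add (add (start D7690) (orK (nat_lit 195) (fin (add (start D7722) (orK (nat_lit 175) (fin (add (start D7723) D7851))))))) (orK (nat_lit 195) (fin (add (start D7722) (orK (nat_lit 175) (fin (add (start D7723) (orK (nat_lit 152) (fin (add (start D7874) (orK (nat_lit 176) (fin (add (start (win (nat_lit 2) (nat_lit 12) (nat_lit 7) (nat_lit 4))) D7703))))))))))))) (orK (nat_lit 153) (fin (add (start D495) (orK (nat_lit 152) (fin (add (start D1138) (orK (nat_lit 175) (fin (add (start D7874) D7875)))))))))))))))))))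
noncomputable def D7583 : AP := fin (add (start D608) D7582)
noncomputable def D1999 : AP := fin (add (start D1995) D1998)
noncomputable def D1141 : OP := orK (nat_lit 132) (fin (add (start D1090) D1139))
noncomputable def D1145 : OP := orK (nat_lit 153) (fin (add (start D495) (orK (nat_lit 152) (fin (add (start D1138) D1141)))))
noncomputable def D1146 : AP := fin (add (start D1137) D1145)
noncomputable def D1551 : OP := orK (nat_lit 172) D1146
noncomputable def D1429 : OP := orK (nat_lit 211) D1428
noncomputable def D7000 : OP := win (nat_lit 5) (nat_lit 9) (nat_lit 10) (nat_lit 5)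
noncomputable def D7517 : OP := orK (nat_lit 211) (fin (add (start D788) D7000))
noncomputable def D1447 : OP := orK (nat_lit 252) (fin (add (start D1438) (orK (nat_lit 253) (fin (add (start D1439) D1443)))))
noncomputable def D3182 : OP := orK (nat_lit 172) D3181
noncomputable def D3180 : OP := orK (nat_lit 192) (fin (add (start D1392) D79))
noncomputable def D1622 : OP := win (nat_lit 0) (nat_lit 6) (nat_lit 10) (nat_lit 0)
noncomputable def D7486 : OP := orK (nat_lit 207) (fin (add (start D1622) (orK (nat_lit 187) (fin (add (start D804) D803)))))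
noncomputable def D1624 : OP := orK (nat_lit 207) (fin (add (start D1622) D765))
noncomputable def D249 : AP := fin (add (start D247) D248)
noncomputable def D250 : OP := orK (nat_lit 228) D249
noncomputable def D8457 : AP := fin (add (add (add (add (add (add (add (add (start D569) (orK (nat_lit 230) (fin (add (add (add (start D39) D7482) (orK (nat_lit 229) (fin (add (start D30) (orK (nat_lit 209) (fin (add (start D207) (orK (nat_lit 211) (fin (add (add (start D250) (orK (nat_lit 212) (fin (add (start D253) (orK (nat_lit 192) (fin (add (start D817) (orK (nat_lit 208) (fin (add (start D2702) D7486)))))))))) (orK (nat_lit 228) (fin (add (start D247) (orK (nat_lit 208) (fin (add (add (start D1624) (orK (nat_lit 188) (fin (add (start D251) (orK (nat_lit 191) (fin (add (start D2101) (orK (nat_lit 270) (fin (add (start (win (nat_lit 3) (nat_lit 10) (nat_lit 9) (nat_lit 1))) D7498)))))))))) D7486)))))))))))))))) (orK (nat_lit 171) (fin (add (start D2) (orK (nat_lit 191) (fin (add (start D161) (orK (nat_lit 193) (fin (add (add (start D3180) (orK (nat_lit 173) (fin (add (add (add (start D3182) (orK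 (nat_lit 213) (fin (add (add (add (add (start D1503) (orK (nat_lit 212) (fin (add (start D7517) D1435)))) (orK (nat_lit 212) (fin (add (add (start (orK (nat_lit 211) (fin (add (start D1427) D7000)))) (orK (nat_lit 233) (fin (add (add (add (start D1511) D1447) D1515) (orK (nat_lit 234) (fin (add (start D1404) (orK (nat_lit 174) (fin (add (start D1504) D4406)))))))))) D7517)))) (orK (nat_lit 153) (fin (add (start D7531) D1501)))) (orK (nat_lit 153) (fin (add (start (orK (nat_lit 212) (fin (add (start D1100) D1429)))) D1501))))))) D1551) (orK (nat_lit 172) (fin (add (start D1082) D1145))))))) (orK (nat_lit 192) (fin (add (start D931) D79)))))))))))))))) (orK (nat_lit 151) (fin (add (add (add (start D7556) D7562) (orK (nat_lit 169) (fin (add (add (add (start D7564) (orK (nat_lit 171) (fin (add (start D1883) D7569)))) D7575) (orK (nat_lit 152) (fin (add (add (add (start (orK (nat_lit 171) D1999)) (orK (nat_lit 168) (fin (add (start (win (nat_lit 4) (nat_lit 8) (nat_lit 7) (nat_lit 3))) (orK (nat_lit 150) D7583))))) (orK (nat_lit 153) (fin (add (start D7587) (orK (nat_lit 171) D1997))))) (orK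 (nat_lit 150) (fin (add (start D2433) (orK (nat_lit 168) D7583))))))))))) D7598)))) (orK (nat_lit 230) (fin (add (add (start D47) D472) D7606)))) (orK (nat_lit 171) D7927)) (orK (nat_lit 149) (fin (add (add (add (start D7932) (orK (nat_lit 230) (fin (add (start D41) D7936)))) (orK (nat_lit 209) (fin (add (add (start (orK (nat_lit 150) (fin (add (start D448) D40)))) (orK (nat_lit 208) (fin (add (add (add (start D775) (orK (nat_lit 227) (fin (add (add (add (start (orK (nat_lit 226) (fin (add (start D7941) (orK (nat_lit 228) D2984))))) (orK (nat_lit 207) (fin (add (start D805) (orK (nat_lit 187) (fin (add (start D804) D7946))))))) (orK (nat_lit 228) D5586)) (orK (nat_lit 188) (fin (add (add (add (start (orK (nat_lit 211) (fin (add (start D251) D806)))) (orK (nat_lit 228) (fin (add (start D2685) (orK (nat_lit 168) (fin (add (start D89) D7955))))))) (orK (nat_lit 168) (fin (add (add (start D7955) (orK (nat_lit 247) (fin (add (start D6483) (orK (nat_lit 207) D1653))))) (orK (nat_lit 228) (fin (add (start D89) D3010))))))) D6734))))))) (orK (nat_lit 211) (fin (add (add (start (orK (nat_lit 228)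 (fin (add (start D777) (orK (nat_lit 229) (fin (add (start D248) D7975))))))) D2723) (orK (nat_lit 228) (fin (add (start D777) (orK (nat_lit 188) (fin (add (start D251) (orK (nat_lit 249) (fin (add (add (start (orK (nat_lit 191) (fin (add (start D2101) (orK (nat_lit 248) (fin (add (start D839) (orK (nat_lit 267) (fin (add (start D828) (orK (nat_lit 268) (fin (add (start D829) (orK (nat_lit 250) (fin (add (start D3706) (orK (nat_lit 230) (fin (add (start D10) D3340))))))))))))))))))) (orK (nat_lit 269) (fin (add (start (win (nat_lit 3) (nat_lit 9) (nat_lit 9) (nat_lit 2))) D2926)))) (orK (nat_lit 229) (fin (add (start D7973) D2688)))))))))))))))) (orK (nat_lit 207) (fin (add (start D765) (orK (nat_lit 186) (fin (add (start D766) (orK (nat_lit 206) (fin (add (start D767) (orK (nat_lit 229) D8005)))))))))))))) (orK (nat_lit 208) D8217))))) (orK (nat_lit 129) (fin (add (start D1876) (orK (nat_lit 169) (fin (add (start D1877) (orK (nat_lit 168) (fin (add (add (add (start D8224) (orK (nat_lit 167) (fin (add (start D7219) (orK (nat_lit 146) (fin (add (start D2049) (orK (nat_lit 166) (fin (add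 (start D2048) (orK (nat_lit 165) (fin (add (start D2041) D6877))))))))))))) (orK (nat_lit 171) (fin (add (add (start D8234) (orK (nat_lit 187) (fin (add (start D2081) D7620)))) (orK (nat_lit 148) (fin (add (start D493) (orK (nat_lit 188) (fin (add (start D6014) D679)))))))))) (orK (nat_lit 188) (fin (add (start (orK (nat_lit 208) (fin (add (start D5257) D2579)))) (orK (nat_lit 187) (fin (add (start D2287) (orK (nat_lit 186) (fin (add (start D3259) D2286)))))))))))))))))))))) (orK (nat_lit 230) (fin (add (add (add (start D7936) D7252) D7482) (orK (nat_lit 171) (fin (add (start D2) (orK (nat_lit 191) (fin (add (start D161) (orK (nat_lit 150) (fin (add (start (orK (nat_lit 209) (fin (add (start D448) D195)))) D4654))))))))))))) (orK (nat_lit 209) (fin (add (add (add (start (orK (nat_lit 229) (fin (add (start D207) D7975)))) (orK (nat_lit 208) (fin (add (add (add (start D775) (orK (nat_lit 187) (fin (add (add (add (add (start D8018) (orK (nat_lit 227) (fin (add (add (add (start (orK (nat_lit 211) (fin (add (start D803) D806)))) (orK (nat_lit 226) (fin (add (start D7941) (orK (nat_lit 228) (fin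 (add (start D2982) D2685))))))) (orK (nat_lit 207) D6817)) (orK (nat_lit 207) (fin (add (start D805) D7946))))))) D8046) (orK (nat_lit 188) (fin (add (start D2284) (orK (nat_lit 186) (fin (add (start D2285) (orK (nat_lit 149) (fin (add (add (start D7932) (orK (nat_lit 169) (fin (add (start D1892) (orK (nat_lit 168) (fin (add (start D2579) D2286))))))) (orK (nat_lit 150) (fin (add (start D40) (orK (nat_lit 131) (fin (add (start D347) (orK (nat_lit 130) (fin (add (start D348) (orK (nat_lit 147) (fin (add (start (win (nat_lit 4) (nat_lit 7) (nat_lit 6) (nat_lit 1))) D8033)))))))))))))))))))))) D8047)))) (orK (nat_lit 211) (fin (add (start D2723) (orK (nat_lit 188) (fin (add (start D251) (orK (nat_lit 149) (fin (add (add (start (orK (nat_lit 228) (fin (add (start D777) (orK (nat_lit 169) (fin (add (start D4158) D1892))))))) D7932) (orK (nat_lit 148) (fin (add (add (add (start D8060) (orK (nat_lit 147) (fin (add (add (add (start D8186) (orK (nat_lit 150) (fin (add (start D8320) (orK (nat_lit 146) (fin (add (start D8324) D5746))))))) (orK (nat_lit 228) (fin (add (start D777) (orK (nat_lit 167)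 (fin (add (start D5226) (orK (nat_lit 150) (fin (add (start D630) D8320)))))))))) (orK (nat_lit 127) (fin (add (start D5813) (orK (nat_lit 150) (fin (add (start D626) (orK (nat_lit 151) (fin (add (start D627) D32))))))))))))) D8204) (orK (nat_lit 150) (fin (add (start D40) (orK (nat_lit 131) (fin (add (start D347) (orK (nat_lit 130) (fin (add (start D348) D5377)))))))))))))))))))))) D8216)))) (orK (nat_lit 229) (fin (add (add (start D7975) (orK (nat_lit 211) (fin (add (add (start (orK (nat_lit 208) (fin (add (add (start D2609) D812) (orK (nat_lit 188) (fin (add (start D251) (orK (nat_lit 191) (fin (add (start D2101) (orK (nat_lit 228) (fin (add (start D777) D7498))))))))))))) (orK (nat_lit 212) (fin (add (start D1226) D8374)))) (orK (nat_lit 212) (fin (add (add (start D8374) (orK (nat_lit 192) (fin (add (start D817) (orK (nat_lit 208) (fin (add (start D2702) (orK (nat_lit 187) (fin (add (start D803) (orK (nat_lit 207) (fin (add (start D804) (orK (nat_lit 206) D8005)))))))))))))) D794))))))) D2748)))) D763)))) D8456)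
noncomputable def D6248 : OP := orK (nat_lit 208) (fin (add (start D86) (orK (nat_lit 209) (fin (add (start D2101) (orK (nat_lit 168) (fin (add (start D72) (orK (nat_lit 228) (fin (add (start D777) D1026)))))))))))
noncomputable def D6715 : OP := orK (nat_lit 208) (fin (add (start D86) (orK (nat_lit 209) (fin (add (start D2101) (orK (nat_lit 228) (fin (add (start D777) (orK (nat_lit 169) (fin (add (start D6707) D88)))))))))))
noncomputable def D3296 : OP := orK (nat_lit 173) (fin (add (start D1204) (orK (nat_lit 193) (fin (add (start D1205) D3292)))))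
noncomputable def D3304 : OP := orK (nat_lit 168) (fin (add (start D72) (orK (nat_lit 192) (fin (add (start D1222) D3296)))))
noncomputable def D3479 : OP := orK (nat_lit 192) (fin (add (start D77) D3477))
noncomputable def D3516 : OP := win (nat_lit 5) (nat_lit 4) (nat_lit 9) (nat_lit 5)
noncomputable def D3519 : OP := orK (nat_lit 205) (fin (add (start D3516) (win (nat_lit 5) (nat_lit 5) (nat_lit 9) (nat_lit 4))))
noncomputable def D3515 : OP := win (nat_lit 4) (nat_lit 5) (nat_lit 8) (nat_lit 4)
noncomputable def D3527 : OP := orK (nat_lit 187) (fin (add (start D979) (orK (nat_lit 166) (fin (add (start D2167) (orK (nat_lit 186) (fin (add (start D2166) (orK (nat_lit 185) (fin (add (start D3515) D3519)))))))))))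
noncomputable def D3817 : OP := win (nat_lit 0) (nat_lit 6) (nat_lit 8) (nat_lit 1)
noncomputable def D3812 : OP := orK (nat_lit 167) (fin (add (start D59) D2561))
noncomputable def D3885 : OP := orK (nat_lit 169) (fin (add (add (start D3472) (orK (nat_lit 188) (fin (add (add (start D3336) (orK (nat_lit 168) (fin (add (add (start D3812) (orK (nat_lit 191) D3815)) (orK (nat_lit 166) (fin (add (start D3817) (orK (nat_lit 148) (fin (add (add (start (orK (nat_lit 128) (fin (add (start D3818) (orK (nat_lit 129) (fin (add (start D3074) D3819))))))) (orK (nat_lit 149) (fin (add (start D284) (orK (nat_lit 208) (fin (add (start D2579) (orK (nat_lit 207) (fin (add (start D3824) (orK (nat_lit 147) (fin (add (start D3012) (orK (nat_lit 146) (fin (add (start D3311) D3825)))))))))))))))) (orK (nat_lit 128) (fin (add (start D3818) (orK (nat_lit 127) (fin (add (start D3080) (orK (nat_lit 208) (fin (add (start D3081) (orK (nat_lit 227) (fin (add (start D1666) (orK (nat_lit 228) (fin (add (start D89) D88))))))))))))))))))))))))) D3527)))) (orK (nat_lit 230) (fin (add (start D283) (orK (nat_lit 191) (fin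 (add (add (add (start D334) (orK (nat_lit 192) (fin (add (start D306) D3857)))) (orK (nat_lit 188) (fin (add (add (start D131) D141) (orK (nat_lit 211) (fin (add (start D87) (orK (nat_lit 168) (fin (add (start D72) D3861)))))))))) (orK (nat_lit 212) (fin (add (add (start D420) D3479) (orK (nat_lit 188) (fin (add (start D76) (orK (nat_lit 207) (fin (add (start D135) (orK (nat_lit 187) (fin (add (start D134) (orK (nat_lit 166) (fin (add (start D2167) (orK (nat_lit 186) (fin (add (start D2166) D310))))))))))))))))))))))))))
noncomputable def D3606 : OP := orK (nat_lit 228) (fin (add (start D3008) (orK (nat_lit 227) (fin (add (start D89) D3602)))))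
noncomputable def D3616 : OP := orK (nat_lit 211) (fin (add (start D87) (orK (nat_lit 168) (fin (add (start D72) (orK (nat_lit 208) (fin (add (start D86) (orK (nat_lit 229) (fin (add (start D3606) (orK (nat_lit 148) (fin (add (start D1665) D3309))))))))))))))
noncomputable def D3587 : OP := orK (nat_lit 212) (fin (add (start D76) D77))
noncomputable def D3595 : OP := orK (nat_lit 192) (fin (add (add (add (start D3587) D3228) D3591) (orK (nat_lit 211) (fin (add (start D87) D3296)))))
noncomputable def D3620 : OP := orK (nat_lit 188) (fin (add (add (add (start D3421) (orK (nat_lit 191) (fin (add (add (start D3595) (orK (nat_lit 208) (fin (add (start D86) (orK (nat_lit 209) D3596))))) D3616)))) D3334) D3336))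
noncomputable def D7097 : OP := win (nat_lit 1) (nat_lit 7) (nat_lit 7) (nat_lit 1)
noncomputable def D2022 : OP := win (nat_lit 1) (nat_lit 8) (nat_lit 7) (nat_lit 4)
noncomputable def D3398 : OP := win (nat_lit 7) (nat_lit 8) (nat_lit 8) (nat_lit 5)
noncomputable def D1273 : AP := fin (add (start D1271) D1272)
noncomputable def D1252 : OP := win (nat_lit 5) (nat_lit 6) (nat_lit 11) (nat_lit 5)
noncomputable def D1250 : OP := win (nat_lit 2) (nat_lit 6) (nat_lit 10) (nat_lit 5)
noncomputable def D2895 : OP := win (nat_lit 2) (nat_lit 5) (nat_lit 10) (nat_lit 5)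
noncomputable def D2894 : OP := win (nat_lit 2) (nat_lit 6) (nat_lit 10) (nat_lit 4)
noncomputable def D2936 : OP := orK (nat_lit 206) (fin (add (start D2894) (orK (nat_lit 226) (fin (add (start D2895) (orK (nat_lit 246) (fin (add (start (win (nat_lit 5) (nat_lit 5) (nat_lit 11) (nat_lit 5))) (win (nat_lit 5) (nat_lit 6) (nat_lit 11) (nat_lit 4))))))))))
noncomputable def D386 : OP := win (nat_lit 4) (nat_lit 7) (nat_lit 10) (nat_lit 5)
noncomputable def D2938 : OP := orK (nat_lit 227) (fin (add (start D386) D2936))
noncomputable def D3539 : OP := orK (nat_lit 208) D3538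
noncomputable def D2940 : OP := orK (nat_lit 228) (fin (add (start (orK (nat_lit 208) (fin (add (start D2688) D2926)))) D2938))
noncomputable def D1484 : OP := win (nat_lit 3) (nat_lit 9) (nat_lit 10) (nat_lit 0)
noncomputable def D1223 : OP := win (nat_lit 7) (nat_lit 8) (nat_lit 8) (nat_lit 4)
noncomputable def D388 : OP := orK (nat_lit 227) (fin (add (start D385) D386))
noncomputable def D390 : OP := orK (nat_lit 228) (fin (add (start D384) D388))
noncomputable def D1486 : OP := orK (nat_lit 269) (fin (add (start (win (nat_lit 3) (nat_lit 9) (nat_lit 9) (nat_lit 3))) D1484))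
noncomputable def D1488 : OP := orK (nat_lit 249) (fin (add (start D178) D1486))
noncomputable def D3581 : OP := orK (nat_lit 229) (fin (add (add (add (start D1488) (orK (nat_lit 209) (fin (add (add (start D390) (orK (nat_lit 168) (fin (add (start D1722) (orK (nat_lit 188) (fin (add (start D3492) (orK (nat_lit 187) (fin (add (start D1006) (orK (nat_lit 211) (fin (add (start (win (nat_lit 2) (nat_lit 7) (nat_lit 9) (nat_lit 3))) D3494))))))))))))) (orK (nat_lit 248) (fin (add (start D1232) (orK (nat_lit 249) (fin (add (start D1231) (orK (nat_lit 168) (fin (add (start D1722) D1223))))))))))))) (orK (nat_lit 188) (fin (add (add (add (start (orK (nat_lit 187) (fin (add (start D979) (orK (nat_lit 170) (fin (add (start D30) D2160))))))) D3527) (orK (nat_lit 249) (fin (add (start D178) (orK (nat_lit 269) (fin (add (start D1484) D2940))))))) (orK (nat_lit 170) (fin (add (start D30) (orK (nat_lit 187) (fin (add (start D2160) (orK (nat_lit 167) (fin (add (start D133) (orK (nat_lit 207) (fin (add (start D134) (orK (nat_lit 147) (fin (add (start (orK (nat_lit 146) (fin (add (start (win (nat_lit 2)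 (nat_lit 6) (nat_lit 7) (nat_lit 2))) D3533)))) D3539))))))))))))))))))) (orK (nat_lit 228) (fin (add (add (start D2938) (orK (nat_lit 209) (fin (add (start D384) (orK (nat_lit 170) (fin (add (start D207) (orK (nat_lit 211) (fin (add (start D248) (orK (nat_lit 187) (fin (add (start D3553) D3557))))))))))))) (orK (nat_lit 227) (fin (add (add (start (orK (nat_lit 209) (fin (add (start D384) D385)))) D2936) (orK (nat_lit 248) (fin (add (start (win (nat_lit 1) (nat_lit 8) (nat_lit 8) (nat_lit 2))) (orK (nat_lit 207) (fin (add (start D1250) (orK (nat_lit 247) (fin (add (start D1252) (orK (nat_lit 187) D1273))))))))))))))))))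
noncomputable def D3487 : OP := orK (nat_lit 149) (fin (add (start D284) (orK (nat_lit 208) (fin (add (start D3475) (orK (nat_lit 191) (fin (add (start D86) (orK (nat_lit 212) (fin (add (start D76) D3479)))))))))))
noncomputable def D3447 : OP := orK (nat_lit 227) (fin (add (start D90) D2532))
noncomputable def D3449 : OP := orK (nat_lit 228) (fin (add (start D88) D3447))
noncomputable def D7375 : OP := orK (nat_lit 208) (fin (add (add (start D3449) D2527) (orK (nat_lit 228) (fin (add (start D88) (orK (nat_lit 229) (fin (add (start D247) (orK (nat_lit 170) (fin (add (start D30) (orK (nat_lit 191) (fin (add (start D86) (orK (nat_lit 192) (fin (add (start D1959) (orK (nat_lit 172) (fin (add (start D221) (orK (nat_lit 150) (fin (add (start D7355) (orK (nat_lit 152) (fin (add (start D2408) (orK (nat_lit 151) (fin (add (start D32) D2433)))))))))))))))))))))))))))))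
noncomputable def D6729 : OP := orK (nat_lit 187) (fin (add (add (start D2171) D3238) (orK (nat_lit 207) (fin (add (start D134) (orK (nat_lit 208) (fin (add (start D2521) D6723))))))))
noncomputable def D3395 : OP := orK (nat_lit 188) D3335
noncomputable def D3394 : OP := orK (nat_lit 188) D3333
noncomputable def D3310 : OP := win (nat_lit 6) (nat_lit 9) (nat_lit 7) (nat_lit 5)
noncomputable def D3802 : OP := orK (nat_lit 149) (fin (add (start D284) D3310))
noncomputable def D3697 : OP := win (nat_lit 6) (nat_lit 9) (nat_lit 9) (nat_lit 5)
noncomputable def D7216 : OP := orK (nat_lit 131) (fin (add (start D347) (orK (nat_lit 130) (fin (add (start D348) D7212)))))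
noncomputable def D7218 : OP := orK (nat_lit 150) (fin (add (add (add (start D43) (orK (nat_lit 131) (fin (add (start D347) (orK (nat_lit 130) (fin (add (start D348) (orK (nat_lit 169) (fin (add (start D1934) D20)))))))))) D7216) D565))
noncomputable def D184 : OP := orK (nat_lit 251) (fin (add (start D127) D182))
noncomputable def D298 : OP := orK (nat_lit 271) (fin (add (start D12) (orK (nat_lit 270) (fin (add (start D13) D290)))))
noncomputable def D294 : OP := orK (nat_lit 269) (fin (add (start D115) (orK (nat_lit 270) (fin (add (start D116) D290)))))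
noncomputable def D300 : OP := orK (nat_lit 250) (fin (add (add (start D294) D298) (orK (nat_lit 249) (fin (add (start D0) (orK (nat_lit 229) (fin (add (start D178) D184))))))))
noncomputable def D286 : AP := fin (add (start D284) D285)
noncomputable def D287 : OP := orK (nat_lit 149) D286
noncomputable def D288 : AP := fin (add (start D283) D287)
noncomputable def D289 : OP := orK (nat_lit 169) D288
noncomputable def D5858 : OP := win (nat_lit 3) (nat_lit 8) (nat_lit 4) (nat_lit 5)
noncomputable def D5859 : OP := win (nat_lit 3) (nat_lit 8) (nat_lit 5) (nat_lit 4)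
noncomputable def D3271 : OP := win (nat_lit 2) (nat_lit 4) (nat_lit 8) (nat_lit 5)
noncomputable def D3270 : OP := win (nat_lit 2) (nat_lit 5) (nat_lit 8) (nat_lit 4)
noncomputable def D3284 : OP := orK (nat_lit 187) (fin (add (add (add (start D2171) D3258) (orK (nat_lit 207) (fin (add (start D134) (orK (nat_lit 186) (fin (add (start D309) (orK (nat_lit 191) (fin (add (start D135) (orK (nat_lit 168) (fin (add (start D72) (orK (nat_lit 169) (fin (add (start D73) D3259)))))))))))))))) (orK (nat_lit 186) (fin (add (start D309) (orK (nat_lit 165) (fin (add (start D3270) (orK (nat_lit 185) (fin (add (start D3271) (orK (nat_lit 207) (fin (add (start D134) (orK (nat_lit 208) (fin (add (start (win (nat_lit 0) (nat_lit 4) (nat_lit 9) (nat_lit 0))) D2521)))))))))))))))))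
noncomputable def D3338 : OP := orK (nat_lit 188) (fin (add (add (add (start D3284) (orK (nat_lit 211) (fin (add (add (start D2518) D2520) (orK (nat_lit 191) (fin (add (add (start (orK (nat_lit 208) (fin (add (start D86) (orK (nat_lit 192) (fin (add (start (win (nat_lit 4) (nat_lit 8) (nat_lit 9) (nat_lit 1))) D3296))))))) D3304) (orK (nat_lit 208) (fin (add (start D86) (orK (nat_lit 168) (fin (add (start D72) (orK (nat_lit 148) (fin (add (add (start D3305) D3309) (orK (nat_lit 149) (fin (add (start D2998) (orK (nat_lit 209) (fin (add (start D1024) (orK (nat_lit 169) (fin (add (start D3310) (orK (nat_lit 147) (fin (add (start D3012) (orK (nat_lit 146) (fin (add (start D3311) (win (nat_lit 0) (nat_lit 6) (nat_lit 7) (nat_lit 5))))))))))))))))))))))))))))))))) D3334) D3336))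
noncomputable def D2954 : OP := orK (nat_lit 209) (fin (add (start D1722) D390))
noncomputable def D3936 : OP := win (nat_lit 2) (nat_lit 8) (nat_lit 8) (nat_lit 1)
noncomputable def D7477 : AP := fin (add (add (add (add (add (add (add (add (add (add (start (orK (nat_lit 230) (fin (add (add (add (start D289) D300) D305) (orK (nat_lit 170) (fin (add (add (add (start D7218) (orK (nat_lit 169) (fin (add (start D20) (orK (nat_lit 168) (fin (add (add (start D7221) (orK (nat_lit 229) (fin (add (start D30) (orK (nat_lit 192) (fin (add (start D3936) D2954))))))) (orK (nat_lit 167) (fin (add (start D59) (orK (nat_lit 229) (fin (add (start D30) D2954))))))))))))) (orK (nat_lit 229) (fin (add (start D30) (orK (nat_lit 150) (fin (add (start D31) (orK (nat_lit 131) (fin (add (start D347) (orK (nat_lit 130) (fin (add (start D348) (orK (nat_lit 110) (fin (add (start D571) (orK (nat_lit 211) (fin (add (start D3364) (orK (nat_lit 213) (fin (add (start (win (nat_lit 2) (nat_lit 9) (nat_lit 9) (nat_lit 1))) D525)))))))))))))))))))))) D7252))))))) D3338) (orK (nat_lit 188) (fin (add (add (add (start D6729)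 (orK (nat_lit 212) (fin (add (add (add (start D7257) D7258) D7259) (orK (nat_lit 191) (fin (add (add (start D1698) D146) (orK (nat_lit 208) (fin (add (start D86) (orK (nat_lit 168) (fin (add (start D72) (orK (nat_lit 229) (fin (add (add (start (orK (nat_lit 209) (fin (add (start D258) D3492)))) (orK (nat_lit 228) (fin (add (start D3008) (orK (nat_lit 247) (fin (add (start D2543) (orK (nat_lit 248) (fin (add (start D2542) D824)))))))))) (orK (nat_lit 148) (fin (add (start D1665) (orK (nat_lit 127) (fin (add (start D3081) (orK (nat_lit 128) (fin (add (start D3080) (orK (nat_lit 109) (fin (add (start D5859) (orK (nat_lit 108) (fin (add (start D5858) (win (nat_lit 6) (nat_lit 8) (nat_lit 5) (nat_lit 4))))))))))))))))))))))))))))))))) D3334) D3336)))) (orK (nat_lit 230) (fin (add (add (add (start D289) D300) D305) (orK (nat_lit 170) (fin (add (add (add (start D7218) (orK (nat_lit 169) (fin (add (start D20) (orK (nat_lit 229) (fin (add (start D30) (orK (nat_lit 168) (fin (add (add (start D7221) (orK (nat_lit 191) (fin (add (start D73) (orK (nat_lit 209) (fin (add (start D1722) (orK (nat_lit 228)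 (fin (add (start D384) (orK (nat_lit 227) (fin (add (start D385) (orK (nat_lit 207) (fin (add (start D1250) D2431)))))))))))))))) (orK (nat_lit 167) (fin (add (start D59) (orK (nat_lit 187) (fin (add (start D2080) (orK (nat_lit 148) (fin (add (start (win (nat_lit 7) (nat_lit 8) (nat_lit 7) (nat_lit 1))) (orK (nat_lit 128) (fin (add (start D4062) (orK (nat_lit 207) (fin (add (start (win (nat_lit 1) (nat_lit 7) (nat_lit 6) (nat_lit 3))) D4063))))))))))))))))))))))))) (orK (nat_lit 229) (fin (add (start D30) (orK (nat_lit 150) (fin (add (start D31) D7216))))))) D7252))))))) (orK (nat_lit 211) (fin (add (add (add (start (orK (nat_lit 212) (fin (add (start D418) (orK (nat_lit 209) (fin (add (add (start (orK (nat_lit 192) (fin (add (start D817) (orK (nat_lit 208) (fin (add (start D2702) D780))))))) (orK (nat_lit 229) (fin (add (start D1226) (orK (nat_lit 249) (fin (add (start D751) (orK (nat_lit 250) (fin (add (start D3697) (orK (nat_lit 169) (fin (add (start (win (nat_lit 6) (nat_lit 9) (nat_lit 8) (nat_lit 4))) D7334))))))))))))) (orK (nat_lit 192) (fin (add (start D817) (orK (nat_lit 191)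 (fin (add (start (win (nat_lit 4) (nat_lit 8) (nat_lit 9) (nat_lit 0))) (orK (nat_lit 232) (fin (add (start D1313) (orK (nat_lit 169) (fin (add (start D306) D3802))))))))))))))))))) D3394) D3395) (orK (nat_lit 188) (fin (add (start D129) (orK (nat_lit 169) (fin (add (add (add (start (orK (nat_lit 230) (fin (add (start D283) D7375)))) D3468) D3472) (orK (nat_lit 149) (fin (add (start D284) (orK (nat_lit 209) (fin (add (start D3967) (orK (nat_lit 150) (fin (add (start D3945) (orK (nat_lit 229) (fin (add (start D1241) D7332)))))))))))))))))))))) (orK (nat_lit 188) (fin (add (add (add (start D6729) (orK (nat_lit 169) (fin (add (add (add (start (orK (nat_lit 230) (fin (add (start D283) (orK (nat_lit 211) (fin (add (add (start D2518) D2520) D7375))))))) D3468) D3472) D3487)))) D3334) D3336)))) (orK (nat_lit 169) (fin (add (add (start (orK (nat_lit 230) (fin (add (start D283) D3581)))) (orK (nat_lit 149) (fin (add (start D284) (orK (nat_lit 209) (fin (add (add (add (start (orK (nat_lit 148) (fin (add (start D2016) (orK (nat_lit 168) (fin (add (start D3937) (orK (nat_lit 167) (fin (add (start D59)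 (orK (nat_lit 150) (fin (add (start D3945) D7406))))))))))))) (orK (nat_lit 228) (fin (add (start D2022) (orK (nat_lit 229) (fin (add (start D384) (orK (nat_lit 249) (fin (add (start D751) (orK (nat_lit 211) (fin (add (start D248) (orK (nat_lit 188) (fin (add (start D129) D3398)))))))))))))))) (orK (nat_lit 150) (fin (add (start D3945) (orK (nat_lit 128) (fin (add (start (win (nat_lit 7) (nat_lit 8) (nat_lit 6) (nat_lit 4))) (orK (nat_lit 211) (fin (add (add (start D7427) (orK (nat_lit 228) (fin (add (start D2022) (orK (nat_lit 229) (fin (add (start D384) D248))))))) (orK (nat_lit 187) (fin (add (start D3553) D7434))))))))))))) (orK (nat_lit 208) (fin (add (start D3944) (orK (nat_lit 207) (fin (add (start D3946) (orK (nat_lit 187) (fin (add (start D804) (orK (nat_lit 188) (fin (add (start D979) (orK (nat_lit 167) (fin (add (start D133) (orK (nat_lit 227) (fin (add (start D805) (orK (nat_lit 148) (fin (add (start D7097) D2016)))))))))))))))))))))))))))) D3472)))) D3620) D3885) (orK (nat_lit 188) (fin (add (add (add (start D3421) (orK (nat_lit 211) (fin (add (add (start D2518) D2520) (orK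 (nat_lit 191) (fin (add (add (add (start D3304) D6715) D6248) (orK (nat_lit 208) (fin (add (start D86) D2577)))))))))) D3334) D3336)))) D7476)
noncomputable def D4162 : OP := orK (nat_lit 169) (fin (add (start D88) (orK (nat_lit 149) (fin (add (start D2578) D4158)))))
noncomputable def D6699 : AP := fin (add (start D2521) (orK (nat_lit 206) (fin (add (start D2522) (win (nat_lit 5) (nat_lit 6) (nat_lit 9) (nat_lit 3))))))
noncomputable def D6700 : OP := orK (nat_lit 207) D6699
noncomputable def D7182 : OP := orK (nat_lit 167) (fin (add (add (add (start (orK (nat_lit 166) (fin (add (start (win (nat_lit 2) (nat_lit 6) (nat_lit 8) (nat_lit 3))) (orK (nat_lit 168) D7151))))) (orK (nat_lit 187) (fin (add (start D133) (orK (nat_lit 207) (fin (add (start D134) (orK (nat_lit 208) (fin (add (start D2521) D4022)))))))))) (orK (nat_lit 208) (fin (add (add (start D6700) (orK (nat_lit 228) (fin (add (add (start (orK (nat_lit 248) (fin (add (start D824) D3124)))) (orK (nat_lit 147) (fin (add (start D5226) (orK (nat_lit 187) (fin (add (start D3536) (win (nat_lit 6) (nat_lit 7) (nat_lit 7) (nat_lit 3)))))))))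 D4162)))) (orK (nat_lit 168) (fin (add (start D2561) (orK (nat_lit 228) (fin (add (start D260) D6335)))))))))) (orK (nat_lit 168) D7179)))
noncomputable def D6383 : OP := orK (nat_lit 187) (fin (add (add (start D3238) (orK (nat_lit 167) (fin (add (start D133) (orK (nat_lit 191) (fin (add (start D132) (orK (nat_lit 172) (fin (add (start D1757) (orK (nat_lit 192) (fin (add (start D221) D6369))))))))))))) D6381))
noncomputable def D4176 : OP := orK (nat_lit 228) (fin (add (start D4158) D88))
noncomputable def D3911 : OP := orK (nat_lit 186) (fin (add (start D309) (orK (nat_lit 165) (fin (add (start D3270) (orK (nat_lit 185) (fin (add (start D3271) D3515))))))))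
noncomputable def D3919 : OP := orK (nat_lit 207) (fin (add (start D135) (orK (nat_lit 187) (fin (add (start D134) D3911)))))
noncomputable def D6706 : OP := orK (nat_lit 169) (fin (add (add (start D287) (orK (nat_lit 191) (fin (add (add (start (orK (nat_lit 192) (fin (add (start D306) D1759)))) D3919) D6693)))) (orK (nat_lit 149) (fin (add (start D284) (orK (nat_lit 208) (fin (add (start D4176) D6700))))))))
noncomputable def D2999 : OP := win (nat_lit 6) (nat_lit 9) (nat_lit 7) (nat_lit 1)
noncomputable def D2824 : OP := win (nat_lit 6) (nat_lit 9) (nat_lit 7) (nat_lit 0)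
noncomputable def D5576 : AP := fin (add (start D1023) (orK (nat_lit 229) (fin (add (start D680) D3492))))
noncomputable def D5577 : OP := orK (nat_lit 148) D5576
noncomputable def D6685 : OP := orK (nat_lit 191) (fin (add (add (add (start D3425) (orK (nat_lit 172) (fin (add (start D1757) (orK (nat_lit 192) (fin (add (start D221) D327))))))) (orK (nat_lit 168) (fin (add (start D72) (orK (nat_lit 192) (fin (add (start D1222) D327))))))) (orK (nat_lit 171) (fin (add (start D218) (orK (nat_lit 131) (fin (add (start D6157) (orK (nat_lit 168) (fin (add (start D72) (orK (nat_lit 209) (fin (add (add (add (start (orK (nat_lit 169) (fin (add (start D2824) (orK (nat_lit 229) (fin (add (start D3492) (orK (nat_lit 228) (fin (add (start D384) (orK (nat_lit 227) (fin (add (start D385) (orK (nat_lit 247) (fin (add (start (win (nat_lit 1) (nat_lit 7) (nat_lit 8) (nat_lit 2))) D1252)))))))))))))))) D5577) (orK (nat_lit 148) (fin (add (start D1023) (orK (nat_lit 169) (fin (add (start D2824) D3937))))))) (orK (nat_lit 149) (fin (add (start D2999) (orK (nat_lit 148) (fin (add (start D1023) (orK (nat_lit 129)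 (fin (add (start D6014) (orK (nat_lit 130) (fin (add (start D6664) (orK (nat_lit 147) (fin (add (start D5347) (win (nat_lit 4) (nat_lit 7) (nat_lit 6) (nat_lit 3)))))))))))))))))))))))))))))))
noncomputable def D3055 : OP := win (nat_lit 1) (nat_lit 10) (nat_lit 7) (nat_lit 0)
noncomputable def D6260 : OP := orK (nat_lit 171) (fin (add (start D3055) D218))
noncomputable def D6262 : OP := orK (nat_lit 211) (fin (add (start D87) D6260))
noncomputable def D6365 : OP := orK (nat_lit 191) (fin (add (add (start D6262) (orK (nat_lit 192) (fin (add (start D3587) D1696)))) D6363))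
noncomputable def D6740 : AP := fin (add (start D765) (orK (nat_lit 187) (fin (add (start D804) (orK (nat_lit 227) (fin (add (start D805) D4015)))))))
noncomputable def D6741 : OP := orK (nat_lit 207) D6740
noncomputable def D2910 : OP := win (nat_lit 0) (nat_lit 5) (nat_lit 10) (nat_lit 0)
noncomputable def D7073 : OP := orK (nat_lit 224) (fin (add (start (win (nat_lit 5) (nat_lit 3) (nat_lit 10) (nat_lit 5))) (win (nat_lit 5) (nat_lit 4) (nat_lit 10) (nat_lit 4))))
noncomputable def D7081 : OP := orK (nat_lit 229) (fin (add (start D7067) (orK (nat_lit 205) (fin (add (start D2732) (orK (nat_lit 184) (fin (add (start (win (nat_lit 2) (nat_lit 4) (nat_lit 9) (nat_lit 4))) (orK (nat_lit 204) (fin (add (start (win (nat_lit 2) (nat_lit 3) (nat_lit 9) (nat_lit 5))) D7073)))))))))))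
noncomputable def D7012 : OP := orK (nat_lit 186) (fin (add (start D767) D766))
noncomputable def D6820 : OP := orK (nat_lit 187) D6819
noncomputable def D6922 : OP := win (nat_lit 0) (nat_lit 6) (nat_lit 10) (nat_lit 4)
noncomputable def D6926 : OP := orK (nat_lit 207) (fin (add (start D765) (orK (nat_lit 206) (fin (add (start D6922) D6797)))))
noncomputable def D6462 : OP := win (nat_lit 0) (nat_lit 5) (nat_lit 7) (nat_lit 5)
noncomputable def D6472 : OP := orK (nat_lit 166) (fin (add (start D2034) (win (nat_lit 5) (nat_lit 6) (nat_lit 7) (nat_lit 0))))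
noncomputable def D6523 : OP := orK (nat_lit 148) (fin (add (start D2998) (orK (nat_lit 147) (fin (add (start D3012) (orK (nat_lit 167) (fin (add (start D5144) D6472))))))))
noncomputable def D3126 : OP := orK (nat_lit 167) (fin (add (start D260) D3124))
noncomputable def D6505 : OP := win (nat_lit 1) (nat_lit 8) (nat_lit 5) (nat_lit 0)
noncomputable def D6509 : OP := orK (nat_lit 129) (fin (add (start D5257) (orK (nat_lit 169) (fin (add (start D6505) D2579)))))
noncomputable def D5808 : OP := orK (nat_lit 247) (fin (add (start D2543) (orK (nat_lit 248) (fin (add (start D2542) D3126)))))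
noncomputable def D5804 : OP := orK (nat_lit 249) (fin (add (start D2544) (orK (nat_lit 248) (fin (add (start D839) D3126)))))
noncomputable def D2987 : OP := orK (nat_lit 227) (fin (add (start D89) D2985))
noncomputable def D5810 : OP := orK (nat_lit 228) (fin (add (add (start D2987) D5804) D5808))
noncomputable def D5133 : OP := orK (nat_lit 148) (fin (add (start D1024) D3309))
noncomputable def D2279 : OP := win (nat_lit 6) (nat_lit 8) (nat_lit 8) (nat_lit 3)
noncomputable def D2981 : OP := orK (nat_lit 229) (fin (add (start D258) (orK (nat_lit 249) (fin (add (start D751) D2279)))))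
noncomputable def D7060 : OP := orK (nat_lit 168) (fin (add (add (add (start D2981) D5133) D5810) (orK (nat_lit 149) (fin (add (add (add (start D6509) (orK (nat_lit 228) (fin (add (start D3011) (orK (nat_lit 247) (fin (add (start D2543) (orK (nat_lit 248) (fin (add (start D2542) (orK (nat_lit 269) (fin (add (start D830) D3126))))))))))))) D6523) (orK (nat_lit 148) (fin (add (start D2998) (orK (nat_lit 147) (fin (add (start D3012) (orK (nat_lit 166) (fin (add (start (orK (nat_lit 150) (fin (add (start D5744) (orK (nat_lit 131) (fin (add (start D5544) (orK (nat_lit 151) (fin (add (start D5378) (orK (nat_lit 171) (fin (add (start D605) D1949))))))))))))) (orK (nat_lit 146) (fin (add (start D3825) (orK (nat_lit 145) (fin (add (start D6462) (orK (nat_lit 125) (fin (add (start D7043) D7044)))))))))))))))))))))))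
noncomputable def D7016 : OP := orK (nat_lit 207) (fin (add (start D765) (orK (nat_lit 206) (fin (add (start D6922) D7012)))))
noncomputable def D5223 : OP := orK (nat_lit 247) (fin (add (start D2533) (orK (nat_lit 267) (fin (add (start D5219) D2535)))))
noncomputable def D5225 : OP := orK (nat_lit 227) (fin (add (start D2685) D5223))
noncomputable def D3117 : OP := orK (nat_lit 168) D3009
noncomputable def D5589 : OP := orK (nat_lit 229) (fin (add (start D1251) D3117))
noncomputable def D3024 : OP := orK (nat_lit 289) (fin (add (start (win (nat_lit 6) (nat_lit 8) (nat_lit 10) (nat_lit 4))) (win (nat_lit 6) (nat_lit 8) (nat_lit 11) (nat_lit 5))))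
noncomputable def D3026 : OP := orK (nat_lit 288) (fin (add (start (win (nat_lit 3) (nat_lit 8) (nat_lit 10) (nat_lit 4))) D3024))
noncomputable def D3030 : OP := orK (nat_lit 267) (fin (add (start D828) (orK (nat_lit 268) (fin (add (start D829) D3026)))))
noncomputable def D4912 : OP := win (nat_lit 4) (nat_lit 6) (nat_lit 11) (nat_lit 5)
noncomputable def D5596 : OP := win (nat_lit 4) (nat_lit 5) (nat_lit 11) (nat_lit 0)
noncomputable def D5612 : OP := orK (nat_lit 228) (fin (add (add (start (orK (nat_lit 227) D5586)) (orK (nat_lit 248) (fin (add (add (add (add (start D837) (orK (nat_lit 268) (fin (add (add (start D5589) D833) D3026)))) (orK (nat_lit 249) (fin (add (start D839) (orK (nat_lit 229) (fin (add (start D2688) (orK (nat_lit 247) (fin (add (start D2542) (orK (nat_lit 246) (fin (add (start D5596) D4912))))))))))))) D3030) (orK (nat_lit 267) (fin (add (start D828) (orK (nat_lit 268) (fin (add (start D829) D5589)))))))))) D5225))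
noncomputable def D6928 : OP := orK (nat_lit 209) (fin (add (add (start D775) D5612) D6926))
noncomputable def D5855 : OP := win (nat_lit 1) (nat_lit 7) (nat_lit 5) (nat_lit 4)
noncomputable def D6078 : OP := win (nat_lit 1) (nat_lit 7) (nat_lit 6) (nat_lit 5)
noncomputable def D6457 : OP := orK (nat_lit 229) (fin (add (start D386) D3008))
noncomputable def D6458 : AP := fin (add (start D89) D6457)
noncomputable def D6459 : OP := orK (nat_lit 227) D6458
noncomputable def D1655 : AP := fin (add (start D1646) (orK (nat_lit 247) D1653))
noncomputable def D1656 : OP := orK (nat_lit 207) D1655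
noncomputable def D5097 : OP := win (nat_lit 1) (nat_lit 7) (nat_lit 6) (nat_lit 4)
noncomputable def D5978 : OP := orK (nat_lit 128) (fin (add (start D5097) D3083))
noncomputable def D5980 : OP := orK (nat_lit 207) (fin (add (start D3824) D5978))
noncomputable def D5974 : OP := orK (nat_lit 128) (fin (add (start D5097) D5972))
noncomputable def D5976 : OP := orK (nat_lit 207) (fin (add (start D3824) D5974))
noncomputable def D4301 : AP := fin (add (start (orK (nat_lit 247) (fin (add (start D2543) D2542)))) D3126)
noncomputable def D5852 : OP := orK (nat_lit 248) D4301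
noncomputable def D4273 : AP := fin (add (start D2546) D3126)
noncomputable def D6455 : OP := orK (nat_lit 248) D4273
noncomputable def D6547 : OP := orK (nat_lit 168) (fin (add (add (add (add (start (orK (nat_lit 228) (fin (add (add (start D6455) D5852) D6459)))) (orK (nat_lit 148) (fin (add (add (add (start D5976) D5980) D3309) (orK (nat_lit 147) (fin (add (start D3012) (orK (nat_lit 149) (fin (add (start D2998) (orK (nat_lit 207) (fin (add (start D3824) (orK (nat_lit 167) (fin (add (start (orK (nat_lit 146) (fin (add (start (orK (nat_lit 145) (fin (add (start D4110) D6462)))) (orK (nat_lit 126) (fin (add (start D5355) (win (nat_lit 7) (nat_lit 6) (nat_lit 6) (nat_lit 1))))))))) D6472)))))))))))))))) (orK (nat_lit 227) (fin (add (add (start (orK (nat_lit 228) D6458)) D1656) (orK (nat_lit 148) (fin (add (start D1666) (orK (nat_lit 149) (fin (add (start D2998) (orK (nat_lit 228) (fin (add (start D3011) D6457))))))))))))) (orK (nat_lit 228) (fin (add (start D6459) (orK (nat_lit 148) (fin (add (start D6306) D3015))))))) (orK (nat_lit 149) (fin (add (add (add (start D6509) (orK (nat_lit 228)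 (fin (add (start D3011) (orK (nat_lit 249) (fin (add (start D2544) (orK (nat_lit 248) (fin (add (start D839) (orK (nat_lit 267) (fin (add (start D828) D3126))))))))))))) D6523) (orK (nat_lit 148) (fin (add (start D2998) (orK (nat_lit 127) (fin (add (start D3081) (orK (nat_lit 128) (fin (add (start D3080) (orK (nat_lit 187) (fin (add (start D6078) (orK (nat_lit 108) (fin (add (start D5855) (orK (nat_lit 125) (fin (add (start (win (nat_lit 0) (nat_lit 5) (nat_lit 6) (nat_lit 1))) (orK (nat_lit 89) (fin (add (start (win (nat_lit 3) (nat_lit 8) (nat_lit 4) (nat_lit 4))) (orK (nat_lit 88) (fin (add (start (win (nat_lit 3) (nat_lit 8) (nat_lit 3) (nat_lit 5))) (win (nat_lit 6) (nat_lit 8) (nat_lit 4) (nat_lit 5)))))))))))))))))))))))))))))))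
noncomputable def D6743 : OP := orK (nat_lit 209) (fin (add (add (add (start D6734) D775) D6735) D6741))
noncomputable def D6989 : OP := orK (nat_lit 191) (fin (add (start D86) (orK (nat_lit 168) (fin (add (start D72) (orK (nat_lit 192) (fin (add (start D1222) (orK (nat_lit 213) (fin (add (start D923) D1759)))))))))))
noncomputable def D6866 : OP := orK (nat_lit 229) (fin (add (start D3008) (orK (nat_lit 148) (fin (add (start D1665) D3015)))))
noncomputable def D5717 : AP := fin (add (start D2688) (orK (nat_lit 269) (fin (add (start D2926) (win (nat_lit 7) (nat_lit 8) (nat_lit 10) (nat_lit 0))))))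
noncomputable def D5438 : AP := fin (add (start D3074) D5085)
noncomputable def D6955 : OP := orK (nat_lit 228) (fin (add (add (add (start D2558) (orK (nat_lit 249) (fin (add (add (start (orK (nat_lit 248) (fin (add (start D839) D2556)))) (orK (nat_lit 168) (fin (add (start D2544) (orK (nat_lit 147) (fin (add (start D3013) (orK (nat_lit 148) (fin (add (start D3012) (orK (nat_lit 129) (fin (add (start D3073) (orK (nat_lit 128) D5438)))))))))))))) (orK (nat_lit 229) D5717))))) D4162) (orK (nat_lit 168) (fin (add (add (start D6304) (orK (nat_lit 149) (fin (add (start D3011) (orK (nat_lit 148) (fin (add (start D2998) D3305))))))) D6866)))))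
noncomputable def D4284 : OP := orK (nat_lit 227) (fin (add (start D386) (orK (nat_lit 207) (fin (add (start D1250) (orK (nat_lit 247) (fin (add (start D1652) D1252))))))))
noncomputable def D4292 : OP := orK (nat_lit 269) (fin (add (start D1484) D2926))
noncomputable def D6957 : OP := orK (nat_lit 248) (fin (add (start D824) D837))
noncomputable def D6903 : AP := fin (add (start D6505) (win (nat_lit 1) (nat_lit 8) (nat_lit 6) (nat_lit 3)))
noncomputable def D3068 : OP := win (nat_lit 7) (nat_lit 8) (nat_lit 8) (nat_lit 3)
noncomputable def D2040 : OP := win (nat_lit 2) (nat_lit 4) (nat_lit 7) (nat_lit 5)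
noncomputable def D2039 : OP := win (nat_lit 2) (nat_lit 5) (nat_lit 7) (nat_lit 4)
noncomputable def D3038 : OP := orK (nat_lit 248) (fin (add (add (add (start D2546) D837) D3030) (orK (nat_lit 267) (fin (add (start D828) (orK (nat_lit 268) (fin (add (start D829) (orK (nat_lit 229) (fin (add (start D1251) D3008)))))))))))
noncomputable def D3089 : OP := orK (nat_lit 149) (fin (add (start D2998) (orK (nat_lit 228) (fin (add (start D3011) D3015)))))
noncomputable def D3075 : OP := win (nat_lit 6) (nat_lit 8) (nat_lit 6) (nat_lit 4)
noncomputable def D3085 : OP := orK (nat_lit 128) (fin (add (start D3075) D3083))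
noncomputable def D3076 : AP := fin (add (start D3074) D3075)
noncomputable def D3078 : AP := fin (add (start D3073) (orK (nat_lit 128) D3076))
noncomputable def D3091 : OP := orK (nat_lit 148) (fin (add (add (start (orK (nat_lit 129) D3078)) D3085) D3089))
noncomputable def D3100 : OP := win (nat_lit 3) (nat_lit 8) (nat_lit 8) (nat_lit 4)
noncomputable def D6756 : AP := fin (add (start D86) D3595)
noncomputable def D171 : AP := fin (add (start D169) D170)
noncomputable def D4261 : OP := orK (nat_lit 209) D171
noncomputable def D5040 : OP := orK (nat_lit 209) D194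
noncomputable def D6759 : OP := orK (nat_lit 191) (fin (add (add (add (start D5299) D5040) (orK (nat_lit 192) (fin (add (add (add (start D4261) (orK (nat_lit 209) D192)) D1219) (orK (nat_lit 209) D196))))) (orK (nat_lit 189) D6756)))
noncomputable def D6998 : AP := fin (add (add (add (add (add (start D6759) (orK (nat_lit 168) (fin (add (add (add (add (start (orK (nat_lit 228) (fin (add (add (start D6459) (orK (nat_lit 247) (fin (add (start D2543) (orK (nat_lit 248) (fin (add (start D2542) (orK (nat_lit 169) (fin (add (start D2261) D3100)))))))))) (orK (nat_lit 169) (fin (add (start D2261) (orK (nat_lit 248) (fin (add (start D3100) D2546)))))))))) (orK (nat_lit 148) (fin (add (add (start (orK (nat_lit 209) (fin (add (start D1024) (orK (nat_lit 207) (fin (add (start D3824) (orK (nat_lit 189) (fin (add (start D3946) D1023)))))))))) D3309) (orK (nat_lit 209) (fin (add (start D1024) (orK (nat_lit 207) (fin (add (start D3824) (orK (nat_lit 149) (fin (add (start D2998) (orK (nat_lit 189) (fin (add (start D3946) D2999)))))))))))))))) (orK (nat_lit 228) (fin (add (add (start D6459) D6866) D6314))))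 (orK (nat_lit 209) (fin (add (add (add (start D2981) D3091) (orK (nat_lit 228) (fin (add (add (start D3038) (orK (nat_lit 169) (fin (add (start D2261) (orK (nat_lit 189) (fin (add (start D88) D6302))))))) (orK (nat_lit 229) (fin (add (start D3008) (orK (nat_lit 206) (fin (add (start (win (nat_lit 0) (nat_lit 6) (nat_lit 10) (nat_lit 1))) (orK (nat_lit 169) (fin (add (start D2261) (orK (nat_lit 212) (fin (add (start D1242) (orK (nat_lit 167) (fin (add (start D260) (orK (nat_lit 166) (fin (add (start D482) (orK (nat_lit 145) (fin (add (start D2039) (orK (nat_lit 165) (fin (add (start D2040) D6877)))))))))))))))))))))))))))) (orK (nat_lit 229) (fin (add (start D258) (orK (nat_lit 249) (fin (add (start D751) D3068)))))))))) (orK (nat_lit 149) (fin (add (add (add (start (orK (nat_lit 129) (fin (add (start D5257) (orK (nat_lit 169) D6903))))) (orK (nat_lit 228) (fin (add (start D3011) D6314)))) (orK (nat_lit 169) (fin (add (start D2579) (orK (nat_lit 129) D6903))))) (orK (nat_lit 148) (fin (add (start D2998) (orK (nat_lit 227) (fin (add (start D1666) (orK (nat_lit 228) (fin (add (start D89) D3015))))))))))))))))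 D6928) (orK (nat_lit 189) (fin (add (add (add (start D6365) D6955) (orK (nat_lit 211) (fin (add (start (orK (nat_lit 228) (fin (add (start D3447) D6957)))) D2520)))) (orK (nat_lit 211) (fin (add (add (start D2518) D2520) (orK (nat_lit 191) (fin (add (start D6260) (orK (nat_lit 209) (fin (add (start D2101) D1028))))))))))))) (orK (nat_lit 189) (fin (add (add (add (start (orK (nat_lit 191) (fin (add (start D86) D6262)))) (orK (nat_lit 228) (fin (add (add (add (start D4162) D6957) (orK (nat_lit 229) (fin (add (start (orK (nat_lit 249) (fin (add (start D2688) D4292)))) D4284)))) D6316)))) D6365) D6989)))) (orK (nat_lit 189) (fin (add (add (start (orK (nat_lit 191) (fin (add (start D86) D6326)))) D6955) D6989))))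
noncomputable def D768 : OP := win (nat_lit 4) (nat_lit 6) (nat_lit 9) (nat_lit 4)
noncomputable def D772 : OP := orK (nat_lit 186) (fin (add (start D766) (orK (nat_lit 206) (fin (add (start D767) D768)))))
noncomputable def D6764 : AP := fin (add (start D979) (orK (nat_lit 167) (fin (add (start D133) (orK (nat_lit 207) (fin (add (start D134) D4022)))))))
noncomputable def D5721 : OP := win (nat_lit 0) (nat_lit 11) (nat_lit 10) (nat_lit 5)
noncomputable def D5720 : OP := win (nat_lit 0) (nat_lit 10) (nat_lit 10) (nat_lit 4)
noncomputable def D5303 : OP := win (nat_lit 2) (nat_lit 7) (nat_lit 9) (nat_lit 2)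
noncomputable def D5304 : AP := fin (add (start (win (nat_lit 0) (nat_lit 7) (nat_lit 9) (nat_lit 2))) D5303)
noncomputable def D5305 : OP := orK (nat_lit 187) D5304
noncomputable def D6633 : OP := orK (nat_lit 189) D6632
noncomputable def D6425 : OP := orK (nat_lit 209) D6424
noncomputable def D4221 : OP := win (nat_lit 1) (nat_lit 10) (nat_lit 7) (nat_lit 5)
noncomputable def D6240 : OP := orK (nat_lit 171) (fin (add (start D218) (orK (nat_lit 151) (fin (add (start D162) D4221)))))
noncomputable def D6719 : OP := orK (nat_lit 211) (fin (add (add (start D2518) D2520) (orK (nat_lit 191) (fin (add (start D6240) D6715)))))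
noncomputable def D6281 : AP := fin (add (start D979) D3238)
noncomputable def D6586 : OP := win (nat_lit 6) (nat_lit 5) (nat_lit 6) (nat_lit 5)
noncomputable def D6574 : OP := orK (nat_lit 146) (fin (add (start (win (nat_lit 1) (nat_lit 5) (nat_lit 6) (nat_lit 0))) (win (nat_lit 3) (nat_lit 5) (nat_lit 7) (nat_lit 0))))
noncomputable def D6552 : OP := win (nat_lit 4) (nat_lit 5) (nat_lit 8) (nat_lit 5)
noncomputable def D6562 : OP := orK (nat_lit 204) (fin (add (start (win (nat_lit 5) (nat_lit 3) (nat_lit 9) (nat_lit 5))) (win (nat_lit 5) (nat_lit 4) (nat_lit 9) (nat_lit 4))))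
noncomputable def D6550 : OP := win (nat_lit 2) (nat_lit 3) (nat_lit 8) (nat_lit 5)
noncomputable def D6549 : OP := win (nat_lit 2) (nat_lit 4) (nat_lit 8) (nat_lit 4)
noncomputable def D6551 : OP := win (nat_lit 4) (nat_lit 4) (nat_lit 8) (nat_lit 4)
noncomputable def D3019 : OP := orK (nat_lit 149) (fin (add (start D3011) (orK (nat_lit 148) (fin (add (start D2998) D3015)))))
noncomputable def D6407 : OP := win (nat_lit 3) (nat_lit 7) (nat_lit 7) (nat_lit 3)
noncomputable def D6043 : OP := win (nat_lit 1) (nat_lit 7) (nat_lit 6) (nat_lit 0)
noncomputable def D6394 : OP := orK (nat_lit 166) (fin (add (start (win (nat_lit 2) (nat_lit 6) (nat_lit 8) (nat_lit 0))) D4039))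
noncomputable def D6050 : OP := win (nat_lit 1) (nat_lit 7) (nat_lit 7) (nat_lit 3)
noncomputable def D6388 : AP := fin (add (start D6043) D6050)
noncomputable def D6634 : AP := fin (add (add (add (add (start (orK (nat_lit 189) D3432)) (orK (nat_lit 189) D6281)) (orK (nat_lit 189) (fin (add (start D979) (orK (nat_lit 207) (fin (add (start D134) (orK (nat_lit 227) (fin (add (add (start (orK (nat_lit 168) (fin (add (start D1283) (orK (nat_lit 148) D6388))))) (orK (nat_lit 167) (fin (add (start D6394) (orK (nat_lit 247) (fin (add (start D6398) D6401))))))) (orK (nat_lit 148) (fin (add (add (add (start (orK (nat_lit 168) D6388)) (orK (nat_lit 168) (fin (add (start D6050) D6407)))) (orK (nat_lit 167) (fin (add (start D6394) (orK (nat_lit 147) (fin (add (start D4083) D3539))))))) (orK (nat_lit 168) (fin (add (start D6043) D6407)))))))))))))))) (orK (nat_lit 208) (fin (add (add (add (start D6425) (orK (nat_lit 228) (fin (add (add (add (start (orK (nat_lit 167) (fin (add (start D5227) (orK (nat_lit 147) (fin (add (start D3536) D5226))))))) (orK (nat_lit 211) (fin (add (start D5303) (orK (nat_lit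 227) (fin (add (start D90) D5223))))))) (orK (nat_lit 211) (fin (add (start D5303) (orK (nat_lit 229) (fin (add (start D247) (orK (nat_lit 248) (fin (add (start D980) (orK (nat_lit 247) (fin (add (start D2542) (orK (nat_lit 246) (fin (add (start D5596) (win (nat_lit 4) (nat_lit 6) (nat_lit 11) (nat_lit 3)))))))))))))))))) (orK (nat_lit 211) (fin (add (start D5303) (orK (nat_lit 227) (fin (add (start D90) (orK (nat_lit 168) (fin (add (start D89) D3019))))))))))))) D6547) (orK (nat_lit 186) (fin (add (add (start (orK (nat_lit 209) D2690)) (orK (nat_lit 185) (fin (add (add (add (start (orK (nat_lit 164) (fin (add (start D6549) (orK (nat_lit 184) (fin (add (start D6550) (orK (nat_lit 168) (fin (add (start D6551) D6552)))))))))) (orK (nat_lit 168) (fin (add (start D6552) (orK (nat_lit 184) (fin (add (start D6551) D6562))))))) (orK (nat_lit 164) (fin (add (start D6549) (orK (nat_lit 184) (fin (add (start D6550) D6562))))))) (orK (nat_lit 165) (fin (add (start D3271) (orK (nat_lit 205) (fin (add (start D3516) (orK (nat_lit 168) (fin (add (start D6552) (orK (nat_lit 145) (fin (add (add (start (orK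 (nat_lit 166) (fin (add (start D6574) (orK (nat_lit 144) (fin (add (start (win (nat_lit 2) (nat_lit 4) (nat_lit 7) (nat_lit 1))) (win (nat_lit 7) (nat_lit 4) (nat_lit 6) (nat_lit 5))))))))) (orK (nat_lit 166) (fin (add (start D6574) (orK (nat_lit 125) (fin (add (start (win (nat_lit 6) (nat_lit 5) (nat_lit 5) (nat_lit 0))) D6586))))))) (orK (nat_lit 125) (fin (add (start D6586) (orK (nat_lit 124) (fin (add (start (win (nat_lit 7) (nat_lit 4) (nat_lit 5) (nat_lit 5))) (win (nat_lit 7) (nat_lit 4) (nat_lit 6) (nat_lit 4)))))))))))))))))))))))) (orK (nat_lit 207) (fin (add (start (win (nat_lit 2) (nat_lit 6) (nat_lit 9) (nat_lit 1))) (orK (nat_lit 168) (fin (add (add (add (start (orK (nat_lit 148) (fin (add (add (start D5974) D5978) D3089)))) (orK (nat_lit 228) (fin (add (add (start (orK (nat_lit 227) (fin (add (start D89) (orK (nat_lit 229) (fin (add (start D1250) D3008))))))) D6455) D5852)))) (orK (nat_lit 227) (fin (add (start D1646) (orK (nat_lit 247) (fin (add (start D6483) D1652))))))) (orK (nat_lit 227) D1655)))))))))))))) D6633)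
noncomputable def D2159 : OP := orK (nat_lit 211) D2158
noncomputable def D7188 : AP := fin (add (add (add (add (add (add (add (add (add (start (orK (nat_lit 189) (fin (add (add (add (start D2159) D6365) D3433) D6383)))) (orK (nat_lit 187) D6634)) (orK (nat_lit 189) (fin (add (add (start D6685) D6365) D3334)))) (orK (nat_lit 189) (fin (add (add (add (start D6706) D6719) D3336) (orK (nat_lit 187) D6281))))) (orK (nat_lit 189) (fin (add (add (add (start D6729) D6719) D3334) D3336)))) (orK (nat_lit 208) (fin (add (add (add (add (add (start D6743) D6759) (orK (nat_lit 187) (fin (add (add (add (start (orK (nat_lit 211) D5304)) D6425) (orK (nat_lit 189) D6764)) D6633)))) (orK (nat_lit 211) (fin (add (add (add (start D5305) (orK (nat_lit 212) (fin (add (add (add (start (orK (nat_lit 189) D2156)) (orK (nat_lit 213) (fin (add (add (start (orK (nat_lit 234) (fin (add (start D5720) (orK (nat_lit 214) (fin (add (start D5721) D2705))))))) (orK (nat_lit 233) (fin (add (start D786) (orK (nat_lit 209) (fin (add (start D785) D790))))))) D2711)))) (orK (nat_lit 189) D2517)) (orK (nat_lit 189) D2519)))))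 (orK (nat_lit 209) D2724)) (orK (nat_lit 189) D3335))))) (orK (nat_lit 189) (fin (add (add (add (start (orK (nat_lit 191) D6756)) (orK (nat_lit 187) D6764)) D3336) D6700)))) (orK (nat_lit 207) (fin (add (add (add (start (orK (nat_lit 191) D5298)) (orK (nat_lit 209) D6740)) (orK (nat_lit 209) (fin (add (add (start D772) (orK (nat_lit 206) (fin (add (start D768) D6797)))) D6820)))) (orK (nat_lit 189) D6699)))))))) (orK (nat_lit 208) D6998)) (orK (nat_lit 208) (fin (add (add (add (add (add (start D6743) D6547) (orK (nat_lit 209) (fin (add (add (add (start D6734) D775) (orK (nat_lit 211) (fin (add (start D251) (orK (nat_lit 192) (fin (add (start D2702) (orK (nat_lit 212) (fin (add (start D817) (orK (nat_lit 233) (fin (add (start D785) (orK (nat_lit 213) (fin (add (start D786) D7000)))))))))))))))) D7016)))) D6928) (orK (nat_lit 209) (fin (add (add (start D6735) D5612) D7060)))) (orK (nat_lit 209) (fin (add (add (add (add (start D7016) D7060) D6926) (orK (nat_lit 207) (fin (add (add (add (add (start D7066) D6820) (orK (nat_lit 206) (fin (add (add (start D7012) D7081) (orK (nat_lit 229) (fin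 (add (start D7067) (orK (nat_lit 205) (fin (add (start D2732) (orK (nat_lit 187) (fin (add (start D804) (orK (nat_lit 204) (fin (add (start (win (nat_lit 4) (nat_lit 4) (nat_lit 9) (nat_lit 5))) D7073)))))))))))))))) (orK (nat_lit 206) (fin (add (add (start D6797) D7081) (orK (nat_lit 229) (fin (add (start D7067) (orK (nat_lit 228) (fin (add (start D2910) (orK (nat_lit 227) (fin (add (start D385) (orK (nat_lit 248) (fin (add (add (start (orK (nat_lit 187) (fin (add (start D1271) (win (nat_lit 7) (nat_lit 7) (nat_lit 9) (nat_lit 0)))))) (orK (nat_lit 268) (fin (add (start (win (nat_lit 7) (nat_lit 7) (nat_lit 10) (nat_lit 0))) (orK (nat_lit 267) (fin (add (start D829) (orK (nat_lit 188) (fin (add (start D828) (orK (nat_lit 148) (fin (add (start D7097) D833))))))))))))) (orK (nat_lit 247) (fin (add (start (orK (nat_lit 188) (fin (add (start D2533) D2542)))) (orK (nat_lit 187) (fin (add (start D1271) (orK (nat_lit 246) (fin (add (start D6396) (orK (nat_lit 245) (fin (add (start D7108) (win (nat_lit 4) (nat_lit 5) (nat_lit 11) (nat_lit 5)))))))))))))))))))))))))))))) (orK (nat_lit 226) (fin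 (add (start D6795) (orK (nat_lit 206) (fin (add (start D6794) (orK (nat_lit 229) (fin (add (start D7067) (orK (nat_lit 205) (fin (add (start D2732) (orK (nat_lit 185) (fin (add (start (win (nat_lit 2) (nat_lit 4) (nat_lit 9) (nat_lit 5))) (win (nat_lit 2) (nat_lit 5) (nat_lit 9) (nat_lit 4))))))))))))))))))))) D6741))))))) (orK (nat_lit 189) (fin (add (add (add (start D3336) (orK (nat_lit 187) (fin (add (start D979) D6381)))) D6365) D7182)))) (orK (nat_lit 189) (fin (add (add (add (add (add (start D6685) D6706) D6729) (orK (nat_lit 187) D6632)) D6383) D7182))))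
noncomputable def D955 : OP := orK (nat_lit 269) (fin (add (start D115) (orK (nat_lit 270) (fin (add (start D116) D951)))))
noncomputable def D1873 : OP := orK (nat_lit 250) (fin (add (add (add (start D126) D959) D955) D1871))
noncomputable def D978 : OP := win (nat_lit 7) (nat_lit 7) (nat_lit 9) (nat_lit 4)
noncomputable def D976 : OP := win (nat_lit 5) (nat_lit 7) (nat_lit 12) (nat_lit 5)
noncomputable def D1002 : OP := orK (nat_lit 250) (fin (add (add (add (start D126) D955) D959) (orK (nat_lit 189) (fin (add (start D128) (orK (nat_lit 249) (fin (add (start D0) (orK (nat_lit 251) (fin (add (start D127) (orK (nat_lit 252) (fin (add (start D973) (orK (nat_lit 228) (fin (add (start D974) (orK (nat_lit 248) (fin (add (start D975) (orK (nat_lit 268) (fin (add (start D976) (orK (nat_lit 208) (fin (add (start D977) (orK (nat_lit 187) (fin (add (start D978) (orK (nat_lit 188) (fin (add (start D979) D980))))))))))))))))))))))))))))))))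
noncomputable def D5052 : OP := orK (nat_lit 252) (fin (add (start D973) (orK (nat_lit 228) (fin (add (start D974) (orK (nat_lit 248) (fin (add (start D975) (orK (nat_lit 267) (fin (add (start D1832) (orK (nat_lit 247) (fin (add (start D1831) (orK (nat_lit 208) (fin (add (start (win (nat_lit 1) (nat_lit 7) (nat_lit 9) (nat_lit 0))) D5040)))))))))))))))))
noncomputable def D1153 : OP := orK (nat_lit 173) (fin (add (start D1069) D1082))
noncomputable def D1154 : AP := fin (add (start D425) D1153)
noncomputable def D3217 : OP := orK (nat_lit 172) D1154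
noncomputable def D150 : OP := orK (nat_lit 188) (fin (add (add (start D131) D141) D148))
noncomputable def D152 : OP := orK (nat_lit 191) (fin (add (start D10) D150))
noncomputable def D160 : OP := orK (nat_lit 250) (fin (add (add (add (start D122) D126) D19) (orK (nat_lit 251) (fin (add (start D127) (orK (nat_lit 269) (fin (add (start D115) (orK (nat_lit 189) (fin (add (start D128) D152)))))))))))
noncomputable def D6166 : OP := win (nat_lit 5) (nat_lit 10) (nat_lit 8) (nat_lit 1)
noncomputable def D6206 : OP := orK (nat_lit 174) (fin (add (start D6166) (orK (nat_lit 193) (fin (add (start (orK (nat_lit 194) (fin (add (start D1163) D1213)))) (orK (nat_lit 213) (fin (add (start D924) (orK (nat_lit 152) (fin (add (start D4632) (orK (nat_lit 233) (fin (add (start (win (nat_lit 6) (nat_lit 12) (nat_lit 7) (nat_lit 3))) D1398))))))))))))))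
noncomputable def D1575 : AP := fin (add (start D425) D221)
noncomputable def D4262 : OP := orK (nat_lit 189) D1575
noncomputable def D3158 : OP := orK (nat_lit 132) (fin (add (start D1090) D1794))
noncomputable def D6159 : OP := orK (nat_lit 132) (fin (add (start D1090) D1795))
noncomputable def D4245 : OP := orK (nat_lit 153) (fin (add (start (orK (nat_lit 133) (fin (add (start D2356) D4234)))) (orK (nat_lit 154) (fin (add (start (win (nat_lit 4) (nat_lit 10) (nat_lit 7) (nat_lit 0))) D1452)))))
noncomputable def D3242 : OP := orK (nat_lit 167) (fin (add (start D132) (orK (nat_lit 187) (fin (add (start D133) D3238)))))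
noncomputable def D6119 : OP := orK (nat_lit 188) (fin (add (add (add (start D144) (orK (nat_lit 167) (fin (add (start D132) (orK (nat_lit 187) (fin (add (start D133) (orK (nat_lit 209) (fin (add (start D1006) D325)))))))))) D3242) D141))
noncomputable def D6006 : AP := fin (add (start D626) D6005)
noncomputable def D6019 : OP := orK (nat_lit 129) (fin (add (start D6014) (orK (nat_lit 109) (fin (add (start (win (nat_lit 1) (nat_lit 8) (nat_lit 4) (nat_lit 0))) (win (nat_lit 3) (nat_lit 8) (nat_lit 5) (nat_lit 3)))))))
noncomputable def D6013 : OP := orK (nat_lit 128) (fin (add (start D873) (orK (nat_lit 129) (fin (add (start D5080) D3074)))))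
noncomputable def D6026 : OP := orK (nat_lit 149) (fin (add (add (start D6013) D6019) (orK (nat_lit 147) (fin (add (start (orK (nat_lit 127) D6006)) D5820)))))
noncomputable def D5867 : OP := orK (nat_lit 107) (fin (add (start (win (nat_lit 7) (nat_lit 7) (nat_lit 4) (nat_lit 5))) (win (nat_lit 7) (nat_lit 7) (nat_lit 5) (nat_lit 4))))
noncomputable def D5861 : OP := orK (nat_lit 109) (fin (add (start D5858) D5859))
noncomputable def D5548 : OP := orK (nat_lit 131) (fin (add (start D5378) (orK (nat_lit 147) (fin (add (start D5544) D3012)))))
noncomputable def D5356 : OP := win (nat_lit 4) (nat_lit 6) (nat_lit 6) (nat_lit 4)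
noncomputable def D5177 : OP := win (nat_lit 2) (nat_lit 9) (nat_lit 6) (nat_lit 0)
noncomputable def D2759 : OP := orK (nat_lit 173) (fin (add (start D2751) (orK (nat_lit 153) (fin (add (start D859) D2755)))))
noncomputable def D5112 : OP := orK (nat_lit 152) (fin (add (start D5110) D2759))
noncomputable def D5764 : OP := orK (nat_lit 128) (fin (add (start D873) D5112))
noncomputable def D5375 : OP := win (nat_lit 2) (nat_lit 9) (nat_lit 6) (nat_lit 5)
noncomputable def D5385 : OP := win (nat_lit 2) (nat_lit 10) (nat_lit 6) (nat_lit 4)
noncomputable def D5393 : OP := orK (nat_lit 130) (fin (add (start D5375) (orK (nat_lit 154) (fin (add (start D5385) D5389)))))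
noncomputable def D5892 : OP := orK (nat_lit 149) (fin (add (add (add (start (orK (nat_lit 127) (fin (add (start D627) (orK (nat_lit 147) (fin (add (start D626) D5820))))))) (orK (nat_lit 152) (fin (add (add (add (start D5487) D2759) (orK (nat_lit 173) (fin (add (start D2751) (orK (nat_lit 153) (fin (add (start D859) D5393))))))) (orK (nat_lit 131) (fin (add (start D5378) (orK (nat_lit 130) (fin (add (start D5377) (orK (nat_lit 153) (fin (add (start D5375) D5376))))))))))))) D5764) (orK (nat_lit 147) (fin (add (add (start D629) (orK (nat_lit 130) (fin (add (start D5346) (orK (nat_lit 129) (fin (add (start D5347) (orK (nat_lit 152) (fin (add (start D4513) D5177)))))))))) (orK (nat_lit 126) (fin (add (start D5354) (orK (nat_lit 146) (fin (add (start D5355) (orK (nat_lit 130) (fin (add (start D5356) D5346))))))))))))))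
noncomputable def D5550 : OP := orK (nat_lit 149) (fin (add (start D2998) D5548))
noncomputable def D5315 : OP := orK (nat_lit 189) D130
noncomputable def D5093 : AP := fin (add (start D3824) D5092)
noncomputable def D5101 : OP := orK (nat_lit 208) D5093
noncomputable def D5201 : AP := fin (add (start D3080) (orK (nat_lit 129) (fin (add (start D5198) D3074))))
noncomputable def D5204 : OP := orK (nat_lit 127) (fin (add (start D3081) (orK (nat_lit 128) D5201)))
noncomputable def D5163 : OP := win (nat_lit 5) (nat_lit 7) (nat_lit 7) (nat_lit 2)
noncomputable def D259 : OP := win (nat_lit 2) (nat_lit 7) (nat_lit 8) (nat_lit 2)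
noncomputable def D5632 : OP := orK (nat_lit 229) (fin (add (start D1665) D3606))
noncomputable def D5184 : OP := orK (nat_lit 127) (fin (add (start (win (nat_lit 2) (nat_lit 7) (nat_lit 6) (nat_lit 2))) D3080))
noncomputable def D5442 : AP := fin (add (start D5085) D5184)
noncomputable def D5562 : OP := orK (nat_lit 186) (fin (add (start D309) (orK (nat_lit 165) (fin (add (start D3270) (orK (nat_lit 185) (fin (add (start D3271) D3519))))))))
noncomputable def D5583 : OP := orK (nat_lit 187) (fin (add (add (start D1008) D5562) (orK (nat_lit 209) (fin (add (start D1006) (orK (nat_lit 168) (fin (add (start D72) D5577))))))))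
noncomputable def D5206 : OP := orK (nat_lit 127) (fin (add (start D627) D3081))
noncomputable def D5208 : OP := orK (nat_lit 149) (fin (add (start D620) D5206))
noncomputable def D5774 : OP := orK (nat_lit 149) (fin (add (add (add (start (orK (nat_lit 131) (fin (add (start D5378) (orK (nat_lit 147) (fin (add (start D5544) D5750))))))) (orK (nat_lit 132) (fin (add (start D5327) (orK (nat_lit 152) (fin (add (start D863) (orK (nat_lit 173) (fin (add (start D2751) (orK (nat_lit 153) (fin (add (start D859) D5517))))))))))))) D5764) (orK (nat_lit 127) (fin (add (start D627) (orK (nat_lit 147) (fin (add (start D626) (orK (nat_lit 130) (fin (add (start D5346) (orK (nat_lit 146) (fin (add (start D5356) D5746))))))))))))))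
noncomputable def D5196 : AP := fin (add (start D2998) D620)
noncomputable def D5197 : OP := orK (nat_lit 149) D5196
noncomputable def D5799 : OP := orK (nat_lit 187) (fin (add (start D2284) (orK (nat_lit 148) (fin (add (add (add (start (orK (nat_lit 168) (fin (add (start D1024) D5197)))) (orK (nat_lit 168) (fin (add (start D1024) D5204)))) D5774) (orK (nat_lit 168) (fin (add (start D1024) D5208))))))))
noncomputable def D2281 : OP := orK (nat_lit 168) (fin (add (start D258) D2279))
noncomputable def D5210 : OP := orK (nat_lit 148) (fin (add (add (start D5197) D5204) D5208))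
noncomputable def D2898 : OP := win (nat_lit 5) (nat_lit 5) (nat_lit 11) (nat_lit 4)
noncomputable def D2897 : OP := win (nat_lit 5) (nat_lit 4) (nat_lit 11) (nat_lit 5)
noncomputable def D2900 : OP := orK (nat_lit 245) (fin (add (start D2897) D2898))
noncomputable def D5841 : OP := orK (nat_lit 211) (fin (add (start D251) (orK (nat_lit 132) (fin (add (start D5327) (orK (nat_lit 152) (fin (add (start D863) (orK (nat_lit 173) (fin (add (start D2751) (orK (nat_lit 153) (fin (add (start D859) (orK (nat_lit 213) (fin (add (start (win (nat_lit 7) (nat_lit 12) (nat_lit 6) (nat_lit 1))) (orK (nat_lit 212) (fin (add (start D1427) (orK (nat_lit 233) (fin (add (start D785) D786)))))))))))))))))))))))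
noncomputable def D5857 : OP := orK (nat_lit 187) (fin (add (start D5855) D2284))
noncomputable def D3099 : OP := orK (nat_lit 227) (fin (add (start D89) D2685))
noncomputable def D3162 : OP := orK (nat_lit 213) D2363
noncomputable def D5140 : AP := fin (add (start D777) (orK (nat_lit 212) (fin (add (start D778) (orK (nat_lit 233) (fin (add (start D785) D3162)))))))
noncomputable def D5142 : AP := fin (add (start D251) (orK (nat_lit 228) D5140))
noncomputable def D5143 : OP := orK (nat_lit 211) D5142
noncomputable def D5301 : OP := orK (nat_lit 209) (fin (add (start D168) D5143))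
noncomputable def D5778 : OP := orK (nat_lit 148) (fin (add (add (add (start (orK (nat_lit 168) (fin (add (start D3824) D5197)))) (orK (nat_lit 168) (fin (add (start D3824) D5204)))) D5774) (orK (nat_lit 168) (fin (add (start D3824) D5208)))))
noncomputable def D5646 : OP := win (nat_lit 6) (nat_lit 13) (nat_lit 10) (nat_lit 5)
noncomputable def D5645 : OP := win (nat_lit 6) (nat_lit 13) (nat_lit 9) (nat_lit 4)
noncomputable def D252 : OP := win (nat_lit 0) (nat_lit 8) (nat_lit 9) (nat_lit 1)
noncomputable def D3923 : OP := orK (nat_lit 207) (fin (add (start D135) (orK (nat_lit 187) (fin (add (start D134) D2171)))))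
noncomputable def D3724 : OP := win (nat_lit 5) (nat_lit 6) (nat_lit 12) (nat_lit 4)
noncomputable def D3723 : OP := win (nat_lit 5) (nat_lit 5) (nat_lit 12) (nat_lit 5)
noncomputable def D3726 : OP := orK (nat_lit 266) (fin (add (start D3723) D3724))
noncomputable def D4780 : OP := win (nat_lit 0) (nat_lit 8) (nat_lit 12) (nat_lit 4)
noncomputable def D3740 : OP := win (nat_lit 2) (nat_lit 6) (nat_lit 11) (nat_lit 3)
noncomputable def D3759 : OP := orK (nat_lit 226) (fin (add (start (win (nat_lit 0) (nat_lit 6) (nat_lit 11) (nat_lit 2))) D3740))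
noncomputable def D4922 : OP := orK (nat_lit 250) (fin (add (start D3697) (orK (nat_lit 248) (fin (add (start D1231) (orK (nat_lit 227) (fin (add (add (start D3759) (orK (nat_lit 251) (fin (add (start D1850) (orK (nat_lit 272) (fin (add (start D4780) (orK (nat_lit 252) (fin (add (start D1827) (orK (nat_lit 253) (fin (add (start (win (nat_lit 2) (nat_lit 9) (nat_lit 11) (nat_lit 4))) D969))))))))))))) (orK (nat_lit 247) (fin (add (start D1851) (orK (nat_lit 246) (fin (add (start D4912) D3726))))))))))))))
noncomputable def D4695 : OP := win (nat_lit 0) (nat_lit 8) (nat_lit 12) (nat_lit 0)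
noncomputable def D4794 : OP := win (nat_lit 6) (nat_lit 10) (nat_lit 9) (nat_lit 2)
noncomputable def D4783 : OP := win (nat_lit 5) (nat_lit 8) (nat_lit 12) (nat_lit 4)
noncomputable def D1713 : OP := win (nat_lit 3) (nat_lit 8) (nat_lit 9) (nat_lit 3)
noncomputable def D4777 : OP := orK (nat_lit 230) (fin (add (start D0) D127))
noncomputable def D4755 : OP := win (nat_lit 2) (nat_lit 9) (nat_lit 12) (nat_lit 0)
noncomputable def D4756 : OP := win (nat_lit 7) (nat_lit 9) (nat_lit 9) (nat_lit 2)
noncomputable def D3707 : OP := win (nat_lit 4) (nat_lit 5) (nat_lit 12) (nat_lit 0)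
noncomputable def D3705 : OP := win (nat_lit 3) (nat_lit 8) (nat_lit 9) (nat_lit 2)
noncomputable def D3716 : OP := win (nat_lit 0) (nat_lit 7) (nat_lit 12) (nat_lit 5)
noncomputable def D3730 : OP := win (nat_lit 0) (nat_lit 8) (nat_lit 12) (nat_lit 5)
noncomputable def D3720 : OP := orK (nat_lit 226) (fin (add (start D1840) D1839))
noncomputable def D3736 : OP := orK (nat_lit 246) (fin (add (start D3720) D3726))
noncomputable def D3732 : OP := orK (nat_lit 271) (fin (add (start (win (nat_lit 0) (nat_lit 7) (nat_lit 12) (nat_lit 4))) D3730))
noncomputable def D3718 : OP := orK (nat_lit 270) (fin (add (start (win (nat_lit 0) (nat_lit 6) (nat_lit 12) (nat_lit 4))) D3716))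
noncomputable def D3728 : OP := orK (nat_lit 246) (fin (add (start D3718) D3726))
noncomputable def D3752 : OP := orK (nat_lit 247) (fin (add (add (start D3728) (orK (nat_lit 251) (fin (add (start D3732) (orK (nat_lit 227) (fin (add (start D1851) D1850))))))) D3736))
noncomputable def D3722 : OP := orK (nat_lit 246) (fin (add (start D3718) D3720))
noncomputable def D3738 : OP := orK (nat_lit 247) (fin (add (add (start D3722) (orK (nat_lit 251) (fin (add (start D3732) D1834)))) D3736))
noncomputable def D3742 : OP := orK (nat_lit 226) (fin (add (start (win (nat_lit 0) (nat_lit 5) (nat_lit 11) (nat_lit 0))) D3740))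
noncomputable def D3700 : OP := win (nat_lit 2) (nat_lit 7) (nat_lit 11) (nat_lit 0)
noncomputable def D3714 : OP := orK (nat_lit 268) (fin (add (start D3705) (orK (nat_lit 267) (fin (add (start D3706) (orK (nat_lit 266) (fin (add (start D3707) (win (nat_lit 4) (nat_lit 6) (nat_lit 12) (nat_lit 3))))))))))
noncomputable def D4685 : OP := orK (nat_lit 230) (fin (add (start D0) D1003))
noncomputable def D4902 : OP := orK (nat_lit 250) (fin (add (add (add (start D4685) (orK (nat_lit 248) (fin (add (add (add (add (start D3714) (orK (nat_lit 228) (fin (add (start D825) (orK (nat_lit 227) (fin (add (start D3700) D3742))))))) D3738) (orK (nat_lit 228) (fin (add (start D825) (orK (nat_lit 247) (fin (add (add (start (orK (nat_lit 227) (fin (add (start D1851) (orK (nat_lit 267) (fin (add (start D2535) D1831))))))) D3728) D3722))))))) D3752)))) (orK (nat_lit 248) (fin (add (add (add (start (orK (nat_lit 268) (fin (add (start D3705) (orK (nat_lit 251) (fin (add (start D976) (orK (nat_lit 271) (fin (add (start D3730) D4794)))))))))) (orK (nat_lit 270) (fin (add (start D4756) (orK (nat_lit 247) (fin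 (add (start D3716) (orK (nat_lit 226) (fin (add (start D1839) (orK (nat_lit 246) (fin (add (start D1840) D3726))))))))))))) (orK (nat_lit 268) (fin (add (start D3705) (orK (nat_lit 267) (fin (add (start D3706) (orK (nat_lit 266) (fin (add (start D3707) (win (nat_lit 5) (nat_lit 6) (nat_lit 12) (nat_lit 3)))))))))))) (orK (nat_lit 270) (fin (add (start D4756) (orK (nat_lit 271) (fin (add (start (win (nat_lit 0) (nat_lit 7) (nat_lit 12) (nat_lit 0))) (orK (nat_lit 272) (fin (add (start (win (nat_lit 0) (nat_lit 8) (nat_lit 12) (nat_lit 3))) D4755))))))))))))) (orK (nat_lit 251) (fin (add (add (start D4777) (orK (nat_lit 268) (fin (add (start (orK (nat_lit 248) (fin (add (start D976) (orK (nat_lit 228) (fin (add (start D975) D1713))))))) (orK (nat_lit 252) (fin (add (start D4783) D973))))))) (orK (nat_lit 271) (fin (add (start D4794) (orK (nat_lit 272) (fin (add (start D4695) (orK (nat_lit 273) (fin (add (start (win (nat_lit 0) (nat_lit 9) (nat_lit 12) (nat_lit 3))) (win (nat_lit 2) (nat_lit 10) (nat_lit 12) (nat_lit 0))))))))))))))))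
noncomputable def D3399 : AP := fin (add (start D751) D3398)
noncomputable def D5091 : OP := orK (nat_lit 209) (fin (add (start D3075) D1024))
noncomputable def D5410 : OP := win (nat_lit 6) (nat_lit 12) (nat_lit 4) (nat_lit 0)
noncomputable def D5413 : OP := orK (nat_lit 112) (fin (add (start D5410) (win (nat_lit 7) (nat_lit 12) (nat_lit 5) (nat_lit 0))))
noncomputable def D5483 : OP := orK (nat_lit 153) (fin (add (start D859) (orK (nat_lit 133) (fin (add (start D2753) (orK (nat_lit 132) (fin (add (start D4565) D5413))))))))
noncomputable def D5467 : OP := orK (nat_lit 176) (fin (add (start (win (nat_lit 0) (nat_lit 12) (nat_lit 7) (nat_lit 4))) (orK (nat_lit 156) (fin (add (start (win (nat_lit 0) (nat_lit 13) (nat_lit 7) (nat_lit 5))) (win (nat_lit 5) (nat_lit 12) (nat_lit 7) (nat_lit 5)))))))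
noncomputable def D5456 : OP := orK (nat_lit 172) (fin (add (start (win (nat_lit 0) (nat_lit 9) (nat_lit 7) (nat_lit 0))) (orK (nat_lit 174) (fin (add (start (win (nat_lit 0) (nat_lit 10) (nat_lit 7) (nat_lit 3))) (win (nat_lit 2) (nat_lit 11) (nat_lit 7) (nat_lit 0)))))))
noncomputable def D5439 : OP := orK (nat_lit 148) D5438
noncomputable def D5187 : OP := win (nat_lit 0) (nat_lit 7) (nat_lit 6) (nat_lit 0)
noncomputable def D5435 : OP := orK (nat_lit 130) (fin (add (start D5187) (win (nat_lit 0) (nat_lit 8) (nat_lit 6) (nat_lit 3))))
noncomputable def D5176 : OP := win (nat_lit 2) (nat_lit 8) (nat_lit 6) (nat_lit 3)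
noncomputable def D6094 : AP := fin (add (add (add (add (add (add (start (orK (nat_lit 208) (fin (add (add (add (start D5299) D5301) (orK (nat_lit 211) (fin (add (add (add (start D5305) (orK (nat_lit 212) (fin (add (start D252) (orK (nat_lit 213) (fin (add (start D1427) (orK (nat_lit 233) (fin (add (start D786) (orK (nat_lit 209) (fin (add (start D785) D780))))))))))))) (orK (nat_lit 209) D5142)) D5315)))) (orK (nat_lit 189) (fin (add (start D86) D131))))))) (orK (nat_lit 189) (fin (add (add (start D131) D3242) (orK (nat_lit 211) (fin (add (start D87) (orK (nat_lit 152) (fin (add (add (add (add (start (orK (nat_lit 153) (fin (add (add (add (start (orK (nat_lit 174) (fin (add (start D5398) (orK (nat_lit 154) (fin (add (start D5399) (orK (nat_lit 130) (fin (add (start D5375) D5385)))))))))) D5409) D5393) (orK (nat_lit 133) (fin (add (start D2753) (orK (nat_lit 173) (fin (add (start D859) (orK (nat_lit 130) (fin (add (start D5375) (orK (nat_lit 132) (fin (add (start D5413) (orK (nat_lit 113) (fin (add (start (orK (nat_lit 93) (fin (add (start (win (nat_lit 1) (nat_lit 12) (nat_lit 3) (nat_lit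 0))) (win (nat_lit 1) (nat_lit 12) (nat_lit 4) (nat_lit 5)))))) (orK (nat_lit 114) (fin (add (start D4473) (win (nat_lit 4) (nat_lit 10) (nat_lit 5) (nat_lit 1)))))))))))))))))))))))) (orK (nat_lit 168) (fin (add (start D72) (orK (nat_lit 128) (fin (add (add (add (start (orK (nat_lit 129) (fin (add (start D5176) D5435)))) (orK (nat_lit 129) (fin (add (start D5176) D5439)))) (orK (nat_lit 148) D5442)) (orK (nat_lit 129) (fin (add (start D5435) D5439)))))))))) (orK (nat_lit 173) (fin (add (add (add (start D5456) (orK (nat_lit 149) (fin (add (start D2751) (orK (nat_lit 132) (fin (add (start D863) (orK (nat_lit 148) (fin (add (start D5327) (orK (nat_lit 127) (fin (add (start D627) (orK (nat_lit 147) (fin (add (start D626) D633)))))))))))))))) (orK (nat_lit 153) (fin (add (start D859) (orK (nat_lit 134) (fin (add (start D5386) (orK (nat_lit 154) (fin (add (start D5387) (orK (nat_lit 131) (fin (add (start (win (nat_lit 2) (nat_lit 10) (nat_lit 6) (nat_lit 5))) (orK (nat_lit 155) (fin (add (start (win (nat_lit 2) (nat_lit 11) (nat_lit 6) (nat_lit 4))) D5467)))))))))))))))) D5483)))) (orK (nat_lit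 173) (fin (add (add (add (start D5456) (orK (nat_lit 149) (fin (add (start D2751) (orK (nat_lit 128) (fin (add (start D5110) (orK (nat_lit 148) (fin (add (start D873) D5487)))))))))) (orK (nat_lit 153) (fin (add (start D859) (orK (nat_lit 132) (fin (add (add (start (orK (nat_lit 133) (fin (add (start D2753) D5413)))) (orK (nat_lit 134) (fin (add (start D5386) (orK (nat_lit 154) (fin (add (start D5387) (orK (nat_lit 155) (fin (add (start (win (nat_lit 2) (nat_lit 11) (nat_lit 6) (nat_lit 5))) D5467)))))))))) (orK (nat_lit 112) (fin (add (start D5410) (orK (nat_lit 193) (fin (add (start (win (nat_lit 6) (nat_lit 12) (nat_lit 5) (nat_lit 3))) D1139))))))))))))) D5483)))) (orK (nat_lit 153) (fin (add (add (start (orK (nat_lit 149) (fin (add (start D5515) D5517)))) (orK (nat_lit 154) (fin (add (start (orK (nat_lit 174) (fin (add (start D5398) D5399)))) D5389)))) (orK (nat_lit 149) D5526)))))))))))))) (orK (nat_lit 189) (fin (add (add (add (add (add (start D141) (orK (nat_lit 208) (fin (add (start D86) (orK (nat_lit 168) (fin (add (start D72) (orK (nat_lit 148) (fin (add (add (start (orK (nat_lit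 129) (fin (add (start D3073) (orK (nat_lit 128) (fin (add (start D3074) D5091))))))) (orK (nat_lit 209) (fin (add (start D1024) D3085)))) D5550)))))))))) (orK (nat_lit 187) (fin (add (add (start D137) D5562) (orK (nat_lit 209) (fin (add (start D1006) (orK (nat_lit 249) (fin (add (add (start (orK (nat_lit 229) D3399)) (orK (nat_lit 208) (fin (add (start D168) D4902)))) (orK (nat_lit 229) (fin (add (start D3398) D4922))))))))))))) D3923) D5583) D3242)))) (orK (nat_lit 208) (fin (add (add (add (start D5299) (orK (nat_lit 209) (fin (add (start D168) D5612)))) (orK (nat_lit 211) (fin (add (add (start (orK (nat_lit 168) (fin (add (add (add (start (orK (nat_lit 167) (fin (add (start D259) (orK (nat_lit 228) (fin (add (start D260) D5616))))))) (orK (nat_lit 228) (fin (add (add (start D5616) (orK (nat_lit 229) (fin (add (start D3008) (orK (nat_lit 148) (fin (add (start D1665) (orK (nat_lit 149) (fin (add (start D2998) D5206)))))))))) D5628)))) (orK (nat_lit 167) (fin (add (start D259) (orK (nat_lit 148) (fin (add (start D5163) D5632))))))) (orK (nat_lit 167) (fin (add (start D259) (orK (nat_lit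 148) (fin (add (start D5163) D5204)))))))))) (orK (nat_lit 212) (fin (add (start D252) (orK (nat_lit 213) (fin (add (start D1427) (orK (nat_lit 193) (fin (add (start D788) (orK (nat_lit 233) (fin (add (start D786) (orK (nat_lit 253) (fin (add (add (add (start (orK (nat_lit 272) (fin (add (start (win (nat_lit 1) (nat_lit 12) (nat_lit 9) (nat_lit 4))) (orK (nat_lit 273) (fin (add (start (win (nat_lit 1) (nat_lit 12) (nat_lit 10) (nat_lit 5))) (orK (nat_lit 274) (fin (add (start D5645) D5646)))))))))) (orK (nat_lit 252) (fin (add (start D1439) (orK (nat_lit 173) (fin (add (start D1438) (orK (nat_lit 154) (fin (add (start D1492) (orK (nat_lit 153) (fin (add (start D1451) D5655))))))))))))) (orK (nat_lit 274) (fin (add (start D5645) (orK (nat_lit 273) (fin (add (start D5646) (orK (nat_lit 292) (fin (add (start (win (nat_lit 1) (nat_lit 12) (nat_lit 10) (nat_lit 4))) (orK (nat_lit 293) (fin (add (start (win (nat_lit 1) (nat_lit 12) (nat_lit 11) (nat_lit 5))) (win (nat_lit 7) (nat_lit 12) (nat_lit 10) (nat_lit 4))))))))))))))) (orK (nat_lit 274) (fin (add (start D5645) (orK (nat_lit 273) (fin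 (add (start D5646) (orK (nat_lit 232) (fin (add (start D1346) (orK (nat_lit 173) (fin (add (start D1402) D1401)))))))))))))))))))))))))))) (orK (nat_lit 228) (fin (add (add (add (start (orK (nat_lit 227) (fin (add (start D2532) D5223)))) (orK (nat_lit 209) D5140)) (orK (nat_lit 227) (fin (add (add (start (orK (nat_lit 168) D5627)) D5223) (orK (nat_lit 230) (fin (add (start D90) (orK (nat_lit 250) (fin (add (start D3340) (orK (nat_lit 249) (fin (add (start D0) (orK (nat_lit 251) (fin (add (start (win (nat_lit 2) (nat_lit 7) (nat_lit 11) (nat_lit 3))) D127)))))))))))))))) (orK (nat_lit 229) (fin (add (start (orK (nat_lit 249) D5717)) (orK (nat_lit 212) (fin (add (start D702) (orK (nat_lit 213) (fin (add (start D5719) (orK (nat_lit 234) (fin (add (start D5720) (orK (nat_lit 214) (fin (add (start D5721) D2709)))))))))))))))))))))) (orK (nat_lit 207) (fin (add (start D5092) D5778))))))) (orK (nat_lit 208) (fin (add (add (add (add (start (orK (nat_lit 207) (fin (add (start D2909) D5778)))) D5301) (orK (nat_lit 209) (fin (add (add (add (add (start D5143) D5799) D5612) (orK (nat_lit 168) (fin (add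 (add (start D2981) D5810) D5210)))) (orK (nat_lit 148) (fin (add (add (add (start (orK (nat_lit 149) (fin (add (start (orK (nat_lit 168) D5196)) D5841)))) (orK (nat_lit 168) (fin (add (add (start D5204) (orK (nat_lit 228) (fin (add (add (start (orK (nat_lit 187) (fin (add (start D2284) (orK (nat_lit 167) (fin (add (start D260) D5227))))))) D3099) D5852)))) (orK (nat_lit 128) (fin (add (add (start (orK (nat_lit 108) (fin (add (start D5857) D5861)))) (orK (nat_lit 108) (fin (add (start D5857) D5867)))) (orK (nat_lit 127) D5201)))))))) D5892) (orK (nat_lit 149) (fin (add (start (orK (nat_lit 127) (fin (add (start D627) (orK (nat_lit 147) D5893))))) D5841)))))))))) (orK (nat_lit 168) (fin (add (add (add (start (orK (nat_lit 228) (fin (add (add (start (orK (nat_lit 227) (fin (add (start D89) (orK (nat_lit 229) (fin (add (start D3008) (orK (nat_lit 230) (fin (add (start D386) (orK (nat_lit 226) (fin (add (add (add (start (orK (nat_lit 206) (fin (add (start D2895) D2894)))) (orK (nat_lit 207) (fin (add (start D1250) (orK (nat_lit 225) (fin (add (start (win (nat_lit 4) (nat_lit 4) (nat_lit 10)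 (nat_lit 0))) D2900))))))) (orK (nat_lit 245) (fin (add (start D2898) (orK (nat_lit 225) (fin (add (start D2897) (orK (nat_lit 204) (fin (add (start (win (nat_lit 2) (nat_lit 4) (nat_lit 10) (nat_lit 4))) (orK (nat_lit 224) (fin (add (start (win (nat_lit 2) (nat_lit 3) (nat_lit 10) (nat_lit 5))) (win (nat_lit 4) (nat_lit 4) (nat_lit 10) (nat_lit 4))))))))))))))) (orK (nat_lit 205) (fin (add (start (win (nat_lit 2) (nat_lit 5) (nat_lit 10) (nat_lit 4))) (orK (nat_lit 225) (fin (add (start (win (nat_lit 2) (nat_lit 4) (nat_lit 10) (nat_lit 5))) D2900))))))))))))))))))) D5804) D5808)))) D5210) (orK (nat_lit 148) (fin (add (add (start D5197) (orK (nat_lit 207) (fin (add (start D3824) (orK (nat_lit 128) (fin (add (start D5097) (orK (nat_lit 129) (fin (add (start D3074) (orK (nat_lit 127) (fin (add (start D5198) D3080))))))))))))) (orK (nat_lit 207) (fin (add (start D3824) (orK (nat_lit 128) (fin (add (start D5097) (orK (nat_lit 149) (fin (add (start D873) D620))))))))))))) (orK (nat_lit 148) (fin (add (add (start D5976) D5980) D5550))))))) (orK (nat_lit 209) (fin (add (start D168) (orK (nat_lit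 229) (fin (add (add (start (orK (nat_lit 249) (fin (add (start D751) D2281)))) (orK (nat_lit 211) (fin (add (start D251) (orK (nat_lit 212) (fin (add (start D1226) (orK (nat_lit 213) (fin (add (start D1427) D5719)))))))))) D5799)))))))))) (orK (nat_lit 189) (fin (add (add (start D131) D5583) (orK (nat_lit 168) (fin (add (start D72) (orK (nat_lit 148) (fin (add (add (add (start (orK (nat_lit 128) D5442)) (orK (nat_lit 209) D5576)) (orK (nat_lit 208) (fin (add (start D5550) (orK (nat_lit 211) (fin (add (start D87) D5632))))))) D6026)))))))))) (orK (nat_lit 168) (fin (add (add (add (start (orK (nat_lit 189) D6033)) (orK (nat_lit 148) (fin (add (add (start (orK (nat_lit 167) (fin (add (start D259) D5163)))) D6026) (orK (nat_lit 189) (fin (add (start D72) (orK (nat_lit 208) (fin (add (start D86) D5204)))))))))) (orK (nat_lit 148) (fin (add (add (start (orK (nat_lit 207) (fin (add (add (start (orK (nat_lit 187) (fin (add (start D6043) (orK (nat_lit 189) (fin (add (start D979) D134))))))) D5101) (orK (nat_lit 187) (fin (add (start D6043) (orK (nat_lit 227) (fin (add (start D6050) D1283))))))))))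 (orK (nat_lit 211) (fin (add (start D5315) (orK (nat_lit 208) (fin (add (start (orK (nat_lit 227) (fin (add (start D1666) (orK (nat_lit 228) D5627))))) D5550))))))) D5892)))) (orK (nat_lit 148) (fin (add (add (add (add (add (start (orK (nat_lit 149) (fin (add (start D620) D6013)))) (orK (nat_lit 149) (fin (add (start D620) (orK (nat_lit 208) (fin (add (start D2998) (orK (nat_lit 227) (fin (add (start D1666) D5548)))))))))) (orK (nat_lit 149) (fin (add (start D620) D6019)))) (orK (nat_lit 149) (fin (add (start D620) (orK (nat_lit 127) (fin (add (start D627) (orK (nat_lit 147) D6006)))))))) (orK (nat_lit 128) (fin (add (add (start (orK (nat_lit 108) (fin (add (start (orK (nat_lit 187) (fin (add (start D5855) D6078)))) D5861)))) (orK (nat_lit 208) (fin (add (start (orK (nat_lit 207) (fin (add (start D5097) D3824)))) D3083)))) (orK (nat_lit 108) (fin (add (start D5861) D5867))))))) D6026)))))))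
noncomputable def D5180 : OP := orK (nat_lit 148) D3076
noncomputable def D5260 : AP := fin (add (start D210) D459)
noncomputable def D5179 : OP := orK (nat_lit 152) (fin (add (start D5176) D5177))
noncomputable def D5131 : OP := orK (nat_lit 167) (fin (add (start D259) (orK (nat_lit 228) (fin (add (start D260) D3099)))))
noncomputable def D2976 : OP := orK (nat_lit 187) (fin (add (start D2284) (orK (nat_lit 186) (fin (add (start D2285) (win (nat_lit 0) (nat_lit 6) (nat_lit 9) (nat_lit 3)))))))
noncomputable def D4648 : OP := orK (nat_lit 130) D756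
noncomputable def D2977 : OP := orK (nat_lit 189) D1027
noncomputable def D4649 : AP := fin (add (start D32) D4648)
noncomputable def D6098 : AP := fin (add (add (add (add (add (start (orK (nat_lit 170) (fin (add (start D32) (orK (nat_lit 209) D5071))))) (orK (nat_lit 170) D4649)) (orK (nat_lit 149) (fin (add (add (start (orK (nat_lit 170) (fin (add (start D32) D40)))) (orK (nat_lit 128) (fin (add (start (orK (nat_lit 148) (fin (add (start D873) (orK (nat_lit 168) (fin (add (start D620) (orK (nat_lit 188) (fin (add (add (add (start (orK (nat_lit 189) (fin (add (start D5085) D131)))) (orK (nat_lit 208) (fin (add (add (start D5089) D5091) (orK (nat_lit 207) D5093))))) (orK (nat_lit 207) (fin (add (start D5097) (orK (nat_lit 208) D5088))))) (orK (nat_lit 207) (fin (add (start D5097) D5101))))))))))))) D5112)))) (orK (nat_lit 131) (fin (add (start D5115) D5122))))))) (orK (nat_lit 209) (fin (add (add (add (add (start (orK (nat_lit 170) D5071)) (orK (nat_lit 208) (fin (add (start D168) (orK (nat_lit 188) (fin (add (add (add (start D2976) (orK (nat_lit 168) (fin (add (add (start D2977) D5131)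 D5133)))) D5143) (orK (nat_lit 168) (fin (add (add (start D2977) (orK (nat_lit 167) (fin (add (start D259) (orK (nat_lit 147) (fin (add (start D5144) (orK (nat_lit 127) (fin (add (start (win (nat_lit 6) (nat_lit 7) (nat_lit 5) (nat_lit 0))) D5146)))))))))) D5133)))))))))) (orK (nat_lit 170) (fin (add (start D448) D4648)))) (orK (nat_lit 170) D465)) (orK (nat_lit 208) (fin (add (start D168) (orK (nat_lit 188) (fin (add (add (add (start D2976) (orK (nat_lit 130) (fin (add (add (add (start (orK (nat_lit 170) D212)) (orK (nat_lit 168) (fin (add (add (start D5131) (orK (nat_lit 128) (fin (add (add (add (start (orK (nat_lit 129) (fin (add (start D5179) D5180)))) (orK (nat_lit 148) (fin (add (start D3075) D5184)))) (orK (nat_lit 129) (fin (add (start D5187) D5179)))) (orK (nat_lit 148) (fin (add (start D3075) (orK (nat_lit 129) (fin (add (start D5187) D3074)))))))))) D5210)))) (orK (nat_lit 170) D756)) (orK (nat_lit 170) D463))))) (orK (nat_lit 228) (fin (add (add (start (orK (nat_lit 211) (fin (add (start D251) D777)))) D5225) (orK (nat_lit 167) (fin (add (start D5233) (orK (nat_lit 168) (fin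 (add (start D260) (orK (nat_lit 149) (fin (add (start D5234) (orK (nat_lit 129) (fin (add (start D4514) D5238)))))))))))))))) (orK (nat_lit 168) (fin (add (add (start (orK (nat_lit 167) (fin (add (start D259) (orK (nat_lit 228) (fin (add (start D260) (orK (nat_lit 247) (fin (add (start D2543) (orK (nat_lit 248) (fin (add (start D2542) D3124))))))))))))) (orK (nat_lit 129) (fin (add (add (add (start (orK (nat_lit 149) (fin (add (start D5257) D4514)))) (orK (nat_lit 170) (fin (add (start D460) (orK (nat_lit 130) D5260))))) (orK (nat_lit 130) (fin (add (add (add (start (orK (nat_lit 109) (fin (add (start (win (nat_lit 7) (nat_lit 9) (nat_lit 5) (nat_lit 1))) (orK (nat_lit 128) (fin (add (start D5187) (win (nat_lit 3) (nat_lit 8) (nat_lit 5) (nat_lit 2))))))))) (orK (nat_lit 189) (fin (add (start D5270) (orK (nat_lit 128) (fin (add (start D5187) (win (nat_lit 6) (nat_lit 8) (nat_lit 6) (nat_lit 1))))))))) (orK (nat_lit 170) D5260)) (orK (nat_lit 128) (fin (add (start D5187) D5180))))))) (orK (nat_lit 148) D3078))))) D5210))))))))))))) (orK (nat_lit 188) D6094)) (orK (nat_lit 170) (fin (add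 (start D32) D466))))
noncomputable def D2810 : AP := fin (add (start D163) D202)
noncomputable def D2811 : OP := orK (nat_lit 171) D2810
noncomputable def D1692 : OP := orK (nat_lit 229) (fin (add (start D30) (orK (nat_lit 150) (fin (add (start D31) D352)))))
noncomputable def D1688 : OP := orK (nat_lit 229) (fin (add (start D30) (orK (nat_lit 150) (fin (add (start D31) D1606)))))
noncomputable def D1418 : OP := orK (nat_lit 192) (fin (add (start D79) D1416))
noncomputable def D1489 : OP := win (nat_lit 5) (nat_lit 9) (nat_lit 10) (nat_lit 2)
noncomputable def D3194 : OP := orK (nat_lit 153) (fin (add (start D495) (orK (nat_lit 213) (fin (add (start (orK (nat_lit 152) (fin (add (start D1450) D1097)))) (orK (nat_lit 212) (fin (add (start D1100) (orK (nat_lit 229) (fin (add (start D30) D1489)))))))))))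
noncomputable def D1548 : OP := orK (nat_lit 213) (fin (add (add (add (start (orK (nat_lit 212) (fin (add (start D1489) D1435)))) D1503) (orK (nat_lit 233) (fin (add (add (add (start D1511) D1447) D1515) (orK (nat_lit 174) (fin (add (start D1504) (orK (nat_lit 212) (fin (add (start D1489) (orK (nat_lit 232) (fin (add (start D1401) (orK (nat_lit 234) (fin (add (start D1404) D1528)))))))))))))))) (orK (nat_lit 212) (fin (add (start D1489) (orK (nat_lit 153) (fin (add (start D1100) (orK (nat_lit 134) (fin (add (start D1472) (orK (nat_lit 133) (fin (add (start D1117) D1465))))))))))))))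
noncomputable def D3202 : OP := orK (nat_lit 193) (fin (add (add (start D3180) (orK (nat_lit 173) (fin (add (add (add (start D3182) (orK (nat_lit 229) (fin (add (start D30) D1548)))) (orK (nat_lit 172) (fin (add (start D1137) D3194)))) (orK (nat_lit 172) (fin (add (start D1082) D3194))))))) D1418))
noncomputable def D3172 : OP := orK (nat_lit 173) (fin (add (start D1082) (orK (nat_lit 212) (fin (add (add (start (orK (nat_lit 232) (fin (add (start D1376) D222)))) (orK (nat_lit 152) (fin (add (start D2373) D3158)))) (orK (nat_lit 232) (fin (add (start D222) (orK (nat_lit 233) (fin (add (start D224) (orK (nat_lit 211) (fin (add (start (win (nat_lit 0) (nat_lit 9) (nat_lit 10) (nat_lit 0))) D3162))))))))))))))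
noncomputable def D3152 : OP := orK (nat_lit 212) (fin (add (add (start D1337) D228) (orK (nat_lit 233) (fin (add (start (orK (nat_lit 213) (fin (add (start D1332) D2362)))) (orK (nat_lit 232) (fin (add (start D224) D222))))))))
noncomputable def D3144 : OP := orK (nat_lit 173) (fin (add (start D1377) D1082))
noncomputable def D915 : OP := orK (nat_lit 209) (fin (add (start D191) D875))
noncomputable def D1704 : OP := orK (nat_lit 167) (fin (add (start D132) (orK (nat_lit 187) (fin (add (start D133) D1043)))))
noncomputable def D4678 : OP := orK (nat_lit 229) (fin (add (start D1226) D3988))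
noncomputable def D1054 : OP := orK (nat_lit 213) (fin (add (start D923) (orK (nat_lit 193) (fin (add (start D924) D1050)))))
noncomputable def D4998 : AP := fin (add (start D77) (orK (nat_lit 208) (fin (add (start D142) (orK (nat_lit 188) (fin (add (start D86) D1704)))))))
noncomputable def D208 : AP := fin (add (start D207) D30)
noncomputable def D1221 : OP := orK (nat_lit 170) D208
noncomputable def D1045 : OP := orK (nat_lit 187) (fin (add (start D979) D1043))
noncomputable def D4373 : OP := orK (nat_lit 188) (fin (add (start D86) D1045))
noncomputable def D4626 : AP := fin (add (start D86) D4619)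
noncomputable def D4627 : OP := orK (nat_lit 188) D4626
noncomputable def D4937 : OP := orK (nat_lit 167) (fin (add (start D132) (orK (nat_lit 187) (fin (add (start D133) (orK (nat_lit 209) (fin (add (start D1006) (orK (nat_lit 192) D326)))))))))
noncomputable def D4549 : OP := orK (nat_lit 188) (fin (add (add (start D131) D141) D3616))
noncomputable def D4681 : OP := win (nat_lit 3) (nat_lit 9) (nat_lit 8) (nat_lit 5)
noncomputable def D4683 : OP := orK (nat_lit 229) (fin (add (start D4681) D751))
noncomputable def D4694 : OP := win (nat_lit 4) (nat_lit 9) (nat_lit 11) (nat_lit 5)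
noncomputable def D4712 : OP := win (nat_lit 1) (nat_lit 11) (nat_lit 9) (nat_lit 5)
noncomputable def D4687 : OP := orK (nat_lit 172) (fin (add (start D221) D224))
noncomputable def D4714 : OP := win (nat_lit 5) (nat_lit 9) (nat_lit 12) (nat_lit 4)
noncomputable def D4713 : OP := win (nat_lit 5) (nat_lit 8) (nat_lit 12) (nat_lit 5)
noncomputable def D4706 : OP := orK (nat_lit 272) (fin (add (start D2327) (orK (nat_lit 273) (fin (add (start (win (nat_lit 0) (nat_lit 9) (nat_lit 12) (nat_lit 2))) D1356)))))
noncomputable def D4828 : AP := fin (add (add (start D4683) (orK (nat_lit 250) (fin (add (add (add (start D4685) (orK (nat_lit 232) (fin (add (add (add (start (orK (nat_lit 233) (fin (add (start D223) (orK (nat_lit 192) (fin (add (start D191) D4687))))))) (orK (nat_lit 252) (fin (add (add (add (start (orK (nat_lit 211) (fin (add (start D1313) D1339)))) (orK (nat_lit 251) (fin (add (start D4694) (orK (nat_lit 272) (fin (add (start D1827) (orK (nat_lit 271) (fin (add (start D4695) D1354)))))))))) D4706) (orK (nat_lit 233) (fin (add (start D223) (win (nat_lit 4) (nat_lit 9) (nat_lit 11)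 (nat_lit 2))))))))) (orK (nat_lit 192) (fin (add (start D191) (orK (nat_lit 172) (fin (add (start D221) (orK (nat_lit 253) (fin (add (start D2325) (orK (nat_lit 252) (fin (add (start D2326) (orK (nat_lit 251) (fin (add (start D4712) (orK (nat_lit 269) (fin (add (start D4713) D4714))))))))))))))))))) (orK (nat_lit 252) (fin (add (add (add (start D4706) (orK (nat_lit 192) (fin (add (start D191) (orK (nat_lit 251) (fin (add (start D4712) (orK (nat_lit 172) (fin (add (start D221) (orK (nat_lit 269) (fin (add (start D4713) (orK (nat_lit 253) (fin (add (start D4714) D2326)))))))))))))))) (orK (nat_lit 192) (fin (add (start D191) (orK (nat_lit 273) (fin (add (start D1355) (orK (nat_lit 272) (fin (add (start D1356) D2327)))))))))) (orK (nat_lit 192) (fin (add (start D191) D2331)))))))))) (orK (nat_lit 192) (fin (add (start D191) (orK (nat_lit 232) (fin (add (add (start (orK (nat_lit 233) (fin (add (start D223) D4687)))) (orK (nat_lit 271) (fin (add (add (start (orK (nat_lit 230) (fin (add (start D12) D1003)))) (orK (nat_lit 252) D2330)) (orK (nat_lit 272) (fin (add (start (orK (nat_lit 252) D2328))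 (orK (nat_lit 270) (fin (add (start D4755) D4756)))))))))) (orK (nat_lit 172) (fin (add (start D221) (orK (nat_lit 233) (fin (add (start D224) (orK (nat_lit 251) (fin (add (start (win (nat_lit 4) (nat_lit 9) (nat_lit 11) (nat_lit 3))) (orK (nat_lit 230) (fin (add (start D127) D1003))))))))))))))))))) (orK (nat_lit 192) (fin (add (start D191) (orK (nat_lit 251) (fin (add (add (add (start D4777) (orK (nat_lit 252) (fin (add (add (start (orK (nat_lit 232) (fin (add (start D4712) D4694)))) (orK (nat_lit 248) (fin (add (start (orK (nat_lit 272) (fin (add (start D4780) D1827)))) (orK (nat_lit 268) (fin (add (start D976) D4783))))))) (orK (nat_lit 232) (fin (add (start D4694) (orK (nat_lit 273) (fin (add (start D964) D1355)))))))))) (orK (nat_lit 271) (fin (add (start D4794) (orK (nat_lit 272) (fin (add (start D4695) (orK (nat_lit 252) (fin (add (start D1827) (win (nat_lit 1) (nat_lit 11) (nat_lit 9) (nat_lit 2)))))))))))) (orK (nat_lit 269) (fin (add (start (win (nat_lit 1) (nat_lit 9) (nat_lit 9) (nat_lit 2))) (orK (nat_lit 268) (fin (add (start (win (nat_lit 5) (nat_lit 8) (nat_lit 12) (nat_lit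 0))) (orK (nat_lit 267) (fin (add (start (win (nat_lit 4) (nat_lit 6) (nat_lit 12) (nat_lit 0))) (win (nat_lit 5) (nat_lit 7) (nat_lit 12) (nat_lit 3))))))))))))))))))))) (orK (nat_lit 229) (fin (add (start D4681) (orK (nat_lit 228) (fin (add (start D1242) (orK (nat_lit 248) (fin (add (start D1231) (orK (nat_lit 227) (fin (add (start D385) (orK (nat_lit 250) (fin (add (start D3700) D3697))))))))))))))))
noncomputable def D4378 : OP := orK (nat_lit 209) D885
noncomputable def D4317 : OP := orK (nat_lit 187) (fin (add (start D980) (orK (nat_lit 268) (fin (add (start D978) (orK (nat_lit 287) (fin (add (start (win (nat_lit 1) (nat_lit 7) (nat_lit 10) (nat_lit 4))) (orK (nat_lit 288) (fin (add (start (win (nat_lit 1) (nat_lit 7) (nat_lit 11) (nat_lit 5))) D3024)))))))))))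
noncomputable def D1659 : AP := fin (add (start D386) (orK (nat_lit 207) (fin (add (start D1646) D1250))))
noncomputable def D4277 : AP := fin (add (start D178) D2688)
noncomputable def D4268 : OP := orK (nat_lit 187) (fin (add (start D980) D978))
noncomputable def D4266 : OP := orK (nat_lit 268) (fin (add (start D2616) D833))
noncomputable def D4294 : OP := orK (nat_lit 249) (fin (add (start D178) D4292))
noncomputable def D4350 : OP := orK (nat_lit 228) (fin (add (add (add (add (add (add (start (orK (nat_lit 248) (fin (add (add (start D4266) (orK (nat_lit 268) (fin (add (start D2616) D4268)))) (orK (nat_lit 168) D4273))))) (orK (nat_lit 229) (fin (add (start (orK (nat_lit 249) D4277)) D4284)))) (orK (nat_lit 229) (fin (add (start (orK (nat_lit 227) (fin (add (start D386) (orK (nat_lit 247) (fin (add (start D2533) D1252))))))) D4294)))) (orK (nat_lit 229) (fin (add (start D4294) D4284)))) (orK (nat_lit 248) (fin (add (add (start D4266) (orK (nat_lit 268) (fin (add (start D833) D4268)))) (orK (nat_lit 168) D4301))))) (orK (nat_lit 248) (fin (add (add (start (orK (nat_lit 249) (fin (add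 (start D839) (orK (nat_lit 229) D4277))))) D4317) (orK (nat_lit 167) (fin (add (start D3124) (orK (nat_lit 168) (fin (add (start D260) (orK (nat_lit 229) (fin (add (start D3008) (orK (nat_lit 227) D1659)))))))))))))) (orK (nat_lit 248) (fin (add (add (start D4317) (orK (nat_lit 247) (fin (add (start D2542) (orK (nat_lit 227) (fin (add (start D2533) (orK (nat_lit 229) (fin (add (start D386) D1252)))))))))) (orK (nat_lit 167) (fin (add (start D3124) (orK (nat_lit 168) (fin (add (start D260) (orK (nat_lit 227) (fin (add (start D89) (orK (nat_lit 207) (fin (add (start D1646) (orK (nat_lit 229) (fin (add (start D1250) D386))))))))))))))))))))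
noncomputable def D4260 : OP := orK (nat_lit 209) D874
noncomputable def D3776 : OP := orK (nat_lit 248) (fin (add (start D1231) (orK (nat_lit 227) (fin (add (add (start D3759) (orK (nat_lit 228) (fin (add (start D3700) (orK (nat_lit 208) (fin (add (start D168) D2685))))))) (orK (nat_lit 247) (fin (add (start D1851) (orK (nat_lit 207) (fin (add (start D2431) (orK (nat_lit 266) (fin (add (start D3724) (orK (nat_lit 246) (fin (add (start (win (nat_lit 1) (nat_lit 6) (nat_lit 9) (nat_lit 0))) D3723)))))))))))))))))
noncomputable def D3698 : AP := fin (add (start D751) D3697)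
noncomputable def D3792 : OP := orK (nat_lit 250) (fin (add (add (start (orK (nat_lit 230) (fin (add (start D10) D1003)))) (orK (nat_lit 249) (fin (add (add (add (start (orK (nat_lit 229) D3698)) (orK (nat_lit 208) (fin (add (start D168) (orK (nat_lit 248) (fin (add (add (add (start D3714) D3738) (orK (nat_lit 228) (fin (add (start D825) (orK (nat_lit 227) (fin (add (start D2685) D3742))))))) D3752))))))) (orK (nat_lit 229) (fin (add (start D3697) D3776)))) (orK (nat_lit 229) (fin (add (start D751) D3776))))))) (orK (nat_lit 230) (fin (add (start D10) D3788)))))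
noncomputable def D1374 : AP := fin (add (start D77) D1373)
noncomputable def D4249 : OP := orK (nat_lit 152) (fin (add (start D4245) D1175))
noncomputable def D6233 : AP := fin (add (add (add (add (add (add (add (add (add (add (add (start (orK (nat_lit 192) (fin (add (add (add (start D915) D1219) D4213) D945)))) (orK (nat_lit 192) (fin (add (add (add (start D915) (orK (nat_lit 173) (fin (add (add (start (orK (nat_lit 193) (fin (add (start D1205) (orK (nat_lit 171) (fin (add (add (add (start D1050) (orK (nat_lit 151) (fin (add (start D162) (orK (nat_lit 211) (fin (add (start D4221) D3292))))))) (orK (nat_lit 151) (fin (add (start D162) (orK (nat_lit 230) D2810))))) (orK (nat_lit 151) (fin (add (start D162) (orK (nat_lit 170) (fin (add (start D1392) D1883))))))))))))) (orK (nat_lit 171) (fin (add (add (start (orK (nat_lit 172) (fin (add (start D1377) D4249)))) D4197) D4201)))) D4257)))) (orK (nat_lit 208) (fin (add (add (add (start D4260) D4261) (orK (nat_lit 171) (fin (add (add (add (start (orK (nat_lit 172) (fin (add (add (start D4262) (orK (nat_lit 173) (fin (add (start D1082) D4249))))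 (orK (nat_lit 188) (fin (add (start D1619) (orK (nat_lit 230) (fin (add (start D161) D4350)))))))))) D4197) D4201) (orK (nat_lit 189) (fin (add (add (start (orK (nat_lit 188) (fin (add (start D218) D86)))) (orK (nat_lit 172) (fin (add (start D221) (orK (nat_lit 151) (fin (add (start D162) (orK (nat_lit 212) (fin (add (start D1367) (orK (nat_lit 152) (fin (add (start D1175) (orK (nat_lit 153) (fin (add (start D1176) (orK (nat_lit 154) (fin (add (start (win (nat_lit 5) (nat_lit 10) (nat_lit 7) (nat_lit 5))) D1452))))))))))))))))))) D4373))))))) D4378)))) D945)))) D4528) (orK (nat_lit 189) (fin (add (add (add (add (start (orK (nat_lit 212) (fin (add (add (add (start D420) D424) (orK (nat_lit 192) D1374)) (orK (nat_lit 171) (fin (add (add (start (orK (nat_lit 211) (fin (add (start D417) (orK (nat_lit 151) (fin (add (start D162) D4505))))))) (orK (nat_lit 151) (fin (add (start D162) (orK (nat_lit 232) (fin (add (start D4536) (orK (nat_lit 192) D4538)))))))) D3217))))))) D4549) (orK (nat_lit 209) (fin (add (add (start D1709) (orK (nat_lit 229) (fin (add (add (start D3988) (orK (nat_lit 249) (fin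 (add (start D751) (orK (nat_lit 250) (fin (add (start D3697) (orK (nat_lit 230) (fin (add (start D10) D184)))))))))) (orK (nat_lit 212) (fin (add (add (start D4557) (orK (nat_lit 192) (fin (add (start D77) (orK (nat_lit 172) (fin (add (start D221) (orK (nat_lit 151) (fin (add (add (start D4560) (orK (nat_lit 170) (fin (add (start D207) (orK (nat_lit 171) (fin (add (start D1883) D1367))))))) (orK (nat_lit 150) (fin (add (start D1241) (orK (nat_lit 152) (fin (add (start D1787) (orK (nat_lit 133) (fin (add (start D1792) (orK (nat_lit 132) (fin (add (start D1115) D4565)))))))))))))))))))))) (orK (nat_lit 150) (fin (add (start D1241) (orK (nat_lit 211) (fin (add (start D1226) (orK (nat_lit 232) (fin (add (start D1313) (orK (nat_lit 171) (fin (add (start (win (nat_lit 6) (nat_lit 11) (nat_lit 7) (nat_lit 0))) (orK (nat_lit 252) (fin (add (start (win (nat_lit 7) (nat_lit 11) (nat_lit 8) (nat_lit 3))) D1339)))))))))))))))))))))) D3792)))) (orK (nat_lit 208) (fin (add (add (start D4601) (orK (nat_lit 192) (fin (add (start D142) D4607)))) (orK (nat_lit 188) (fin (add (start D86) (orK (nat_lit 167)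 (fin (add (start D132) (orK (nat_lit 187) (fin (add (start D133) D2178))))))))))))) (orK (nat_lit 208) (fin (add (add (start D4601) (orK (nat_lit 192) (fin (add (start D142) (orK (nat_lit 172) (fin (add (start D221) (orK (nat_lit 188) (fin (add (start D1757) D4619)))))))))) D4627))))))) (orK (nat_lit 192) (fin (add (add (add (start D915) D4642) (orK (nat_lit 208) (fin (add (add (add (start D4260) D4261) (orK (nat_lit 188) (fin (add (add (add (start (orK (nat_lit 189) (fin (add (start D86) D1759)))) (orK (nat_lit 189) D4626)) (orK (nat_lit 230) (fin (add (add (add (start D167) D4647) D206) (orK (nat_lit 170) (fin (add (start D4350) (orK (nat_lit 150) (fin (add (add (add (start D35) (orK (nat_lit 171) (fin (add (start D2) D4654)))) D4660) D565)))))))))) (orK (nat_lit 189) (fin (add (start D1759) D4619))))))) D4378)))) D945)))) (orK (nat_lit 189) (fin (add (add (add (add (add (add (start (orK (nat_lit 209) (fin (add (add (start D1709) (orK (nat_lit 212) (fin (add (add (start (orK (nat_lit 192) D4675)) (orK (nat_lit 211) (fin (add (start D418) D4678)))) (orK (nat_lit 249) D4828))))) (orK (nat_lit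 208) (fin (add (start D168) (orK (nat_lit 249) (fin (add (add (start D4683) D4902) (orK (nat_lit 229) (fin (add (start D4681) D4922))))))))))))) D4549) (orK (nat_lit 188) (fin (add (add (start D131) D4937) (orK (nat_lit 212) (fin (add (start D76) (orK (nat_lit 192) (fin (add (start D77) D327)))))))))) (orK (nat_lit 188) (fin (add (add (start D131) D3242) (orK (nat_lit 212) (fin (add (start D76) (orK (nat_lit 192) (fin (add (start D77) (orK (nat_lit 173) (fin (add (start D1204) (orK (nat_lit 193) (fin (add (start D1205) D79)))))))))))))))) D4965) (orK (nat_lit 188) (fin (add (add (add (start D141) (orK (nat_lit 208) (fin (add (start D86) (orK (nat_lit 192) (fin (add (start D142) D3228))))))) D4937) D3242)))) (orK (nat_lit 208) (fin (add (add (start D4600) (orK (nat_lit 192) (fin (add (start D142) D3591)))) D4627))))))) (orK (nat_lit 192) (fin (add (add (add (start D915) D2862) (orK (nat_lit 171) (fin (add (add (add (start (orK (nat_lit 230) (fin (add (start D161) (orK (nat_lit 189) (fin (add (add (add (add (start D2804) (orK (nat_lit 212) (fin (add (start D77) (orK (nat_lit 188) (fin (add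 (start D76) D1704))))))) (orK (nat_lit 208) (fin (add (start D142) D4373)))) (orK (nat_lit 212) (fin (add (start D77) (orK (nat_lit 209) (fin (add (start D325) (orK (nat_lit 232) (fin (add (start D222) (orK (nat_lit 211) (fin (add (start D1313) (orK (nat_lit 229) (fin (add (start D1226) D1221)))))))))))))))) (orK (nat_lit 212) D4998)))))))) D4197) D4201) (orK (nat_lit 151) (fin (add (start D162) (orK (nat_lit 212) (fin (add (start D5005) (orK (nat_lit 189) D4998))))))))))) D945)))) (orK (nat_lit 171) (fin (add (add (start (orK (nat_lit 189) (fin (add (add (start (orK (nat_lit 192) (fin (add (add (start D327) D1054) (orK (nat_lit 209) (fin (add (start D325) (orK (nat_lit 212) (fin (add (start D77) (orK (nat_lit 232) (fin (add (start D222) (orK (nat_lit 211) (fin (add (start D1313) D4678)))))))))))))))) D150) (orK (nat_lit 188) (fin (add (start D218) D1704))))))) D4197) D4201)))) (orK (nat_lit 192) (fin (add (add (add (start D915) D1219) (orK (nat_lit 209) (fin (add (add (start D875) (orK (nat_lit 171) (fin (add (start (orK (nat_lit 172) (fin (add (add (start D3144) D3152) D3172)))) D4201))))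 D886)))) D945)))) (orK (nat_lit 230) (fin (add (add (start (orK (nat_lit 250) (fin (add (add (add (start D344) D17) D126) (orK (nat_lit 249) (fin (add (start D0) (orK (nat_lit 251) (fin (add (start D127) D5052)))))))))) D206) (orK (nat_lit 170) (fin (add (add (add (add (start D39) (orK (nat_lit 151) (fin (add (start D33) (orK (nat_lit 150) D4649))))) (orK (nat_lit 171) (fin (add (start D2) D3202)))) D1688) D1692))))))) (orK (nat_lit 151) (fin (add (add (add (add (start (orK (nat_lit 230) (fin (add (add (add (start D2811) (orK (nat_lit 171) D4194)) D4647) (orK (nat_lit 171) D4198))))) (orK (nat_lit 171) D4196)) (orK (nat_lit 150) D6098)) (orK (nat_lit 171) D4200)) (orK (nat_lit 171) D4525))))) (orK (nat_lit 192) (fin (add (add (add (start D945) (orK (nat_lit 193) (fin (add (start D79) (orK (nat_lit 214) (fin (add (start D917) (orK (nat_lit 194) (fin (add (start D918) (orK (nat_lit 171) (fin (add (start D1048) D1563))))))))))))) (orK (nat_lit 172) (fin (add (add (add (start D2311) (orK (nat_lit 189) (fin (add (start D221) D6119)))) (orK (nat_lit 189) (fin (add (add (start D4605) D6119) (orK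 (nat_lit 209) (fin (add (start D325) (orK (nat_lit 212) (fin (add (start D77) (orK (nat_lit 151) (fin (add (add (start D4560) (orK (nat_lit 171) (fin (add (start D1367) D4199)))) (orK (nat_lit 152) (fin (add (start D1787) (orK (nat_lit 133) (fin (add (start D1792) (orK (nat_lit 132) (fin (add (start D1115) (orK (nat_lit 150) (fin (add (start D4565) D6124))))))))))))))))))))))))) (orK (nat_lit 171) (fin (add (add (add (start D4201) (orK (nat_lit 230) (fin (add (start D161) (orK (nat_lit 173) (fin (add (start D1082) (orK (nat_lit 153) (fin (add (start (orK (nat_lit 133) (fin (add (start D2356) (orK (nat_lit 212) (fin (add (start D2357) D2355))))))) (orK (nat_lit 170) (fin (add (start D495) (orK (nat_lit 229) (fin (add (start D30) (orK (nat_lit 150) (fin (add (start D31) D4449))))))))))))))))))) (orK (nat_lit 173) (fin (add (start D1082) (orK (nat_lit 131) (fin (add (start D6157) (orK (nat_lit 152) (fin (add (start D6159) D4245)))))))))) (orK (nat_lit 174) (fin (add (start D6166) (orK (nat_lit 230) (fin (add (start D161) (orK (nat_lit 212) (fin (add (add (start D1369) (orK (nat_lit 232) (fin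 (add (start D222) (orK (nat_lit 233) (fin (add (start D224) (orK (nat_lit 152) (fin (add (start D6167) D3158)))))))))) (orK (nat_lit 152) (fin (add (add (start (orK (nat_lit 131) (fin (add (start D6157) D6159)))) D3158) (orK (nat_lit 151) (fin (add (start D162) (orK (nat_lit 153) (fin (add (start D1176) (orK (nat_lit 154) (fin (add (start D5399) D1452)))))))))))))))))))))))))))) (orK (nat_lit 171) (fin (add (add (start D4201) (orK (nat_lit 172) (fin (add (add (start D4262) (orK (nat_lit 151) (fin (add (start D162) D6206)))) (orK (nat_lit 151) (fin (add (start D162) (orK (nat_lit 189) (fin (add (start D425) (orK (nat_lit 212) (fin (add (start D77) D1367))))))))))))) (orK (nat_lit 250) (fin (add (start D4383) (orK (nat_lit 172) (fin (add (add (start D4262) D6206) (orK (nat_lit 189) (fin (add (start D425) (orK (nat_lit 213) (fin (add (start D923) (orK (nat_lit 193) (fin (add (start D924) (orK (nat_lit 194) (fin (add (start D1048) D1163)))))))))))))))))))))))))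
noncomputable def D3626 : OP := orK (nat_lit 249) (fin (add (start D751) D1223))
noncomputable def D3939 : OP := orK (nat_lit 148) (fin (add (start D2016) D3937))
noncomputable def D3959 : OP := orK (nat_lit 209) (fin (add (add (start D3939) (orK (nat_lit 228) (fin (add (start D2022) (orK (nat_lit 229) (fin (add (start D384) D3626))))))) (orK (nat_lit 208) (fin (add (start D3944) (orK (nat_lit 150) (fin (add (start D3945) (orK (nat_lit 207) (fin (add (start D3946) (orK (nat_lit 227) (fin (add (start D805) (orK (nat_lit 148) (fin (add (start (win (nat_lit 1) (nat_lit 7) (nat_lit 7) (nat_lit 2))) D2016)))))))))))))))))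
noncomputable def D3935 : OP := orK (nat_lit 167) (fin (add (start D59) (orK (nat_lit 191) (fin (add (start D3218) D73)))))
noncomputable def D3979 : OP := orK (nat_lit 168) (fin (add (add (add (start D3935) (orK (nat_lit 192) (fin (add (start D3936) (orK (nat_lit 149) (fin (add (start D284) D3959))))))) (orK (nat_lit 149) (fin (add (start D284) (orK (nat_lit 166) (fin (add (start D3817) (orK (nat_lit 209) (fin (add (start D3939) D3967)))))))))) (orK (nat_lit 149) (fin (add (start D284) (orK (nat_lit 166) (fin (add (start D3817) D3959))))))))
noncomputable def D4047 : OP := orK (nat_lit 227) (fin (add (start D805) (orK (nat_lit 228) (fin (add (start D2685) D4043)))))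
noncomputable def D3990 : OP := orK (nat_lit 229) (fin (add (start D1722) D3988))
noncomputable def D1734 : OP := orK (nat_lit 167) (fin (add (start D59) (orK (nat_lit 191) (fin (add (start D330) D73)))))
noncomputable def D3688 : OP := orK (nat_lit 212) (fin (add (start D77) D1385))
noncomputable def D412 : OP := orK (nat_lit 270) (fin (add (start D11) D290))
noncomputable def D3661 : OP := orK (nat_lit 250) (fin (add (start D10) D128))
noncomputable def D2866 : OP := orK (nat_lit 169) (fin (add (start D306) (orK (nat_lit 209) (fin (add (start D325) D2824)))))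
noncomputable def D1736 : OP := orK (nat_lit 168) (fin (add (start D1722) D1734))
noncomputable def D3396 : AP := fin (add (start D384) D2824)
noncomputable def D3387 : OP := orK (nat_lit 170) (fin (add (start D30) (orK (nat_lit 150) (fin (add (add (add (start D43) (orK (nat_lit 130) (fin (add (start D3364) (orK (nat_lit 111) (fin (add (start D544) (orK (nat_lit 110) (fin (add (start D545) (orK (nat_lit 169) (fin (add (start D3365) D20))))))))))))) (orK (nat_lit 130) (fin (add (start D3364) (orK (nat_lit 111) (fin (add (start D544) (orK (nat_lit 110) (fin (add (start D545) (orK (nat_lit 189) D3374))))))))))) (orK (nat_lit 130) (fin (add (start D3364) D462))))))))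
noncomputable def D3361 : OP := orK (nat_lit 250) (fin (add (add (start (orK (nat_lit 269) (fin (add (start D115) (orK (nat_lit 270) (fin (add (start D116) D3345))))))) (orK (nat_lit 270) (fin (add (start D3345) D15)))) (orK (nat_lit 249) (fin (add (start D0) (orK (nat_lit 229) (fin (add (start D178) (orK (nat_lit 228) (fin (add (start D247) (orK (nat_lit 251) (fin (add (start D180) D127))))))))))))))
noncomputable def D4189 : AP := fin (add (add (add (add (add (add (add (add (add (add (add (start D3338) (orK (nat_lit 211) (fin (add (add (add (start (orK (nat_lit 230) (fin (add (add (start D289) D3361) (orK (nat_lit 212) (fin (add (start D418) (orK (nat_lit 229) (fin (add (start (orK (nat_lit 228) (fin (add (start D247) D702)))) D3387)))))))))) D3394) D3395) (orK (nat_lit 230) (fin (add (add (start D289) D3361) (orK (nat_lit 188) (fin (add (start D129) (orK (nat_lit 229) (fin (add (add (add (start D1488) D3387) (orK (nat_lit 228) (fin (add (start D247) (orK (nat_lit 209) (fin (add (start (orK (nat_lit 169) D3396)) (orK (nat_lit 249) D3399)))))))) (orK (nat_lit 228) (fin (add (start D247)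 (orK (nat_lit 169) (fin (add (add (start (orK (nat_lit 209) D3396)) D303) (orK (nat_lit 209) (fin (add (start D384) D1736)))))))))))))))))))))) (orK (nat_lit 188) (fin (add (add (add (start D3421) D3431) D3336) D3433)))) (orK (nat_lit 188) (fin (add (add (add (start D3441) (orK (nat_lit 169) (fin (add (add (add (start (orK (nat_lit 230) (fin (add (start D283) (orK (nat_lit 191) (fin (add (add (start (orK (nat_lit 211) (fin (add (start D87) (orK (nat_lit 208) (fin (add (start D86) D3449))))))) (orK (nat_lit 172) (fin (add (start D1757) (orK (nat_lit 192) (fin (add (start D221) D81))))))) D3461))))))) D3468) D3472) D3487)))) D3334) D3336)))) (orK (nat_lit 230) (fin (add (add (add (start D289) D300) D305) (orK (nat_lit 169) (fin (add (add (start D287) D3581) D303))))))) D3620) (orK (nat_lit 230) (fin (add (add (add (start D289) D300) D305) (orK (nat_lit 169) (fin (add (add (start D287) (orK (nat_lit 191) (fin (add (add (start D3622) (orK (nat_lit 168) (fin (add (add (start D332) (orK (nat_lit 209) (fin (add (add (start (orK (nat_lit 229) (fin (add (start D1722) D1221)))) (orK (nat_lit 229)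 (fin (add (start D3626) (orK (nat_lit 228) (fin (add (start D384) (orK (nat_lit 227) (fin (add (start D385) (orK (nat_lit 211) (fin (add (start D3602) D2603))))))))))))) (orK (nat_lit 208) (fin (add (start D168) (orK (nat_lit 188) (fin (add (start (orK (nat_lit 211) (fin (add (start D87) (orK (nat_lit 228) (fin (add (start D88) D777))))))) (orK (nat_lit 171) (fin (add (start D218) (orK (nat_lit 148) (fin (add (start D1023) (orK (nat_lit 147) (fin (add (start (win (nat_lit 2) (nat_lit 7) (nat_lit 7) (nat_lit 1))) D3012))))))))))))))))))) D3220)))) D334)))) D303))))))) (orK (nat_lit 191) (fin (add (add (add (add (add (start (orK (nat_lit 230) (fin (add (add (start D3661) (orK (nat_lit 192) (fin (add (start D3228) D2866)))) (orK (nat_lit 250) (fin (add (start D10) D294))))))) (orK (nat_lit 230) (fin (add (add (add (start D3661) (orK (nat_lit 250) (fin (add (start D10) D412)))) (orK (nat_lit 250) (fin (add (start D128) D412)))) (orK (nat_lit 170) (fin (add (add (add (start D47) D1688) D3672) (orK (nat_lit 229) (fin (add (start D30) (orK (nat_lit 169) (fin (add (start D20) (orK (nat_lit 168)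 (fin (add (start D363) D2954)))))))))))))))) (orK (nat_lit 192) (fin (add (add (start D327) D3686) (orK (nat_lit 209) (fin (add (start D325) D3688))))))) (orK (nat_lit 209) (fin (add (add (start D1709) (orK (nat_lit 192) (fin (add (start D191) D3688)))) D3792)))) (orK (nat_lit 230) (fin (add (start D3796) D346)))) (orK (nat_lit 192) (fin (add (add (start D327) (orK (nat_lit 169) (fin (add (start D306) D3591)))) (orK (nat_lit 169) (fin (add (start D306) (orK (nat_lit 209) (fin (add (start D325) D3802))))))))))))) D3885) (orK (nat_lit 169) (fin (add (add (start (orK (nat_lit 230) (fin (add (start D283) (orK (nat_lit 191) (fin (add (add (add (start D329) D3222) D3887) (orK (nat_lit 188) (fin (add (add (add (add (start D141) (orK (nat_lit 168) (fin (add (start D72) (orK (nat_lit 171) (fin (add (start D218) (orK (nat_lit 208) (fin (add (start D86) (orK (nat_lit 228) (fin (add (start D88) (orK (nat_lit 229) (fin (add (start D3008) (orK (nat_lit 227) (fin (add (start D89) (orK (nat_lit 209) (fin (add (start D385) D258)))))))))))))))))))))) (orK (nat_lit 172) (fin (add (start D1757) (orK (nat_lit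 187) (fin (add (add (add (start D1008) (orK (nat_lit 186) (fin (add (start D309) (orK (nat_lit 168) (fin (add (start D72) D3259))))))) D3911) D2171))))))) D3919) (orK (nat_lit 171) (fin (add (start D218) D3923))))))))))))) D3472) D3979)))) (orK (nat_lit 169) (fin (add (add (start (orK (nat_lit 250) (fin (add (start (win (nat_lit 7) (nat_lit 9) (nat_lit 8) (nat_lit 1))) (orK (nat_lit 168) (fin (add (add (add (start (orK (nat_lit 209) (fin (add (start D3990) (orK (nat_lit 188) (fin (add (add (start D3992) (orK (nat_lit 191) (fin (add (start D73) (orK (nat_lit 208) (fin (add (start D168) (orK (nat_lit 228) (fin (add (start D88) D3099)))))))))) (orK (nat_lit 187) (fin (add (start D1006) (orK (nat_lit 191) (fin (add (start D73) (orK (nat_lit 207) (fin (add (start D2431) D134)))))))))))))))) D3935) D1734) (orK (nat_lit 209) (fin (add (add (start D3990) (orK (nat_lit 187) (fin (add (add (add (start (orK (nat_lit 188) D3991)) D4035) (orK (nat_lit 207) (fin (add (add (add (start D4037) (orK (nat_lit 208) (fin (add (start D3946) D4047)))) (orK (nat_lit 208) (fin (add (start D804) D4047)))) (orK (nat_lit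 167) (fin (add (add (add (add (start D4060) (orK (nat_lit 168) (fin (add (start D59) D4067)))) D4098) D4105) (orK (nat_lit 168) (fin (add (start D59) (orK (nat_lit 147) (fin (add (add (start (orK (nat_lit 148) (fin (add (start D4083) (orK (nat_lit 146) (fin (add (start D3311) D3533))))))) D4079) D4094))))))))))))) (orK (nat_lit 188) (fin (add (start D1006) (orK (nat_lit 207) (fin (add (start D134) (orK (nat_lit 167) (fin (add (start D133) (orK (nat_lit 227) (fin (add (start (orK (nat_lit 226) (fin (add (start D4010) D4124)))) D4027)))))))))))))))) (orK (nat_lit 229) (fin (add (start (orK (nat_lit 249) D3698)) (orK (nat_lit 228) (fin (add (start D384) (orK (nat_lit 227) (fin (add (start D385) (orK (nat_lit 208) (fin (add (start D2685) (orK (nat_lit 207) (fin (add (start D3946) (orK (nat_lit 187) (fin (add (start D804) D4043)))))))))))))))))))))))))))) D3979) D3472)))) (orK (nat_lit 188) (fin (add (add (add (start D3284) (orK (nat_lit 211) (fin (add (add (start D2518) D2520) (orK (nat_lit 208) (fin (add (add (add (start D2527) (orK (nat_lit 228) (fin (add (add (start D2531) D4162) D2541))))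 (orK (nat_lit 169) (fin (add (add (start (orK (nat_lit 228) (fin (add (start D88) (orK (nat_lit 227) (fin (add (start D2532) (orK (nat_lit 168) (fin (add (start D89) D3812)))))))))) (orK (nat_lit 149) (fin (add (start D2578) D4176)))) (orK (nat_lit 149) (fin (add (start D2578) (orK (nat_lit 230) (fin (add (start D285) D301)))))))))) D3427))))))) D3334) D3336))))
noncomputable def D1645 : OP := orK (nat_lit 228) (fin (add (start D89) D386))
noncomputable def D1670 : OP := orK (nat_lit 208) (fin (add (start D1665) (orK (nat_lit 227) (fin (add (start D1666) D1645)))))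
noncomputable def D1395 : AP := fin (add (start D79) (orK (nat_lit 170) (fin (add (start D931) D1392))))
noncomputable def D1574 : OP := orK (nat_lit 193) D1395
noncomputable def D3093 : OP := win (nat_lit 7) (nat_lit 8) (nat_lit 9) (nat_lit 0)
noncomputable def D3096 : AP := fin (add (start D3068) D3093)
noncomputable def D3112 : OP := orK (nat_lit 249) D3096
noncomputable def D3114 : OP := orK (nat_lit 229) (fin (add (start D258) D3112))
noncomputable def D3094 : AP := fin (add (start D2279) D3093)
noncomputable def D3109 : OP := orK (nat_lit 249) D3094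
noncomputable def D3111 : OP := orK (nat_lit 229) (fin (add (start D258) D3109))
noncomputable def D2262 : OP := win (nat_lit 1) (nat_lit 8) (nat_lit 8) (nat_lit 1)
noncomputable def D1634 : OP := orK (nat_lit 227) (fin (add (start D89) D385))
noncomputable def D2826 : OP := orK (nat_lit 169) (fin (add (start D306) D2824))
noncomputable def D1576 : OP := orK (nat_lit 172) D1575
noncomputable def D1391 : OP := orK (nat_lit 192) (fin (add (add (add (start D915) D1219) (orK (nat_lit 209) (fin (add (add (start D875) (orK (nat_lit 212) (fin (add (add (add (start D1337) D1366) (orK (nat_lit 189) D1374)) D1385)))) D886)))) D945))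
noncomputable def D1193 : OP := orK (nat_lit 173) (fin (add (start D1070) D1082))
noncomputable def D1194 : AP := fin (add (start D425) D1193)
noncomputable def D1063 : AP := fin (add (start D218) D131)
noncomputable def D1064 : OP := orK (nat_lit 188) D1063
noncomputable def D2887 : OP := orK (nat_lit 189) D1063
noncomputable def D1640 : OP := orK (nat_lit 211) (fin (add (start D251) D248))
noncomputable def D1165 : OP := orK (nat_lit 194) (fin (add (start D1163) D916))
noncomputable def D1156 : OP := win (nat_lit 0) (nat_lit 9) (nat_lit 8) (nat_lit 1)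
noncomputable def D1147 : OP := orK (nat_lit 170) D1146
noncomputable def D1092 : OP := win (nat_lit 6) (nat_lit 12) (nat_lit 6) (nat_lit 5)
noncomputable def D1199 : OP := orK (nat_lit 171) (fin (add (add (start D165) (orK (nat_lit 172) (fin (add (add (add (start (orK (nat_lit 173) (fin (add (start D1082) (orK (nat_lit 193) (fin (add (add (start (orK (nat_lit 194) (fin (add (start (win (nat_lit 0) (nat_lit 10) (nat_lit 8) (nat_lit 0))) (orK (nat_lit 195) (fin (add (start (win (nat_lit 2) (nat_lit 11) (nat_lit 8) (nat_lit 3))) (win (nat_lit 2) (nat_lit 12) (nat_lit 8) (nat_lit 0))))))))) (orK (nat_lit 152) (fin (add (add (add (start (orK (nat_lit 132) (fin (add (start D1090) (orK (nat_lit 192) (fin (add (start D1091) D1092))))))) (orK (nat_lit 213) (fin (add (start D1097) (orK (nat_lit 214) (fin (add (start (win (nat_lit 0) (nat_lit 10) (nat_lit 9) (nat_lit 2))) (orK (nat_lit 212) (fin (add (start D1099) (orK (nat_lit 153) (fin (add (start D1100) D1101))))))))))))) (orK (nat_lit 132) (fin (add (start D1090) (orK (nat_lit 213) (fin (add (start (win (nat_lit 7) (nat_lit 12) (nat_lit 6) (nat_lit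 3))) D1097))))))) (orK (nat_lit 132) (fin (add (start D1090) (orK (nat_lit 192) (fin (add (start D1091) (orK (nat_lit 133) (fin (add (start D1115) (orK (nat_lit 153) (fin (add (start D1116) (orK (nat_lit 134) (fin (add (start D1117) (orK (nat_lit 155) (fin (add (start (win (nat_lit 5) (nat_lit 11) (nat_lit 7) (nat_lit 1))) (orK (nat_lit 135) (fin (add (start (win (nat_lit 0) (nat_lit 12) (nat_lit 6) (nat_lit 5))) D1120))))))))))))))))))))))))) D1147))))))) (orK (nat_lit 189) D1154)) (orK (nat_lit 189) (fin (add (start D425) (orK (nat_lit 192) (fin (add (add (add (start (orK (nat_lit 213) (fin (add (start D923) (orK (nat_lit 193) (fin (add (start D924) (orK (nat_lit 169) (fin (add (start D1156) D306)))))))))) (orK (nat_lit 213) (fin (add (start D923) (orK (nat_lit 193) (fin (add (start D924) D1165))))))) (orK (nat_lit 169) (fin (add (start D306) (orK (nat_lit 193) (fin (add (start D1156) D1165))))))) (orK (nat_lit 212) (fin (add (start D77) (orK (nat_lit 232) (fin (add (start D222) (orK (nat_lit 169) (fin (add (start D306) (orK (nat_lit 152) (fin (add (start D1175) (orK (nat_lit 153) (fin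 (add (start D1176) (win (nat_lit 4) (nat_lit 9) (nat_lit 7) (nat_lit 1)))))))))))))))))))))))) (orK (nat_lit 189) D1194))))) D204))
noncomputable def D3249 : AP := fin (add (add (add (add (add (add (add (add (start (orK (nat_lit 192) (fin (add (add (add (start D915) D2862) (orK (nat_lit 189) (fin (add (add (start D2866) D2315) D2804)))) D945)))) D1199) (orK (nat_lit 171) (fin (add (add (start D165) (orK (nat_lit 229) (fin (add (add (add (start D1488) (orK (nat_lit 170) (fin (add (start D30) (orK (nat_lit 169) (fin (add (start D20) (orK (nat_lit 168) (fin (add (start D363) (orK (nat_lit 188) (fin (add (start D679) (orK (nat_lit 189) (fin (add (start D218) (orK (nat_lit 211) (fin (add (start D87) (orK (nat_lit 228) (fin (add (start D247) (orK (nat_lit 208) (fin (add (start D88) D86))))))))))))))))))))))))) (orK (nat_lit 249) (fin (add (add (start D1486) (orK (nat_lit 188) (fin (add (add (start D2887) (orK (nat_lit 189) (fin (add (start D218) (orK (nat_lit 168) (fin (add (start D72) (win (nat_lit 7) (nat_lit 8) (nat_lit 8) (nat_lit 2))))))))) (orK (nat_lit 228) (fin (add (add (add (start (orK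 (nat_lit 211) D705)) (orK (nat_lit 227) (fin (add (start D386) (orK (nat_lit 206) (fin (add (start D2894) (orK (nat_lit 226) (fin (add (start D2895) (orK (nat_lit 225) (fin (add (start (win (nat_lit 0) (nat_lit 5) (nat_lit 11) (nat_lit 4))) D2900))))))))))))) (orK (nat_lit 208) (fin (add (start D2688) (orK (nat_lit 207) (fin (add (start D2909) (orK (nat_lit 206) (fin (add (start D2910) (win (nat_lit 2) (nat_lit 6) (nat_lit 10) (nat_lit 3)))))))))))) (orK (nat_lit 208) (fin (add (start D2688) (orK (nat_lit 209) (fin (add (start D168) D1640))))))))))))) (orK (nat_lit 269) (fin (add (start D1484) (orK (nat_lit 188) (fin (add (add (start D2887) D2940) (orK (nat_lit 189) (fin (add (start D218) (orK (nat_lit 168) (fin (add (start D72) (orK (nat_lit 208) (fin (add (start D86) D2279))))))))))))))))))) (orK (nat_lit 189) (fin (add (add (start (orK (nat_lit 169) (fin (add (add (start D287) (orK (nat_lit 168) (fin (add (start D332) D2954)))) D303)))) D1064) (orK (nat_lit 172) D1194)))))))) D204)))) D1391) (orK (nat_lit 209) (fin (add (add (add (start (orK (nat_lit 192) (fin (add (start D191) (orK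 (nat_lit 171) (fin (add (start D165) (orK (nat_lit 189) (fin (add (start D2826) D1576)))))))))) D195) (orK (nat_lit 208) (fin (add (start D168) (orK (nat_lit 188) (fin (add (add (start D2976) (orK (nat_lit 168) (fin (add (add (start D2981) (orK (nat_lit 189) (fin (add (start D72) (orK (nat_lit 228) (fin (add (add (start D2987) (orK (nat_lit 248) (fin (add (start D825) D2546)))) (orK (nat_lit 247) (fin (add (start D2543) (orK (nat_lit 248) (fin (add (start D2542) D825))))))))))))) (orK (nat_lit 189) (fin (add (start D72) (orK (nat_lit 148) (fin (add (start D1023) (orK (nat_lit 149) (fin (add (start D2998) D2999))))))))))))) (orK (nat_lit 211) (fin (add (start D251) (orK (nat_lit 228) (fin (add (start D777) (orK (nat_lit 168) (fin (add (add (start D3010) D3019) (orK (nat_lit 169) (fin (add (start D2261) (orK (nat_lit 147) (fin (add (start D3013) D3038)))))))))))))))))))))) D199)))) (orK (nat_lit 209) (fin (add (add (add (start (orK (nat_lit 192) (fin (add (start D191) (orK (nat_lit 189) (fin (add (start D2826) (orK (nat_lit 212) (fin (add (start D77) (orK (nat_lit 211) (fin (add (start D417)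 (orK (nat_lit 232) (fin (add (start D1313) (orK (nat_lit 171) (fin (add (start D3055) D222))))))))))))))))))) D195) (orK (nat_lit 208) (fin (add (start D168) (orK (nat_lit 188) (fin (add (add (add (start D2976) (orK (nat_lit 168) (fin (add (add (add (start D3091) (orK (nat_lit 249) (fin (add (add (add (start (orK (nat_lit 229) (fin (add (start D2279) D3068)))) (orK (nat_lit 229) D3094)) (orK (nat_lit 229) D3096)) (orK (nat_lit 228) (fin (add (start D3099) (orK (nat_lit 169) (fin (add (start D2261) (orK (nat_lit 248) (fin (add (start D3100) D839))))))))))))) D3111) D3114)))) (orK (nat_lit 211) (fin (add (start D251) (orK (nat_lit 228) (fin (add (start D777) (orK (nat_lit 229) (fin (add (start D248) D3117)))))))))) (orK (nat_lit 168) (fin (add (add (add (start D3091) (orK (nat_lit 229) (fin (add (add (start D3109) D3112) (orK (nat_lit 228) (fin (add (start D1634) (orK (nat_lit 169) (fin (add (start D2261) (orK (nat_lit 248) (fin (add (start D2262) D3126))))))))))))) D3111) D3114)))))))))) D199)))) (orK (nat_lit 171) (fin (add (add (start D165) (orK (nat_lit 192) (fin (add (add (start D1574)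 (orK (nat_lit 172) (fin (add (add (start D3144) (orK (nat_lit 209) (fin (add (add (start D875) D3152) D886)))) D3172)))) D938)))) D204)))) (orK (nat_lit 171) (fin (add (add (start D165) (orK (nat_lit 170) (fin (add (add (start D368) D3202) (orK (nat_lit 169) (fin (add (start D20) (orK (nat_lit 168) (fin (add (start D363) (orK (nat_lit 229) (fin (add (start D30) (orK (nat_lit 148) (fin (add (start D493) (orK (nat_lit 188) (fin (add (start D679) D1670))))))))))))))))))) D204)))) (orK (nat_lit 171) (fin (add (start D204) (orK (nat_lit 189) (fin (add (add (add (start D3217) (orK (nat_lit 169) (fin (add (start D287) D3222)))) (orK (nat_lit 169) (fin (add (start D287) D3230)))) (orK (nat_lit 188) (fin (add (start D218) D3242))))))))))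
noncomputable def D2815 : OP := orK (nat_lit 172) (fin (add (start D221) (orK (nat_lit 152) (fin (add (start D2408) D1787)))))
noncomputable def D2797 : OP := orK (nat_lit 170) (fin (add (start D1959) D20))
noncomputable def D2794 : AP := fin (add (start D306) D283)
noncomputable def D2435 : OP := orK (nat_lit 169) (fin (add (start D2432) D2433))
noncomputable def D711 : OP := win (nat_lit 1) (nat_lit 11) (nat_lit 6) (nat_lit 4)
noncomputable def D776 : OP := win (nat_lit 2) (nat_lit 8) (nat_lit 9) (nat_lit 4)
noncomputable def D2633 : OP := win (nat_lit 2) (nat_lit 9) (nat_lit 9) (nat_lit 4)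
noncomputable def D2598 : OP := win (nat_lit 2) (nat_lit 8) (nat_lit 9) (nat_lit 5)
noncomputable def D755 : OP := orK (nat_lit 229) D754
noncomputable def D599 : OP := orK (nat_lit 150) (fin (add (add (add (add (start D458) (orK (nat_lit 131) (fin (add (start D347) (orK (nat_lit 130) (fin (add (start D348) D575))))))) (orK (nat_lit 129) (fin (add (start D460) (orK (nat_lit 130) (fin (add (start D459) D585))))))) D597) D565))
noncomputable def D749 : OP := orK (nat_lit 150) (fin (add (add (add (add (start D537) D743) D747) D559) D565))
noncomputable def D339 : AP := fin (add (add (add (start D289) D300) D305) (orK (nat_lit 169) (fin (add (add (start D287) (orK (nat_lit 191) (fin (add (add (add (start (orK (nat_lit 188) (fin (add (add (start D131) D316) D100)))) D324) D329) D334)))) D303))))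
noncomputable def D2792 : AP := fin (add (add (add (add (add (add (add (add (add (start (orK (nat_lit 171) (fin (add (add (add (start D1953) (orK (nat_lit 189) (fin (add (add (add (start (orK (nat_lit 172) (fin (add (start D56) (orK (nat_lit 169) (fin (add (start D2464) (orK (nat_lit 192) (fin (add (start D57) (orK (nat_lit 191) (fin (add (start D1958) (orK (nat_lit 212) (fin (add (start D77) (orK (nat_lit 152) (fin (add (start D710) D1175))))))))))))))))))) D2480) (orK (nat_lit 230) D339)) D2485)))) D1991) (orK (nat_lit 189) (fin (add (add (add (start (orK (nat_lit 172) (fin (add (start D56) (orK (nat_lit 192) (fin (add (add (start (orK (nat_lit 193) (fin (add (start D2488) (orK (nat_lit 194) (fin (add (start D2489) D1163))))))) (orK (nat_lit 212) (fin (add (start D2496) D2501)))) (orK (nat_lit 169) (fin (add (start D57) (orK (nat_lit 152) (fin (add (start D710) (orK (nat_lit 151) (fin (add (start D1995) (orK (nat_lit 131) D2505))))))))))))))))) D2480) (orK (nat_lit 188) (fin (add (start D52) D2591)))) D2485))))))) D1948) D539) D1946) D561) D567) D569) D749) D599) (orK (nat_lit 209) (fin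 (add (add (add (start D755) D763) (orK (nat_lit 229) (fin (add (add (start D753) (orK (nat_lit 211) (fin (add (add (start (orK (nat_lit 228) (fin (add (start D248) (orK (nat_lit 227) (fin (add (start D385) D2603))))))) (orK (nat_lit 208) (fin (add (add (start D2609) D812) (orK (nat_lit 191) (fin (add (start D2101) (orK (nat_lit 188) (fin (add (start D251) (orK (nat_lit 228) (fin (add (start D777) (orK (nat_lit 248) (fin (add (start D2618) (orK (nat_lit 169) (fin (add (start D2262) (orK (nat_lit 168) (fin (add (start D363) D2261)))))))))))))))))))))) (orK (nat_lit 212) (fin (add (add (add (start (orK (nat_lit 233) (fin (add (start D785) (orK (nat_lit 213) (fin (add (start D786) (orK (nat_lit 189) (fin (add (start D2598) D2633)))))))))) D794) (orK (nat_lit 189) (fin (add (start D2598) (orK (nat_lit 213) (fin (add (start D2633) D790))))))) (orK (nat_lit 192) (fin (add (start D817) (orK (nat_lit 188) (fin (add (start D776) (orK (nat_lit 232) (fin (add (start D1313) (orK (nat_lit 252) (fin (add (add (start (orK (nat_lit 191) D1340)) D1362) (orK (nat_lit 253) (fin (add (start D2326) (orK (nat_lit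 271) (fin (add (start D1353) (orK (nat_lit 172) (fin (add (add (add (start (orK (nat_lit 171) (fin (add (start D2322) (win (nat_lit 7) (nat_lit 11) (nat_lit 8) (nat_lit 4)))))) (orK (nat_lit 153) (fin (add (start D2648) (orK (nat_lit 152) (fin (add (start D1176) (orK (nat_lit 191) (fin (add (start D2408) D1338)))))))))) (orK (nat_lit 153) (fin (add (start D2648) (orK (nat_lit 152) (fin (add (start D1176) (orK (nat_lit 132) (fin (add (start D711) D1798)))))))))) (orK (nat_lit 153) (fin (add (start D2648) (orK (nat_lit 152) (fin (add (start D1176) D2662)))))))))))))))))))))))))))))))))) D2748)))) (orK (nat_lit 150) (fin (add (add (add (start D452) D464) (orK (nat_lit 149) (fin (add (start D40) (orK (nat_lit 151) (fin (add (start D32) (orK (nat_lit 152) (fin (add (add (start D2435) D2759) (orK (nat_lit 169) (fin (add (start D2432) (orK (nat_lit 172) (fin (add (start D617) (orK (nat_lit 192) (fin (add (add (start (orK (nat_lit 191) (fin (add (start D1959) D875)))) (orK (nat_lit 132) (fin (add (start D863) (orK (nat_lit 193) (fin (add (start (win (nat_lit 0) (nat_lit 9) (nat_lit 8) (nat_lit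 2))) D1092))))))) (orK (nat_lit 191) (fin (add (start (orK (nat_lit 132) (fin (add (start D1091) D863)))) D886)))))))))))))))))))))) D565)))))))
noncomputable def D852 : OP := orK (nat_lit 191) D196
noncomputable def D2260 : OP := orK (nat_lit 212) (fin (add (start D817) D1226))
noncomputable def D821 : OP := orK (nat_lit 188) (fin (add (start D251) (orK (nat_lit 212) (fin (add (start D776) D817)))))
noncomputable def D816 : OP := orK (nat_lit 191) D192
noncomputable def D815 : OP := orK (nat_lit 191) D171
noncomputable def D814 : OP := orK (nat_lit 211) (fin (add (add (start (orK (nat_lit 228) (fin (add (start D777) (orK (nat_lit 212) (fin (add (start D778) D794))))))) (orK (nat_lit 188) (fin (add (start D251) (orK (nat_lit 212) (fin (add (start D776) D794))))))) D812))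
noncomputable def D774 : OP := orK (nat_lit 207) (fin (add (start D765) D772))
noncomputable def D670 : OP := orK (nat_lit 250) (fin (add (add (start (orK (nat_lit 249) (fin (add (start D0) (orK (nat_lit 170) (fin (add (start D1) D5))))))) D126) D19))
noncomputable def D264 : OP := orK (nat_lit 168) (fin (add (start D258) (orK (nat_lit 167) (fin (add (start D259) D260)))))
noncomputable def D2013 : OP := orK (nat_lit 172) (fin (add (start D2007) D2011))
noncomputable def D1964 : OP := orK (nat_lit 172) D708
noncomputable def D2000 : OP := orK (nat_lit 152) D1999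
noncomputable def D1974 : OP := orK (nat_lit 192) (fin (add (add (start (orK (nat_lit 191) (fin (add (start D1958) D1959)))) (orK (nat_lit 172) (fin (add (start D57) D709)))) (orK (nat_lit 168) (fin (add (start D58) (orK (nat_lit 147) (fin (add (start D61) (orK (nat_lit 167) (fin (add (start D60) (orK (nat_lit 189) (fin (add (start D59) D1964))))))))))))))
noncomputable def D1074 : OP := orK (nat_lit 172) (fin (add (start D425) (orK (nat_lit 173) (fin (add (start D1069) D1070)))))
noncomputable def D375 : OP := orK (nat_lit 229) (fin (add (start D30) (orK (nat_lit 150) (fin (add (start D31) D371)))))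
noncomputable def D217 : OP := orK (nat_lit 151) (fin (add (start D33) (orK (nat_lit 150) (fin (add (start D32) D213)))))
noncomputable def D209 : OP := orK (nat_lit 229) D208
noncomputable def D1244 : OP := orK (nat_lit 169) (fin (add (start D384) D306))
noncomputable def D1825 : AP := fin (add (add (add (add (add (add (add (add (start D1199) (orK (nat_lit 192) (fin (add (add (add (start D915) D1219) (orK (nat_lit 209) (fin (add (add (add (start D875) (orK (nat_lit 208) D171)) (orK (nat_lit 229) (fin (add (add (start D1221) (orK (nat_lit 249) (fin (add (start D751) (orK (nat_lit 189) (fin (add (add (start (orK (nat_lit 168) (fin (add (start D1222) D1223)))) (orK (nat_lit 212) (fin (add (start D77) (orK (nat_lit 211) (fin (add (start D417) D1226))))))) (orK (nat_lit 248) (fin (add (start D1231) (orK (nat_lit 169) (fin (add (start D1232) D306))))))))))))) (orK (nat_lit 150) (fin (add (start D1241) (orK (nat_lit 228) (fin (add (add (start D388) (orK (nat_lit 212) (fin (add (start D1242) (orK (nat_lit 189) (fin (add (start D77) D1244))))))) (orK (nat_lit 189) (fin (add (add (add (start D1244)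 (orK (nat_lit 248) (fin (add (start D1249) (orK (nat_lit 227) (fin (add (start D385) (orK (nat_lit 207) (fin (add (start D1250) (orK (nat_lit 268) (fin (add (start D1251) (orK (nat_lit 247) (fin (add (start D1252) (win (nat_lit 6) (nat_lit 7) (nat_lit 9) (nat_lit 0)))))))))))))))))) (orK (nat_lit 227) (fin (add (start D385) (orK (nat_lit 207) (fin (add (start D1250) (orK (nat_lit 247) (fin (add (start D1252) (orK (nat_lit 187) (fin (add (start (orK (nat_lit 188) (fin (add (start D1006) (win (nat_lit 3) (nat_lit 7) (nat_lit 8) (nat_lit 5)))))) (orK (nat_lit 248) D1273)))))))))))))) (orK (nat_lit 168) (fin (add (start D1222) (orK (nat_lit 188) (fin (add (start D72) (orK (nat_lit 187) (fin (add (start D1006) (orK (nat_lit 227) (fin (add (start D385) (orK (nat_lit 207) (fin (add (start D1250) D1283)))))))))))))))))))))))))))) D886)))) D945)))) (orK (nat_lit 209) (fin (add (add (add (start (orK (nat_lit 170) (fin (add (add (start D209) D217) (orK (nat_lit 229) (fin (add (start D30) (orK (nat_lit 171) (fin (add (start D2) (orK (nat_lit 192) (fin (add (start D191) (orK (nat_lit 168) (fin (add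 (start D1306) (orK (nat_lit 212) (fin (add (start (orK (nat_lit 189) (fin (add (start D77) (orK (nat_lit 188) (fin (add (start D72) D52))))))) (orK (nat_lit 211) (fin (add (start D1226) (orK (nat_lit 232) (fin (add (start D1313) D222))))))))))))))))))))))))) D195) (orK (nat_lit 170) (fin (add (add (start D209) D217) (orK (nat_lit 151) (fin (add (start D33) (orK (nat_lit 229) (fin (add (start D30) (orK (nat_lit 208) (fin (add (start D168) (orK (nat_lit 211) (fin (add (add (start D250) (orK (nat_lit 188) (fin (add (start D251) (orK (nat_lit 212) (fin (add (start D252) D253))))))) (orK (nat_lit 188) (fin (add (start D251) (orK (nat_lit 228) (fin (add (start D247) D264)))))))))))))))))))))) D199)))) D1391) (orK (nat_lit 171) (fin (add (add (start D165) (orK (nat_lit 193) (fin (add (add (add (start (orK (nat_lit 192) D1395)) D1418) (orK (nat_lit 173) (fin (add (add (add (add (add (start (orK (nat_lit 172) (fin (add (start D1082) (orK (nat_lit 170) (fin (add (start D1137) D375))))))) (orK (nat_lit 172) (fin (add (start D1082) (orK (nat_lit 213) (fin (add (add (start (orK (nat_lit 212) (fin (add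 (start D1429) D1435)))) (orK (nat_lit 233) (fin (add (start D1397) D1447)))) (orK (nat_lit 153) (fin (add (add (start (orK (nat_lit 152) (fin (add (start D1450) (orK (nat_lit 154) (fin (add (start D1451) D1452))))))) D1471) D1476)))))))))) (orK (nat_lit 229) (fin (add (start D1488) D1548)))) (orK (nat_lit 170) (fin (add (start D375) D1551)))) (orK (nat_lit 172) (fin (add (start D1082) (orK (nat_lit 170) (fin (add (start D375) D1145))))))) (orK (nat_lit 172) (fin (add (start D1082) D1147))))))) (orK (nat_lit 192) D1568))))) D204)))) (orK (nat_lit 171) (fin (add (add (start D165) (orK (nat_lit 192) (fin (add (add (add (start D1574) D915) (orK (nat_lit 189) (fin (add (start D1576) (orK (nat_lit 209) (fin (add (start D325) (orK (nat_lit 169) (fin (add (start D306) (orK (nat_lit 229) (fin (add (start D1221) D390))))))))))))) D1594)))) D204)))) (orK (nat_lit 170) (fin (add (add (add (add (start D39) D1608) (orK (nat_lit 171) (fin (add (start D2) (orK (nat_lit 229) (fin (add (start D30) (orK (nat_lit 172) (fin (add (add (start D1610) (orK (nat_lit 173) (fin (add (start D1082) (orK (nat_lit 153)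 (fin (add (start D495) (orK (nat_lit 152) (fin (add (start D1138) (orK (nat_lit 193) (fin (add (start D1137) D1141))))))))))))) (orK (nat_lit 188) (fin (add (start D1619) (orK (nat_lit 168) (fin (add (add (start (orK (nat_lit 169) (fin (add (start D363) D679)))) (orK (nat_lit 208) (fin (add (add (add (start (orK (nat_lit 209) (fin (add (start D258) D1624)))) (orK (nat_lit 209) (fin (add (start D258) (orK (nat_lit 211) (fin (add (start D251) D250))))))) (orK (nat_lit 209) (fin (add (add (start (orK (nat_lit 211) (fin (add (start D251) D1624)))) (orK (nat_lit 228) (fin (add (start D1624) D1634)))) (orK (nat_lit 228) (fin (add (start D1634) D1640))))))) (orK (nat_lit 227) (fin (add (add (start D1645) D1656) (orK (nat_lit 228) D1659)))))))) (orK (nat_lit 169) (fin (add (start D363) (orK (nat_lit 148) (fin (add (start D493) D1670)))))))))))))))))))))) D1688) D1692)))) (orK (nat_lit 171) (fin (add (add (start D165) (orK (nat_lit 189) (fin (add (add (add (start D1074) D1064) (orK (nat_lit 188) (fin (add (add (start D1045) D1700) D1704)))) (orK (nat_lit 172) (fin (add (add (start D1153) (orK (nat_lit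 209) (fin (add (add (start D1709) (orK (nat_lit 229) (fin (add (start (orK (nat_lit 249) (fin (add (start D178) D751)))) (orK (nat_lit 228) (fin (add (start (orK (nat_lit 211) D249)) (orK (nat_lit 248) (fin (add (start D1249) (orK (nat_lit 268) (fin (add (start D1713) D1251))))))))))))) (orK (nat_lit 229) (fin (add (add (start D1221) (orK (nat_lit 249) (fin (add (start D751) (orK (nat_lit 248) (fin (add (start D1231) (orK (nat_lit 169) (fin (add (start D1232) (orK (nat_lit 168) (fin (add (start D73) D1722))))))))))))) (orK (nat_lit 170) (fin (add (start D207) (orK (nat_lit 169) (fin (add (start D390) D1736))))))))))))) D1193))))))) D204)))) (orK (nat_lit 192) (fin (add (add (add (start D945) (orK (nat_lit 193) (fin (add (start D79) (orK (nat_lit 170) (fin (add (start D931) (orK (nat_lit 171) (fin (add (start D1392) D2)))))))))) (orK (nat_lit 189) (fin (add (add (add (start D1763) D1767) D1771) (orK (nat_lit 172) (fin (add (start D221) (orK (nat_lit 169) (fin (add (start D306) (orK (nat_lit 209) (fin (add (start D325) (orK (nat_lit 212) (fin (add (start D77) (orK (nat_lit 152) (fin (add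 (add (start (orK (nat_lit 170) (fin (add (start D1774) (orK (nat_lit 153) (fin (add (start D1176) (win (nat_lit 4) (nat_lit 9) (nat_lit 7) (nat_lit 2))))))))) (orK (nat_lit 170) (fin (add (start D1774) (orK (nat_lit 151) (fin (add (start D33) D1787))))))) D1800))))))))))))))))))) D1822))))
noncomputable def D860 : OP := win (nat_lit 5) (nat_lit 9) (nat_lit 7) (nat_lit 5)
noncomputable def D480 : OP := orK (nat_lit 171) (fin (add (start D2) (orK (nat_lit 250) (fin (add (start D3) D23)))))
noncomputable def D11132 : AP := fin (add (add (add (add (add (add (add (add (add (add (add (add (add (add (add (add (add (add (add (add (add (add (start (orK (nat_lit 170) (fin (add (add (add (add (add (add (start (orK (nat_lit 230) (fin (add (add (add (start D472) D476) D480) (orK (nat_lit 169) (fin (add (start D20) (orK (nat_lit 171) (fin (add (start D2) (orK (nat_lit 229) (fin (add (start D30) (orK (nat_lit 168) (fin (add (add (start D481) D492) (orK (nat_lit 192) (fin (add (start D58) (orK (nat_lit 172) (fin (add (start D57) (orK (nat_lit 148) (fin (add (start D493) (orK (nat_lit 153) (fin (add (start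 D494) D498)))))))))))))))))))))))))))) D539) D561) D567) D569) D599) D643)))) (orK (nat_lit 230) (fin (add (add (add (add (add (start (orK (nat_lit 169) (fin (add (add (add (start (orK (nat_lit 149) (fin (add (start D301) (orK (nat_lit 189) D286))))) (orK (nat_lit 170) (fin (add (start D20) (orK (nat_lit 171) (fin (add (start D2) D647))))))) (orK (nat_lit 191) (fin (add (add (add (start D653) (orK (nat_lit 189) (fin (add (start D283) (orK (nat_lit 192) (fin (add (start D306) D81))))))) D206) (orK (nat_lit 192) (fin (add (add (start D81) (orK (nat_lit 168) (fin (add (start D656) (orK (nat_lit 170) (fin (add (start D363) D657))))))) (orK (nat_lit 189) D328)))))))) (orK (nat_lit 189) D288))))) D670) D160) (orK (nat_lit 189) D339)) (orK (nat_lit 169) (fin (add (add (start (orK (nat_lit 149) (fin (add (start D301) (orK (nat_lit 189) D671))))) D676) (orK (nat_lit 170) (fin (add (start D20) D39))))))) (orK (nat_lit 170) (fin (add (add (add (start D39) D47) (orK (nat_lit 151) (fin (add (start D33) (orK (nat_lit 150) (fin (add (start D32) D43))))))) (orK (nat_lit 169) (fin (add (start D20) (orK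 (nat_lit 171) (fin (add (start D2) (orK (nat_lit 229) (fin (add (start D30) (orK (nat_lit 168) (fin (add (start D481) (orK (nat_lit 148) (fin (add (start D493) (orK (nat_lit 188) (fin (add (start D679) (orK (nat_lit 209) (fin (add (start D680) D681)))))))))))))))))))))))))))) (orK (nat_lit 170) (fin (add (add (add (add (add (add (add (add (start (orK (nat_lit 230) (fin (add (add (start D47) D472) D480)))) D539) (orK (nat_lit 230) (fin (add (add (add (start D472) D476) D480) (orK (nat_lit 169) (fin (add (start D20) (orK (nat_lit 229) (fin (add (start D30) (orK (nat_lit 171) (fin (add (start D2) (orK (nat_lit 211) (fin (add (start D706) (orK (nat_lit 172) (fin (add (start D709) (orK (nat_lit 152) (fin (add (start D710) (orK (nat_lit 192) (fin (add (start D57) (orK (nat_lit 132) (fin (add (start D711) D721)))))))))))))))))))))))))))) D561) D567) D569) D749) D599) (orK (nat_lit 209) (fin (add (add (add (start D755) D763) (orK (nat_lit 208) (fin (add (add (add (start D774) D775) D814) (orK (nat_lit 192) (fin (add (add (add (start D815) D816) (orK (nat_lit 211) (fin (add (add (start D821) (orK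 (nat_lit 212) D822)) (orK (nat_lit 188) (fin (add (start D251) (orK (nat_lit 228) (fin (add (start D777) (orK (nat_lit 248) (fin (add (add (start (orK (nat_lit 189) D826)) D837) (orK (nat_lit 189) (fin (add (start D824) (orK (nat_lit 249) (fin (add (start (win (nat_lit 3) (nat_lit 9) (nat_lit 8) (nat_lit 1))) D839))))))))))))))))))) D852))))))) (orK (nat_lit 150) (fin (add (add (add (start D452) D464) (orK (nat_lit 149) (fin (add (start D40) (orK (nat_lit 151) (fin (add (start D32) (orK (nat_lit 171) (fin (add (add (start D857) (orK (nat_lit 173) (fin (add (start (win (nat_lit 2) (nat_lit 9) (nat_lit 7) (nat_lit 1))) (orK (nat_lit 152) (fin (add (start (orK (nat_lit 153) (fin (add (start D859) D860)))) (orK (nat_lit 132) (fin (add (start D863) (orK (nat_lit 191) (fin (add (start D864) D199))))))))))))) (orK (nat_lit 148) (fin (add (start D604) (orK (nat_lit 128) (fin (add (start D873) (orK (nat_lit 191) (fin (add (start (orK (nat_lit 152) (fin (add (start (orK (nat_lit 132) (fin (add (start D864) D863)))) (orK (nat_lit 153) (fin (add (start D860) D880))))))) (orK (nat_lit 192) D887))))))))))))))))))))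 D565)))))))))) (orK (nat_lit 230) (fin (add (add (add (add (add (add (start (orK (nat_lit 191) (fin (add (add (start (orK (nat_lit 189) (fin (add (add (start D150) (orK (nat_lit 250) (fin (add (start D128) D344)))) (orK (nat_lit 250) (fin (add (start D128) D294))))))) D206) (orK (nat_lit 192) (fin (add (add (add (start D915) (orK (nat_lit 171) (fin (add (add (start D165) D938) D204)))) (orK (nat_lit 209) (fin (add (add (start D875) (orK (nat_lit 170) (fin (add (start D209) (orK (nat_lit 171) (fin (add (start D2) (orK (nat_lit 189) (fin (add (add (start D220) (orK (nat_lit 212) (fin (add (start D77) (orK (nat_lit 172) (fin (add (start D221) D228))))))) (orK (nat_lit 212) (fin (add (start D77) (orK (nat_lit 188) (fin (add (start D76) D52)))))))))))))))) D886)))) D945))))))) D670) D1002) (orK (nat_lit 191) (fin (add (add (start (orK (nat_lit 209) (fin (add (add (add (start (orK (nat_lit 189) (fin (add (start D1005) (orK (nat_lit 192) (fin (add (start D191) (orK (nat_lit 212) (fin (add (start D77) (orK (nat_lit 188) (fin (add (start D76) D1010))))))))))))) D195) (orK (nat_lit 208) (fin (add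 (start D168) (orK (nat_lit 250) (fin (add (add (start D17) (orK (nat_lit 189) D1004)) (orK (nat_lit 251) (fin (add (start D127) (orK (nat_lit 189) (fin (add (start D128) (orK (nat_lit 211) (fin (add (add (start D1020) (orK (nat_lit 212) D1021)) (orK (nat_lit 188) (fin (add (start D129) D1028))))))))))))))))))) D199)))) D206) (orK (nat_lit 171) (fin (add (add (start D165) (orK (nat_lit 189) (fin (add (add (add (start (orK (nat_lit 192) (fin (add (add (start D327) D1054) (orK (nat_lit 212) (fin (add (start D77) (orK (nat_lit 172) (fin (add (start D221) (orK (nat_lit 209) (fin (add (start D325) D228))))))))))))) D1064) (orK (nat_lit 188) (fin (add (add (start D1045) D148) D1066)))) D1074)))) D204))))))) (orK (nat_lit 191) D1825)) D1873) D160)))) (orK (nat_lit 170) (fin (add (add (add (add (add (add (add (add (start D1923) D1946) D1948) D539) (orK (nat_lit 171) (fin (add (add (add (start D1953) (orK (nat_lit 169) (fin (add (add (start D1974) D1980) D1981)))) D1991) (orK (nat_lit 151) (fin (add (add (start D1951) (orK (nat_lit 169) (fin (add (add (add (start D1994) D2000) D1974) D2013)))) (orK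 (nat_lit 131) (fin (add (start D1901) (orK (nat_lit 169) (fin (add (add (add (start D2000) (orK (nat_lit 189) (fin (add (start D1964) (orK (nat_lit 149) (fin (add (start D284) (orK (nat_lit 209) (fin (add (start (orK (nat_lit 148) (fin (add (start D2016) D2019)))) (orK (nat_lit 228) (fin (add (start D2022) (orK (nat_lit 229) (fin (add (start D384) D2023)))))))))))))))) D2013) (orK (nat_lit 149) (fin (add (add (start D1919) (orK (nat_lit 168) (fin (add (start D1992) (orK (nat_lit 167) (fin (add (add (add (start D63) (orK (nat_lit 166) (fin (add (start D482) (orK (nat_lit 148) (fin (add (start D493) D2034))))))) (orK (nat_lit 166) (fin (add (start D482) (orK (nat_lit 145) (fin (add (start D2039) (orK (nat_lit 165) (fin (add (start D2040) D2041)))))))))) D2053))))))) (orK (nat_lit 152) (fin (add (start D1995) (orK (nat_lit 153) (fin (add (start D880) (orK (nat_lit 129) (fin (add (start D1877) (orK (nat_lit 130) (fin (add (start D2058) D2059)))))))))))))))))))))))))))) D561) D567) D569) D643)))) (orK (nat_lit 230) (fin (add (add (add (add (start (orK (nat_lit 170) (fin (add (add (start D47)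 D2100) (orK (nat_lit 229) (fin (add (start D30) (orK (nat_lit 151) (fin (add (start D33) (orK (nat_lit 209) (fin (add (start D207) (orK (nat_lit 228) (fin (add (add (start D388) (orK (nat_lit 208) (fin (add (add (start D1624) (orK (nat_lit 211) (fin (add (start D248) (orK (nat_lit 188) (fin (add (start D251) (orK (nat_lit 191) (fin (add (start D2101) D264)))))))))) (orK (nat_lit 207) (fin (add (start D1622) (orK (nat_lit 187) (fin (add (start D804) (orK (nat_lit 211) (fin (add (start D803) D248))))))))))))) (orK (nat_lit 227) (fin (add (start D385) (orK (nat_lit 207) (fin (add (start D1250) (orK (nat_lit 208) (fin (add (start D765) (orK (nat_lit 187) (fin (add (start D804) D2119)))))))))))))))))))))))))))) D670) D2151) D160) (orK (nat_lit 189) (fin (add (add (start (orK (nat_lit 250) (fin (add (add (start D298) D19) D152)))) D305) (orK (nat_lit 169) (fin (add (add (start D287) (orK (nat_lit 188) (fin (add (add (add (start D2159) D102) (orK (nat_lit 187) (fin (add (start D979) (orK (nat_lit 170) (fin (add (start D2160) D2161))))))) D2184)))) D303)))))))))) (orK (nat_lit 170) (fin (add (add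 (add (add (add (add (add (add (start (orK (nat_lit 171) (fin (add (add (add (start D1953) (orK (nat_lit 169) (fin (add (add (start D2210) D1980) D1981)))) D1991) (orK (nat_lit 172) (fin (add (add (add (start D2217) D2236) (orK (nat_lit 189) (fin (add (add (start D2215) (orK (nat_lit 169) (fin (add (start D2238) (orK (nat_lit 192) (fin (add (start D57) (orK (nat_lit 168) (fin (add (start D58) D2241)))))))))) D2250)))) D2254))))))) D1946) D1948) D539) D561) D567) D569) D599) (orK (nat_lit 209) (fin (add (add (add (start D755) D763) (orK (nat_lit 208) (fin (add (add (add (start D774) D775) D814) (orK (nat_lit 192) (fin (add (add (add (start D815) D816) (orK (nat_lit 229) (fin (add (add (start D753) (orK (nat_lit 211) (fin (add (add (start D2260) (orK (nat_lit 188) (fin (add (start D251) (orK (nat_lit 228) (fin (add (start D777) (orK (nat_lit 168) (fin (add (start D258) (orK (nat_lit 169) (fin (add (start D2261) (orK (nat_lit 248) (fin (add (start D2262) (orK (nat_lit 267) (fin (add (start D828) (orK (nat_lit 268) (fin (add (start D829) D1251)))))))))))))))))))))) D821)))) (orK (nat_lit 249)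 (fin (add (start D751) (orK (nat_lit 188) (fin (add (add (start D2281) (orK (nat_lit 211) (fin (add (start D251) D2260)))) (orK (nat_lit 187) (fin (add (start D2284) (orK (nat_lit 168) (fin (add (start D258) (orK (nat_lit 186) (fin (add (start D2285) (orK (nat_lit 169) (fin (add (start D2286) D2287)))))))))))))))))))))) D852))))))) (orK (nat_lit 191) (fin (add (add (add (start (orK (nat_lit 192) (fin (add (start D191) D2428)))) D195) (orK (nat_lit 207) (fin (add (start D2431) (orK (nat_lit 150) (fin (add (add (start D213) (orK (nat_lit 151) (fin (add (start D32) (orK (nat_lit 149) (fin (add (start D40) (orK (nat_lit 152) (fin (add (start D2435) (orK (nat_lit 172) (fin (add (start D617) (orK (nat_lit 171) (fin (add (start D2436) (orK (nat_lit 132) (fin (add (start D1090) D864))))))))))))))))))) D452))))))) D199)))))))))) (orK (nat_lit 170) D2792)) (orK (nat_lit 230) (fin (add (add (add (add (start (orK (nat_lit 191) (fin (add (add (add (start D167) (orK (nat_lit 192) (fin (add (add (start D915) (orK (nat_lit 169) (fin (add (start (orK (nat_lit 189) D2794)) D2797)))) (orK (nat_lit 189) (fin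 (add (start (orK (nat_lit 169) D2794)) D2804))))))) D206) (orK (nat_lit 151) (fin (add (add (add (start (orK (nat_lit 171) D164)) D2811) (orK (nat_lit 192) (fin (add (add (add (start D915) (orK (nat_lit 169) (fin (add (start D2797) (orK (nat_lit 189) (fin (add (start D306) (orK (nat_lit 212) (fin (add (start D77) (orK (nat_lit 211) (fin (add (start D417) D2815))))))))))))) (orK (nat_lit 209) (fin (add (add (start D875) (orK (nat_lit 189) (fin (add (start D2826) (orK (nat_lit 212) (fin (add (start D77) (orK (nat_lit 211) (fin (add (start D417) (orK (nat_lit 232) (fin (add (start D1313) D2815))))))))))))) D886)))) D945)))) (orK (nat_lit 171) D203)))))))) D2851) D2151) D160) (orK (nat_lit 191) D3249))))) (orK (nat_lit 189) D4189)) (orK (nat_lit 191) D6233)) (orK (nat_lit 230) (fin (add (add (add (add (add (add (start D160) D6236) (orK (nat_lit 189) (fin (add (add (start D289) (orK (nat_lit 188) (fin (add (add (add (start D3421) (orK (nat_lit 211) (fin (add (add (start D2518) D2520) (orK (nat_lit 191) (fin (add (start D6240) D6248))))))) D3334) D3336)))) (orK (nat_lit 169) (fin (add (start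 D283) (orK (nat_lit 129) (fin (add (start D3819) (orK (nat_lit 191) (fin (add (add (add (start D3222) (orK (nat_lit 171) (fin (add (start D3217) D165)))) D3230) (orK (nat_lit 188) (fin (add (start D141) D6262)))))))))))))))) (orK (nat_lit 250) (fin (add (add (add (start D122) D126) D19) (orK (nat_lit 249) (fin (add (start D0) (orK (nat_lit 251) (fin (add (start D127) (orK (nat_lit 191) (fin (add (start D10) D5052))))))))))))) D1002) D1873) (orK (nat_lit 188) D7188))))) (orK (nat_lit 189) D7477)) (orK (nat_lit 170) D8457)) (orK (nat_lit 170) D8687)) (orK (nat_lit 230) (fin (add (add (add (add (start (orK (nat_lit 170) (fin (add (add (start D39) D8704) D47)))) D2851) D2151) (orK (nat_lit 250) (fin (add (add (start D19) (orK (nat_lit 171) (fin (add (start D3) (orK (nat_lit 170) (fin (add (start D2) D23))))))) D959)))) D6236)))) (orK (nat_lit 170) (fin (add (add (add (add (add (add (add (add (start D1923) D1946) D1948) D539) (orK (nat_lit 171) (fin (add (add (add (start D1953) (orK (nat_lit 169) (fin (add (add (start (orK (nat_lit 188) (fin (add (add (start (orK (nat_lit 189) D54)) (orK (nat_lit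 172) (fin (add (start D2088) (orK (nat_lit 153) (fin (add (start D494) (orK (nat_lit 173) (fin (add (start D495) (orK (nat_lit 191) (fin (add (start D1082) D366))))))))))))) (orK (nat_lit 168) (fin (add (start D679) D481))))))) D1980) D1981)))) D1991) (orK (nat_lit 189) (fin (add (add (add (start (orK (nat_lit 172) (fin (add (start D56) (orK (nat_lit 169) (fin (add (start D2238) (orK (nat_lit 152) (fin (add (start D710) (orK (nat_lit 168) (fin (add (start D2239) D7221))))))))))))) D2480) (orK (nat_lit 188) (fin (add (start D52) (orK (nat_lit 168) (fin (add (add (add (start (orK (nat_lit 167) D7179)) (orK (nat_lit 209) (fin (add (add (start (orK (nat_lit 229) (fin (add (start D2023) (orK (nat_lit 148) (fin (add (start D1023) D680))))))) (orK (nat_lit 212) (fin (add (start (win (nat_lit 2) (nat_lit 8) (nat_lit 9) (nat_lit 1))) (orK (nat_lit 148) (fin (add (start D1023) (orK (nat_lit 169) (fin (add (start D493) (orK (nat_lit 191) (fin (add (start D364) D8745))))))))))))) (orK (nat_lit 229) (fin (add (start D2023) (orK (nat_lit 211) (fin (add (start D3494) (orK (nat_lit 191) (fin (add (start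 (orK (nat_lit 208) D2608)) (orK (nat_lit 151) (fin (add (start D162) (orK (nat_lit 152) (fin (add (start D4510) (win (nat_lit 4) (nat_lit 8) (nat_lit 7) (nat_lit 1))))))))))))))))))))) (orK (nat_lit 191) (fin (add (start D72) (orK (nat_lit 211) (fin (add (start D87) (orK (nat_lit 208) (fin (add (start D86) (orK (nat_lit 209) (fin (add (start D2101) (orK (nat_lit 229) (fin (add (start D2023) D258)))))))))))))))) (orK (nat_lit 148) (fin (add (add (start (orK (nat_lit 169) D8780)) (orK (nat_lit 147) (fin (add (start (win (nat_lit 2) (nat_lit 7) (nat_lit 7) (nat_lit 2))) (orK (nat_lit 127) (fin (add (start D6005) (orK (nat_lit 107) (fin (add (start (win (nat_lit 6) (nat_lit 7) (nat_lit 4) (nat_lit 0))) (win (nat_lit 6) (nat_lit 7) (nat_lit 5) (nat_lit 3)))))))))))) (orK (nat_lit 209) (fin (add (start D1023) (orK (nat_lit 229) (fin (add (start D2023) D680)))))))))))))))) D2485))))))) D561) D567) D569) D643)))) (orK (nat_lit 191) D9470)) (orK (nat_lit 170) D9630)) (orK (nat_lit 170) D9945)) (orK (nat_lit 189) D10880)) (orK (nat_lit 170) D11092)) (orK (nat_lit 170) (fin (add (add (add (add (add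 (add (start D9229) (orK (nat_lit 230) (fin (add (add (add (add (start (orK (nat_lit 171) (fin (add (start D2) (orK (nat_lit 250) (fin (add (start D3) D8482))))))) (orK (nat_lit 169) (fin (add (start D20) (orK (nat_lit 250) (fin (add (start D21) (orK (nat_lit 271) (fin (add (start D12) (orK (nat_lit 270) (fin (add (start D13) (orK (nat_lit 229) (fin (add (start D30) (orK (nat_lit 211) (fin (add (start D3345) D706))))))))))))))))))) (orK (nat_lit 171) (fin (add (start D2) (orK (nat_lit 169) (fin (add (start D20) D647))))))) D8502) (orK (nat_lit 169) (fin (add (start D20) (orK (nat_lit 171) (fin (add (start D2) (orK (nat_lit 229) (fin (add (start D30) (orK (nat_lit 189) (fin (add (add (start D55) D71) (orK (nat_lit 188) (fin (add (start D52) D102))))))))))))))))))) D539) D561) D567) D569) D643))))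
noncomputable def D11133 : OP := orK (nat_lit 190) D11132

end Vale.Agent.Lib.P062.CH
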